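import Mathlib

/-!
Definitions for the super-exponential lower bound for `W_2(k)` (P053).
-/

namespace Vale.Agent.H18.VW

open Finset

/-- The function `pat` takes at most `N` different values. -/
def AtMost {Ω β : Type*} (pat : Ω → β) (N : ℕ) : Prop :=
  ∃ F : Finset β, F.card ≤ N ∧ ∀ ω, pat ω ∈ F

/-- Residue of `S * x` modulo `p`, in `[0, p)`. -/
def zz (S p : ℕ) (x : ℤ) : ℤ := ((S : ℤ) * x) % p

/-- `2 z - p`, small exactly when the residue `z` is near `p / 2`. -/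
def tau (S p : ℕ) (x : ℤ) : ℤ := 2 * zz S p x - p

/-- Centred residue of `S * x` modulo `p`. -/
def zc (S p : ℕ) (x : ℤ) : ℤ := if 2 * zz S p x < p then zz S p x else zz S p x - p

/-- Cell number `⌊n z / p⌋`. -/
def cell (n p : ℕ) (z : ℤ) : ℤ := ((n : ℤ) * z) / p

/-- Logarithmic class, invariant under multiplication by `2`. -/
noncomputable def lg (L : ℕ) (w : ℝ) : ℤ := ⌊(L : ℝ) * Real.logb 2 |w|⌋ % L

/-- Coarse class of `x` at the prime `p`. -/
noncomputable def kap (m p : ℕ) (x : ℤ) : ℤ × ℤ × ℤ :=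
  (cell (400 * m) p (x % p), cell (400 * m) p (zz m.factorial p x),
    lg (200 * m) (tau m.factorial p x : ℝ))

/-- Coarse class of `x`. -/
noncomputable def kappa {D : ℕ} (m : ℕ) (p : Fin D → ℕ) (x : ℤ) : Fin D → ℤ × ℤ × ℤ :=
  fun i => kap m (p i) x

/-- Fine index of `x`. -/
def idx {D : ℕ} (m k : ℕ) (p : Fin D → ℕ) (x : ℤ) : (Fin D → ℤ) × ℤ :=
  (fun i => cell (4 * k) (p i) (zz m.factorial (p i) x),
    ∑ i, (zc m.factorial (p i) x) ^ 2)

/-! ### API for `AtMost` -/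

section AtMost
variable {Ω Ω' β γ : Type*}

lemma AtMost.mono {pat : Ω → β} {N N' : ℕ} (h : AtMost pat N) (hN : N ≤ N') : AtMost pat N' := by
  obtain ⟨F, h1, h2⟩ := h
  exact ⟨F, h1.trans hN, h2⟩

lemma AtMost.precomp {pat : Ω → β} {N : ℕ} (h : AtMost pat N) (e : Ω' → Ω) :
    AtMost (fun ω => pat (e ω)) N := by
  obtain ⟨F, h1, h2⟩ := h
  exact ⟨F, h1, fun ω => h2 _⟩

/-- If `pat'` is determined by `pat`, it takes at most as many values. -/
lemma AtMost.of_factor {pat : Ω → β} {N : ℕ} (h : AtMost pat N) (pat' : Ω → γ)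
    (hf : ∀ ω ω', pat ω = pat ω' → pat' ω = pat' ω') : AtMost pat' N := by
  classical
  obtain ⟨F, h1, h2⟩ := h
  rcases isEmpty_or_nonempty Ω with hΩ | ⟨⟨ω0⟩⟩
  · exact ⟨∅, by simp, fun ω => (hΩ.false ω).elim⟩
  let s : β → Ω := fun b => if hb : ∃ ω, pat ω = b then hb.choose else ω0
  refine ⟨F.image (fun b => pat' (s b)), Finset.card_image_le.trans h1, fun ω => ?_⟩
  refine Finset.mem_image.2 ⟨pat ω, h2 ω, ?_⟩
  apply hf
  have hb : ∃ ω', pat ω' = pat ω := ⟨ω, rfl⟩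
  simp only [s, dif_pos hb]
  exact hb.choose_spec

lemma AtMost.comp {pat : Ω → β} {N : ℕ} (h : AtMost pat N) (g : β → γ) :
    AtMost (fun ω => g (pat ω)) N :=
  h.of_factor _ (fun ω ω' hω => by rw [hω])

lemma AtMost.prod {pat : Ω → β} {pat' : Ω → γ} {N N' : ℕ} (h : AtMost pat N)
    (h' : AtMost pat' N') : AtMost (fun ω => (pat ω, pat' ω)) (N * N') := by
  obtain ⟨F, h1, h2⟩ := h
  obtain ⟨F', h1', h2'⟩ := h'
  refine ⟨F ×ˢ F', ?_, fun ω => ?_⟩
  · rw [Finset.card_product]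
    exact Nat.mul_le_mul h1 h1'
  · exact Finset.mem_product.2 ⟨h2 ω, h2' ω⟩

lemma AtMost.pi {D : ℕ} {β : Fin D → Type*} {pat : ∀ i : Fin D, Ω → β i} {N : ℕ}
    (h : ∀ i, AtMost (pat i) N) : AtMost (fun ω => fun i => pat i ω) (N ^ D) := by
  classical
  choose F h1 h2 using h
  refine ⟨Fintype.piFinset F, ?_, fun ω => ?_⟩
  · rw [Fintype.card_piFinset]
    calc ∏ i, (F i).card ≤ ∏ _i : Fin D, N := Finset.prod_le_prod' (fun i _ => h1 i)
      _ = N ^ D := by simp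
  · exact Fintype.mem_piFinset.2 (fun i => h2 i ω)

lemma AtMost.of_fintype {pat : Ω → β} [Fintype β] : AtMost pat (Fintype.card β) :=
  ⟨Finset.univ, le_rfl, fun _ => Finset.mem_univ _⟩

end AtMost

/-! ### Unfolding lemmas -/

lemma zz_def (S p : ℕ) (x : ℤ) : zz S p x = ((S : ℤ) * x) % p := rfl
lemma tau_def (S p : ℕ) (x : ℤ) : tau S p x = 2 * zz S p x - p := rfl
lemma zc_def (S p : ℕ) (x : ℤ) :
    zc S p x = if 2 * zz S p x < p then zz S p x else zz S p x - p := rfl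
lemma cell_def (n p : ℕ) (z : ℤ) : cell n p z = ((n : ℤ) * z) / p := rfl
lemma lg_def (L : ℕ) (w : ℝ) : lg L w = ⌊(L : ℝ) * Real.logb 2 |w|⌋ % L := rfl
lemma kap_def (m p : ℕ) (x : ℤ) : kap m p x =
  (cell (400 * m) p (x % p), cell (400 * m) p (zz m.factorial p x),
    lg (200 * m) (tau m.factorial p x : ℝ)) := rfl
lemma kappa_apply {D : ℕ} (m : ℕ) (p : Fin D → ℕ) (x : ℤ) (i : Fin D) :
    kappa m p x i = kap m (p i) x := rfl
lemma idx_def {D : ℕ} (m k : ℕ) (p : Fin D → ℕ) (x : ℤ) : idx m k p x =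
  (fun i => cell (4 * k) (p i) (zz m.factorial (p i) x),
    ∑ i, (zc m.factorial (p i) x) ^ 2) := rfl

lemma zz_nonneg {S p : ℕ} (hp : 0 < p) (x : ℤ) : 0 ≤ zz S p x :=
  Int.emod_nonneg _ (by exact_mod_cast hp.ne')

lemma zz_lt {S p : ℕ} (hp : 0 < p) (x : ℤ) : zz S p x < p :=
  Int.emod_lt_of_pos _ (by exact_mod_cast hp)

end Vale.Agent.H18.VW
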