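import Mathlib
import Vale.Agent.H18.VW.Defs

/-! L4a. A colouring of the coarse classes balanced on all injective blocks. -/

namespace Vale.Agent.H18.VW

open Finset

/-- counting functions with prescribed values on a finset. -/
theorem balA_card_fix {O α : Type*} [Fintype O] [DecidableEq O] [Fintype α] [DecidableEq α]
    (T : Finset O) (s : O → Finset α) (r : ℝ)
    (hs : ∀ o ∈ T, ((s o).card : ℝ) ≤ r * Fintype.card α) :
    (((univ : Finset (O → α)).filter (fun G => ∀ o ∈ T, G o ∈ s o)).card : ℝ)
      ≤ r ^ T.card * (Fintype.card α : ℝ) ^ Fintype.card O := by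
  classical
  have h1 : (univ : Finset (O → α)).filter (fun G => ∀ o ∈ T, G o ∈ s o)
      = Fintype.piFinset (fun o => if o ∈ T then s o else univ) := by
    ext G
    simp only [mem_filter, mem_univ, true_and, Fintype.mem_piFinset]
    constructor
    · intro h o
      by_cases ho : o ∈ T
      · rw [if_pos ho]; exact h o ho
      · rw [if_neg ho]; exact mem_univ _
    · intro h o ho
      have := h o
      rwa [if_pos ho] at this
  rw [h1, Fintype.card_piFinset]
  push_cast
  calc ∏ o, (((if o ∈ T then s o else univ) : Finset α).card : ℝ)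
      ≤ ∏ o, ((if o ∈ T then r else 1) * (Fintype.card α : ℝ)) := by
        refine prod_le_prod (fun _ _ => by positivity) fun o _ => ?_
        by_cases ho : o ∈ T
        · rw [if_pos ho, if_pos ho]; exact hs o ho
        · rw [if_neg ho, if_neg ho, one_mul, card_univ]
    _ = r ^ T.card * (Fintype.card α : ℝ) ^ Fintype.card O := by
        rw [prod_mul_distrib, prod_const, card_univ, prod_ite_mem, univ_inter, prod_const]

theorem balA_card_small_subsets (m t : ℕ) :
    ((univ : Finset (Finset (Fin m))).filter (fun A => A.card < t)).card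
      ≤ ∑ i ∈ range t, m.choose i := by
  classical
  have h : (univ : Finset (Finset (Fin m))).filter (fun A => A.card < t)
      ⊆ (range t).biUnion (fun i => powersetCard i univ) := by
    intro A hA
    simp only [mem_filter, mem_univ, true_and] at hA
    simp only [mem_biUnion, mem_range, mem_powersetCard, subset_univ, true_and]
    exact ⟨A.card, hA, rfl⟩
  refine (card_le_card h).trans (card_biUnion_le.trans ?_)
  refine sum_le_sum fun i _ => ?_
  rw [card_powersetCard, card_univ, Fintype.card_fin]

/-- there is a 2-colouring `G` of the finite set `O` of cells such that all the injective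
patterns `w ∈ P` contain at least `t` elements of either colour. -/
theorem balA_exists_G {O : Type*} [Fintype O] [DecidableEq O] (m t : ℕ) (P : Finset (Fin m → O))
    (hinj : ∀ w ∈ P, Function.Injective w)
    (h : 2 * P.card * (∑ i ∈ range t, m.choose i) < 2 ^ m) :
    ∃ G : O → Bool, ∀ w ∈ P, ∀ c : Bool,
      t ≤ (univ.filter (fun h => G (w h) = c)).card := by
  classical
  by_contra hcon
  push Not at hcon
  -- the bad sets
  set bad : (Fin m → O) → Bool → Finset (O → Bool) := fun w c =>
    univ.filter (fun G => (univ.filter (fun h => G (w h) = c)).card < t) with hbad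
  set S : ℕ := ∑ i ∈ range t, m.choose i with hS
  have hb : ∀ w ∈ P, ∀ c, ((bad w c).card : ℝ) ≤ S * ((1 / 2) ^ m * 2 ^ Fintype.card O) := by
    intro w hw c
    have hsub : bad w c ⊆ ((univ : Finset (Finset (Fin m))).filter
        (fun A => A.card < t)).biUnion (fun A => univ.filter (fun G : O → Bool =>
          ∀ o ∈ univ.image w, G o ∈ ({Function.extend w (fun h => if h ∈ A then c else !c)
            (fun _ => false) o} : Finset Bool))) := by
      intro G hG
      simp only [hbad, mem_filter, mem_univ, true_and] at hG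
      simp only [mem_biUnion, mem_filter, mem_univ, true_and, mem_singleton]
      refine ⟨univ.filter (fun h => G (w h) = c), hG, ?_⟩
      intro o ho
      obtain ⟨h, -, rfl⟩ := mem_image.1 ho
      rw [(hinj w hw).extend_apply]
      by_cases hc : G (w h) = c
      · simp [hc]
      · have : G (w h) = !c := by
          revert hc; cases G (w h) <;> cases c <;> simp
        simp [this]
    calc ((bad w c).card : ℝ)
        ≤ ∑ A ∈ (univ : Finset (Finset (Fin m))).filter (fun A => A.card < t),
          (((univ : Finset (O → Bool)).filter (fun G : O → Bool =>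
          ∀ o ∈ univ.image w, G o ∈ ({Function.extend w (fun h => if h ∈ A then c else !c)
            (fun _ => false) o} : Finset Bool))).card : ℝ) := by
          exact_mod_cast (card_le_card hsub).trans card_biUnion_le
      _ ≤ ∑ A ∈ (univ : Finset (Finset (Fin m))).filter (fun A => A.card < t),
          ((1 / 2) ^ m * 2 ^ Fintype.card O : ℝ) := by
          refine sum_le_sum fun A _ => ?_
          have := balA_card_fix (univ.image w) (fun o => ({Function.extend w
            (fun h => if h ∈ A then c else !c) (fun _ => false) o} : Finset Bool)) (1 / 2)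
            (by intro o _; simp)
          rw [card_image_of_injective _ (hinj w hw), card_univ, Fintype.card_fin,
            Fintype.card_bool] at this
          exact_mod_cast this
      _ = (((univ : Finset (Finset (Fin m))).filter (fun A => A.card < t)).card : ℝ)
          * ((1 / 2) ^ m * 2 ^ Fintype.card O : ℝ) := by
          rw [sum_const, nsmul_eq_mul]
      _ ≤ S * ((1 / 2) ^ m * 2 ^ Fintype.card O) := by
          gcongr
          exact balA_card_small_subsets m t
  have hall : (univ : Finset (O → Bool)) ⊆ P.biUnion (fun w => univ.biUnion (fun c => bad w c)) := by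
    intro G _
    obtain ⟨w, hw, c, hc⟩ := hcon G
    simp only [mem_biUnion, mem_univ, true_and, hbad, mem_filter]
    exact ⟨w, hw, c, hc⟩
  have hcard : ((2 : ℝ) ^ Fintype.card O) ≤ P.card * (2 * (S * ((1 / 2) ^ m * 2 ^ Fintype.card O))) := by
    calc ((2 : ℝ) ^ Fintype.card O) = ((univ : Finset (O → Bool)).card : ℝ) := by
          rw [card_univ, Fintype.card_fun, Fintype.card_bool]; push_cast; rfl
      _ ≤ ∑ w ∈ P, ∑ c : Bool, ((bad w c).card : ℝ) := by
          have h1 := (card_le_card hall).trans card_biUnion_le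
          have h2 : ∑ w ∈ P, (univ.biUnion (fun c => bad w c)).card
              ≤ ∑ w ∈ P, ∑ c : Bool, (bad w c).card := sum_le_sum fun w _ => card_biUnion_le
          exact_mod_cast h1.trans h2
      _ ≤ ∑ w ∈ P, ∑ c : Bool, (S * ((1 / 2) ^ m * 2 ^ Fintype.card O) : ℝ) :=
          sum_le_sum fun w hw => sum_le_sum fun c _ => hb w hw c
      _ = _ := by
          rw [sum_const, sum_const, card_univ, Fintype.card_bool]
          simp only [nsmul_eq_mul]; push_cast; ring
  have h2 : (0 : ℝ) < 2 ^ Fintype.card O := by positivity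
  have h3 : (1 : ℝ) ≤ P.card * (2 * (S * (1 / 2) ^ m)) := by
    by_contra hlt
    push Not at hlt
    nlinarith
  have h4 : ((2 * P.card * S : ℕ) : ℝ) < ((2 ^ m : ℕ) : ℝ) := by exact_mod_cast h
  push_cast at h4
  have h5 : ((1 : ℝ) / 2) ^ m = 1 / 2 ^ m := by rw [one_div_pow]
  rw [h5] at h3
  have h6 : (P.card : ℝ) * (2 * (S * (1 / 2 ^ m))) = (2 * P.card * S) / 2 ^ m := by ring
  rw [h6, le_div_iff₀ (by positivity)] at h3
  linarith

/-- L4a. -/
theorem exists_balanced {K : Type*} (m : ℕ) (F : Finset (Fin m → K))
    (hF : 2 * F.card * ∑ i ∈ range (m / 8 + 1), m.choose i < 2 ^ m) :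
    ∃ G : K → Bool, ∀ φ ∈ F, Function.Injective φ →
      ∀ c : Bool, m ≤ 8 * (univ.filter (fun h : Fin m => G (φ h) = c)).card := by
  classical
  set U : Finset K := F.biUnion (fun φ => univ.image φ) with hU
  have hmem : ∀ φ ∈ F, ∀ h, φ h ∈ U := by
    intro φ hφ h
    exact mem_biUnion.2 ⟨φ, hφ, mem_image_of_mem _ (mem_univ _)⟩
  set F' : Finset (Fin m → K) := F.filter (fun φ => Function.Injective φ) with hF'
  have hmem' : ∀ φ : F', ∀ h, φ.1 h ∈ U := fun φ h => hmem φ.1 (mem_filter.1 φ.2).1 h
  set P : Finset (Fin m → U) := F'.attach.image (fun φ => fun h => ⟨φ.1 h, hmem' φ h⟩) with hP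
  have hPc : P.card ≤ F.card := by
    refine card_image_le.trans ?_
    rw [card_attach]
    exact card_filter_le _ _
  have hinj : ∀ w ∈ P, Function.Injective w := by
    intro w hw
    obtain ⟨φ, -, rfl⟩ := mem_image.1 hw
    intro h h' e
    exact (mem_filter.1 φ.2).2 (congrArg Subtype.val e)
  have hnum : 2 * P.card * (∑ i ∈ range (m / 8 + 1), m.choose i) < 2 ^ m :=
    lt_of_le_of_lt (Nat.mul_le_mul_right _ (Nat.mul_le_mul_left _ hPc)) hF
  obtain ⟨G, hG⟩ := balA_exists_G m (m / 8 + 1) P hinj hnum
  refine ⟨fun x => if hx : x ∈ U then G ⟨x, hx⟩ else false, fun φ hφ hi c => ?_⟩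
  have hφ' : φ ∈ F' := mem_filter.2 ⟨hφ, hi⟩
  have h1 := hG (fun h => ⟨φ h, hmem φ hφ h⟩)
    (mem_image.2 ⟨⟨φ, hφ'⟩, mem_attach _ _, rfl⟩) c
  have h2 : (univ.filter (fun h : Fin m =>
      (if hx : φ h ∈ U then G ⟨φ h, hx⟩ else false) = c))
      = univ.filter (fun h : Fin m => G ⟨φ h, hmem φ hφ h⟩ = c) := by
    refine filter_congr fun h _ => ?_
    rw [dif_pos (hmem φ hφ h)]
  have h3 : m < 8 * (m / 8 + 1) := by omega
  calc m ≤ 8 * (m / 8 + 1) := h3.le
    _ ≤ 8 * (univ.filter (fun h : Fin m => G ⟨φ h, hmem φ hφ h⟩ = c)).card := by omega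
    _ = _ := by rw [← h2]

end Vale.Agent.H18.VW
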