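import Mathlib
import Vale.Agent.H18.VW.Defs

/-! L4b. Binomial tail. -/

namespace Vale.Agent.H18.VW

open Finset

theorem balB_tail (m : ℕ) :
    (∑ i ∈ range (m / 8 + 1), (m.choose i : ℝ)) ≤ (3 / 2) ^ m := by
  have h1 : (∑ i ∈ range (m / 8 + 1), (m.choose i : ℝ))
      ≤ 7 ^ (m / 8) * ∑ i ∈ range (m / 8 + 1), (1 / 7 : ℝ) ^ i * (m.choose i : ℝ) := by
    rw [mul_sum]
    refine sum_le_sum fun i hi => ?_
    have hi' : i ≤ m / 8 := by have := mem_range.1 hi; omega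
    have h2 : (1 : ℝ) ≤ 7 ^ (m / 8) * (1 / 7) ^ i := by
      rw [one_div_pow, mul_one_div, le_div_iff₀ (by positivity), one_mul]
      exact pow_le_pow_right₀ (by norm_num) hi'
    have h3 : (0 : ℝ) ≤ m.choose i := by positivity
    nlinarith
  have h2 : ∑ i ∈ range (m / 8 + 1), (1 / 7 : ℝ) ^ i * (m.choose i : ℝ) ≤ (8 / 7) ^ m := by
    have e : (8 / 7 : ℝ) ^ m = ∑ i ∈ range (m + 1), (1 / 7 : ℝ) ^ i * (m.choose i : ℝ) := by
      have := add_pow (1 / 7 : ℝ) 1 m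
      rw [show (1 / 7 : ℝ) + 1 = 8 / 7 by norm_num] at this
      rw [this]
      refine sum_congr rfl fun i _ => ?_
      rw [one_pow, mul_one]
    rw [e]
    refine sum_le_sum_of_subset_of_nonneg ?_ (fun i _ _ => by positivity)
    intro i hi
    have := mem_range.1 hi
    exact mem_range.2 (by omega)
  have h3 : (7 : ℝ) ^ (m / 8) ≤ (128 / 100) ^ m := by
    calc (7 : ℝ) ^ (m / 8) ≤ ((128 / 100 : ℝ) ^ 8) ^ (m / 8) := by
          gcongr; norm_num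
      _ = (128 / 100 : ℝ) ^ (8 * (m / 8)) := by rw [pow_mul]
      _ ≤ (128 / 100) ^ m := pow_le_pow_right₀ (by norm_num) (Nat.mul_div_le m 8)
  calc (∑ i ∈ range (m / 8 + 1), (m.choose i : ℝ))
      ≤ (128 / 100) ^ m * (8 / 7) ^ m := h1.trans (by gcongr)
    _ = ((128 / 100) * (8 / 7)) ^ m := by rw [mul_pow]
    _ ≤ (3 / 2) ^ m := by gcongr; norm_num

/-- L4b. -/
theorem binom_tail (A e D : ℕ) : ∃ m0 : ℕ, ∀ m ≥ m0,
    2 * (A * m ^ e) ^ D * ∑ i ∈ range (m / 8 + 1), m.choose i < 2 ^ m := by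
  have ht := tendsto_pow_const_div_const_pow_of_one_lt (e * D) (r := (4 / 3 : ℝ)) (by norm_num)
  have hpos : (0 : ℝ) < 1 / (2 * (A : ℝ) ^ D + 1) := by positivity
  obtain ⟨m0, hm0⟩ := Filter.eventually_atTop.1 (ht.eventually (gt_mem_nhds hpos))
  refine ⟨m0, fun m hm => ?_⟩
  have h1 := hm0 m hm
  rw [div_lt_div_iff₀ (by positivity) (by positivity)] at h1
  have h2 := balB_tail m
  have h3 : (0 : ℝ) ≤ (m : ℝ) ^ (e * D) := by positivity
  have h4 : 2 * ((A : ℝ) ^ D * (m : ℝ) ^ (e * D)) < (4 / 3) ^ m := by nlinarith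
  have h5 : (0 : ℝ) < (3 / 2) ^ m := by positivity
  have key : (2 * ((A : ℝ) * (m : ℝ) ^ e) ^ D) * ∑ i ∈ range (m / 8 + 1), (m.choose i : ℝ)
      < 2 ^ m := by
    have e1 : ((A : ℝ) * (m : ℝ) ^ e) ^ D = (A : ℝ) ^ D * (m : ℝ) ^ (e * D) := by
      rw [mul_pow, ← pow_mul]
    rw [e1]
    calc (2 * ((A : ℝ) ^ D * (m : ℝ) ^ (e * D))) * ∑ i ∈ range (m / 8 + 1), (m.choose i : ℝ)
        ≤ (2 * ((A : ℝ) ^ D * (m : ℝ) ^ (e * D))) * (3 / 2) ^ m := by gcongr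
      _ < (4 / 3) ^ m * (3 / 2) ^ m := by
          exact mul_lt_mul_of_pos_right h4 h5
      _ = 2 ^ m := by rw [← mul_pow]; norm_num
  exact_mod_cast key

end Vale.Agent.H18.VW
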