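import Mathlib
import Vale.Agent.H18.VW.Defs
import Vale.Agent.H18.VW.BalB

/-! L4b'. Binomial tail with block length `D^2`. -/

namespace Vale.Agent.H18.VW

open Finset

theorem binom_tail_sq (A e : ℕ) : ∃ D0 : ℕ, ∀ D ≥ D0,
    2 * (A * (D ^ 2) ^ e) ^ D * ∑ i ∈ range (D ^ 2 / 8 + 1), (D ^ 2).choose i < 2 ^ (D ^ 2) := by
  have ht := tendsto_pow_const_div_const_pow_of_one_lt (2 * e) (r := (4 / 3 : ℝ)) (by norm_num)
  have hpos : (0 : ℝ) < 1 / (2 * (A : ℝ) + 1) := by positivity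
  obtain ⟨D0, hD0⟩ := Filter.eventually_atTop.1 (ht.eventually (gt_mem_nhds hpos))
  refine ⟨D0 + 1, fun D hD => ?_⟩
  have h1 := hD0 D (by omega)
  have hD1 : D ≠ 0 := by omega
  rw [div_lt_div_iff₀ (by positivity) (by positivity)] at h1
  have h2 := balB_tail (D ^ 2)
  have h3 : (0 : ℝ) ≤ (D : ℝ) ^ (2 * e) := by positivity
  have h4 : 2 * ((A : ℝ) * (D : ℝ) ^ (2 * e)) < (4 / 3) ^ D := by nlinarith
  have h5 : (0 : ℝ) < (3 / 2) ^ (D ^ 2) := by positivity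
  have h6 : 2 * ((A : ℝ) * ((D : ℝ) ^ 2) ^ e) ^ D < (4 / 3) ^ (D ^ 2) := by
    rw [← pow_mul (D : ℝ) 2 e]
    calc 2 * ((A : ℝ) * (D : ℝ) ^ (2 * e)) ^ D
        ≤ 2 ^ D * ((A : ℝ) * (D : ℝ) ^ (2 * e)) ^ D := by
          gcongr
          calc (2 : ℝ) = 2 ^ 1 := by norm_num
            _ ≤ 2 ^ D := pow_le_pow_right₀ (by norm_num) (by omega)
      _ = (2 * ((A : ℝ) * (D : ℝ) ^ (2 * e))) ^ D := by rw [← mul_pow]
      _ < ((4 / 3) ^ D) ^ D := pow_lt_pow_left₀ h4 (by positivity) hD1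
      _ = (4 / 3) ^ (D ^ 2) := by rw [← pow_mul, sq]
  have key : (2 * ((A : ℝ) * ((D : ℝ) ^ 2) ^ e) ^ D) *
      ∑ i ∈ range (D ^ 2 / 8 + 1), ((D ^ 2).choose i : ℝ) < 2 ^ (D ^ 2) := by
    calc (2 * ((A : ℝ) * ((D : ℝ) ^ 2) ^ e) ^ D) *
          ∑ i ∈ range (D ^ 2 / 8 + 1), ((D ^ 2).choose i : ℝ)
        ≤ (2 * ((A : ℝ) * ((D : ℝ) ^ 2) ^ e) ^ D) * (3 / 2) ^ (D ^ 2) := by gcongr
      _ < (4 / 3) ^ (D ^ 2) * (3 / 2) ^ (D ^ 2) := mul_lt_mul_of_pos_right h6 h5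
      _ = 2 ^ (D ^ 2) := by rw [← mul_pow]; norm_num
  exact_mod_cast key

end Vale.Agent.H18.VW
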