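import Mathlib
import Vale.Agent.H18.VW.Defs

/-! L6. Double counting over blocks. -/

namespace Vale.Agent.H18.VW

open Finset

theorem balanced_of_blocks (k m : ℕ) (hm : 1 ≤ m) (f : ℕ → Bool) (c : Bool) (J : Finset ℕ)
    (t0 : ℕ) (hJ : k ≤ 4 * J.card) (hblk : ∀ j ∈ J, j + (m - 1) * t0 < k)
    (hbal : ∀ j ∈ J, m ≤ 8 * (univ.filter (fun h : Fin m => f (j + h * t0) = c)).card) :
    k ≤ 32 * ((range k).filter (fun j => f j = c)).card := by
  set S := (range k).filter (fun j => f j = c) with hS
  have h1 : ∑ j ∈ J, m ≤ ∑ j ∈ J, 8 * (univ.filter (fun h : Fin m => f (j + h * t0) = c)).card :=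
    Finset.sum_le_sum hbal
  rw [Finset.sum_const, smul_eq_mul, ← Finset.mul_sum] at h1
  have h2 : ∑ j ∈ J, (univ.filter (fun h : Fin m => f (j + h * t0) = c)).card =
      ∑ h : Fin m, (J.filter (fun j => f (j + h * t0) = c)).card := by
    simp only [Finset.card_filter]
    exact Finset.sum_comm
  have h3 : ∀ h : Fin m, (J.filter (fun j => f (j + h * t0) = c)).card ≤ S.card := by
    intro h
    apply Finset.card_le_card_of_injOn (fun j => j + h * t0)
    · intro j hj
      have hj' := Finset.mem_filter.1 (Finset.mem_coe.1 hj)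
      have h4 := hblk j hj'.1
      have h5 : (h : ℕ) * t0 ≤ (m - 1) * t0 := Nat.mul_le_mul_right _ (by omega)
      have h6 : j + (h : ℕ) * t0 < k := by omega
      exact Finset.mem_coe.2 (Finset.mem_filter.2 ⟨Finset.mem_range.2 h6, hj'.2⟩)
    · intro a _ b _ hab
      simp only at hab
      omega
  have h4 : ∑ h : Fin m, (J.filter (fun j => f (j + h * t0) = c)).card ≤ m * S.card := by
    calc ∑ h : Fin m, (J.filter (fun j => f (j + h * t0) = c)).card
        ≤ ∑ _h : Fin m, S.card := Finset.sum_le_sum fun h _ => h3 h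
      _ = m * S.card := by simp
  rw [h2] at h1
  have h5 : m * J.card ≤ m * (8 * S.card) := by
    calc m * J.card = J.card * m := Nat.mul_comm _ _
      _ ≤ 8 * ∑ h : Fin m, (J.filter (fun j => f (j + h * t0) = c)).card := h1
      _ ≤ 8 * (m * S.card) := Nat.mul_le_mul_left _ h4
      _ = m * (8 * S.card) := by ring
  have h6 : J.card ≤ 8 * S.card := Nat.le_of_mul_le_mul_left h5 (by omega)
  omega

end Vale.Agent.H18.VW
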