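import Mathlib
import Vale.Agent.H18.VW.Defs

/-! L5a. Small differences. -/

namespace Vale.Agent.H18.VW

open Finset

theorem small_diff_aux {D : ℕ} (n m K : ℕ) (hn : 4 * m ≤ n)
    (p : Fin D → ℕ) (u : Fin D → ℤ)
    (hu : ∀ i, (n : ℤ) * |u i| < p i) :
    (∃ t : ℕ, 1 ≤ t ∧ t ≤ K ∧ ∃ i, ∀ h : ℕ, 1 ≤ h → h < m →
        (p i : ℤ) ≤ n * |(h : ℤ) * (t * u i)| ∧ (n : ℤ) * |(h : ℤ) * (t * u i)| ≤ (n - 1) * p i) ∨
    (∀ i, (n : ℤ) * (K * |u i|) < p i) := by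
  by_cases hall : ∀ i, (n : ℤ) * (K * |u i|) < p i
  · exact Or.inr hall
  · left
    rw [not_forall] at hall
    obtain ⟨i, hi⟩ := hall
    rw [not_lt] at hi
    have hex : ∃ t : ℕ, (p i : ℤ) ≤ n * (t * |u i|) := ⟨K, hi⟩
    classical
    set t := Nat.find hex with ht
    have ht1 : (p i : ℤ) ≤ n * (t * |u i|) := Nat.find_spec hex
    have htK : t ≤ K := Nat.find_min' hex hi
    have hp0 : (0 : ℤ) < p i := lt_of_le_of_lt (by positivity) (hu i)
    have ht0 : 1 ≤ t := by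
      by_contra h
      have h0 : t = 0 := by omega
      rw [h0] at ht1
      simp at ht1
      omega
    have ht2 : (n : ℤ) * (t * |u i|) < 2 * p i := by
      have h1 : ¬ (p i : ℤ) ≤ n * ((t - 1 : ℕ) * |u i|) := Nat.find_min hex (by omega)
      rw [not_le] at h1
      have h2 : ((t - 1 : ℕ) : ℤ) = (t : ℤ) - 1 := by omega
      rw [h2] at h1
      have h3 := hu i
      have h4 : (n : ℤ) * (t * |u i|) = n * (((t : ℤ) - 1) * |u i|) + n * |u i| := by ring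
      linarith
    refine ⟨t, ht0, htK, i, fun h hh1 hhm => ?_⟩
    have habs : |(h : ℤ) * (t * u i)| = h * (t * |u i|) := by
      rw [abs_mul, abs_mul, Nat.abs_cast, Nat.abs_cast]
    rw [habs]
    have hh1' : (1 : ℤ) ≤ h := by exact_mod_cast hh1
    have hhm' : (h : ℤ) ≤ m - 1 := by omega
    have hn' : (4 * m : ℤ) ≤ n := by exact_mod_cast hn
    set A : ℤ := (n : ℤ) * (t * |u i|) with hA
    have e : (n : ℤ) * (h * (t * |u i|)) = h * A := by rw [hA]; ring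
    rw [e]
    constructor
    · nlinarith
    · nlinarith

theorem small_diff {D : ℕ} (n m K : ℕ) (hm : 2 ≤ m) (hn : 4 * m ≤ n) (hK : 1 ≤ K)
    (p : Fin D → ℕ) (hp : ∀ i, 0 < p i) (u : Fin D → ℤ)
    (hu : ∀ i, (n : ℤ) * |u i| < p i) (hne : ∃ i, u i ≠ 0) :
    (∃ t : ℕ, 1 ≤ t ∧ t ≤ K ∧ ∃ i, ∀ h : ℕ, 1 ≤ h → h < m →
        (p i : ℤ) ≤ n * |(h : ℤ) * (t * u i)| ∧ (n : ℤ) * |(h : ℤ) * (t * u i)| ≤ (n - 1) * p i) ∨
    (∀ i, (n : ℤ) * (K * |u i|) < p i) :=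
  small_diff_aux n m K hn p u hu

/-- residues in the same cell differ by less than `p / n` -/
theorem lt_of_cell_eq (n p : ℕ) (hp : 0 < p) (z z' : ℤ) (h : cell n p z = cell n p z') :
    (n : ℤ) * |z' - z| < p := by
  unfold cell at h
  have hp' : (0 : ℤ) < p := by exact_mod_cast hp
  have h1 := Int.emod_add_mul_ediv ((n : ℤ) * z) p
  have h2 := Int.emod_add_mul_ediv ((n : ℤ) * z') p
  have h3 := Int.emod_nonneg ((n : ℤ) * z) hp'.ne'
  have h4 := Int.emod_nonneg ((n : ℤ) * z') hp'.ne'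
  have h5 := Int.emod_lt_of_pos ((n : ℤ) * z) hp'
  have h6 := Int.emod_lt_of_pos ((n : ℤ) * z') hp'
  rw [h] at h1
  have e : (n : ℤ) * |z' - z| = |(n : ℤ) * z' - n * z| := by
    rw [← mul_sub, abs_mul, Nat.abs_cast]
  rw [e, abs_lt]
  constructor <;> linarith

theorem cell_ne (n p : ℕ) (hp : 0 < p) (z z' w : ℤ) (hz : 0 ≤ z ∧ z < p) (hz' : 0 ≤ z' ∧ z' < p)
    (hw : (p : ℤ) ∣ (z' - z - w)) (h1 : (p : ℤ) ≤ n * |w|) (h2 : (n : ℤ) * |w| ≤ (n - 1) * p) :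
    cell n p z ≠ cell n p z' := by
  intro hc
  have h3 := lt_of_cell_eq n p hp z z' hc
  have hp' : (0 : ℤ) < p := by exact_mod_cast hp
  obtain ⟨q, hq⟩ := hw
  have e : z' - z = w + p * q := by linarith
  rw [e] at h3
  have hn : (0 : ℤ) ≤ n := Int.natCast_nonneg n
  rcases eq_or_ne q 0 with hq0 | hq0
  · subst hq0
    simp at h3
    linarith
  · have hq1 : 1 ≤ |q| := Int.one_le_abs hq0
    have h4 : |(p : ℤ) * q| - |w| ≤ |w + p * q| := by
      have := abs_sub_abs_le_abs_sub ((p : ℤ) * q) (-w)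
      rw [abs_neg, sub_neg_eq_add, add_comm ((p : ℤ) * q) w] at this
      exact this
    have h5 : (p : ℤ) ≤ |(p : ℤ) * q| := by
      rw [abs_mul, Nat.abs_cast]
      nlinarith
    have h6 : (n : ℤ) * (p - |w|) ≤ n * |w + p * q| :=
      mul_le_mul_of_nonneg_left (by linarith) hn
    nlinarith

end Vale.Agent.H18.VW
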