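import Mathlib
import Vale.Agent.H18.VW.Defs

/-! L5c. Exact formulas when the increments are tiny. -/

namespace Vale.Agent.H18.VW

open Finset

theorem zz_add_dvd (S p : ℕ) (a d V : ℤ) (hV : (p : ℤ) ∣ (S * d - V)) (j : ℤ) :
    (p : ℤ) ∣ (zz S p (a + j * d) - (zz S p a + j * V)) := by
  unfold zz
  have h1 : (p : ℤ) ∣ ((S : ℤ) * (a + j * d)) % p - (S : ℤ) * (a + j * d) :=
    Int.modEq_iff_dvd.1 (Int.mod_modEq _ _).symm
  have h2 : (p : ℤ) ∣ (S : ℤ) * a - ((S : ℤ) * a) % p :=
    Int.modEq_iff_dvd.1 (Int.mod_modEq _ _)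
  have h3 : (p : ℤ) ∣ j * (S * d - V) := Dvd.dvd.mul_left hV j
  have e : ((S : ℤ) * (a + j * d)) % p - (((S : ℤ) * a) % p + j * V)
      = (((S : ℤ) * (a + j * d)) % p - (S : ℤ) * (a + j * d))
        + ((S : ℤ) * a - ((S : ℤ) * a) % p) + j * (S * d - V) := by ring
  rw [e]
  exact dvd_add (dvd_add h1 h2) h3

theorem tau_exact (S p k : ℕ) (hp : 0 < p) (a d V : ℤ) (hV : (p : ℤ) ∣ (S * d - V))
    (h100 : 100 * (k * |V|) < p) (hT : |tau S p a| ≤ 4 * k * |V|) :
    ∀ j : ℕ, j < k → tau S p (a + j * d) = tau S p a + 2 * j * V := by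
  intro j hj
  obtain ⟨q, hq⟩ := zz_add_dvd S p a d V hV j
  have b1 := zz_nonneg (S := S) hp (a + j * d)
  have b2 := zz_lt (S := S) hp (a + j * d)
  have hjV : |(j : ℤ) * V| ≤ k * |V| := by
    rw [abs_mul, Nat.abs_cast]
    exact mul_le_mul_of_nonneg_right (by exact_mod_cast hj.le) (abs_nonneg V)
  have hjV' := abs_le.1 hjV
  have hT' := abs_le.1 hT
  have hkV : (0 : ℤ) ≤ k * |V| := by positivity
  have hp' : (0 : ℤ) < p := by exact_mod_cast hp
  unfold tau at hT' ⊢
  have hq0 : q = 0 := by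
    have h1 : -(p : ℤ) < p * q := by nlinarith
    have h2 : (p : ℤ) * q < p := by nlinarith
    have h3 : -1 < q := by nlinarith
    have h4 : q < 1 := by nlinarith
    omega
  rw [hq0] at hq
  linarith

theorem two_zc_lt (S p : ℕ) (hp : Odd p) (x : ℤ) : |2 * zc S p x| < p := by
  have hp0 : 0 < p := hp.pos
  have b1 := zz_nonneg (S := S) hp0 x
  have b2 := zz_lt (S := S) hp0 x
  obtain ⟨c, hc⟩ := hp
  rw [zc_def, abs_lt]
  split_ifs with h
  · constructor <;> omega
  · constructor <;> omega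

theorem zc_dvd (S p : ℕ) (x : ℤ) : (p : ℤ) ∣ zc S p x - zz S p x := by
  rw [zc_def]
  split_ifs with h
  · simp
  · exact ⟨-1, by ring⟩

theorem zc_exact (S p k : ℕ) (hp : Odd p) (a d V : ℤ) (hV : (p : ℤ) ∣ (S * d - V))
    (h100 : 100 * (k * |V|) < p) (hT : V = 0 ∨ 4 * k * |V| < |tau S p a|) :
    ∀ j : ℕ, j < k → zc S p (a + j * d) = zc S p a + j * V := by
  intro j hj
  have hp0 : 0 < p := hp.pos
  have hp' : (0 : ℤ) < p := by exact_mod_cast hp0
  have hdvd : (p : ℤ) ∣ zc S p (a + j * d) - (zc S p a + j * V) := by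
    have h1 := zz_add_dvd S p a d V hV j
    have h2 := zc_dvd S p (a + j * d)
    have h3 := zc_dvd S p a
    have e : zc S p (a + j * d) - (zc S p a + j * V)
        = (zc S p (a + j * d) - zz S p (a + j * d)) - (zc S p a - zz S p a)
          + (zz S p (a + j * d) - (zz S p a + j * V)) := by ring
    rw [e]
    exact dvd_add (dvd_sub h2 h3) h1
  have b := abs_lt.1 (two_zc_lt S p hp (a + j * d))
  have hb : |2 * (zc S p a + j * V)| < p := by
    rcases hT with h0 | hT
    · subst h0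
      rw [mul_zero, add_zero]
      exact two_zc_lt S p hp a
    · have hjV : |(j : ℤ) * V| ≤ k * |V| := by
        rw [abs_mul, Nat.abs_cast]
        exact mul_le_mul_of_nonneg_right (by exact_mod_cast hj.le) (abs_nonneg V)
      have hjV' := abs_le.1 hjV
      have hkV : (0 : ℤ) ≤ k * |V| := by positivity
      have b1 := zz_nonneg (S := S) hp0 a
      have b2 := zz_lt (S := S) hp0 a
      rw [tau_def] at hT
      rw [zc_def, abs_lt]
      have e4 : 4 * (k : ℤ) * |V| = 4 * (k * |V|) := by ring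
      rw [e4] at hT
      split_ifs with h
      · rw [abs_of_neg (a := 2 * zz S p a - (p : ℤ)) (by linarith)] at hT
        constructor <;> linarith
      · rw [not_lt] at h
        rw [abs_of_nonneg (a := 2 * zz S p a - (p : ℤ)) (by linarith)] at hT
        constructor <;> linarith
  have hb' := abs_lt.1 hb
  obtain ⟨q, hq⟩ := hdvd
  have hq0 : q = 0 := by
    have h1 : -(p : ℤ) < p * q := by nlinarith
    have h2 : (p : ℤ) * q < p := by nlinarith
    have h3 : -1 < q := by nlinarith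
    have h4 : q < 1 := by nlinarith
    omega
  rw [hq0] at hq
  linarith

end Vale.Agent.H18.VW
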