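import Mathlib
import Vale.Agent.H18.VW.Defs

/-! L5b. Logarithmic classes separate the terms of well-placed blocks. -/

namespace Vale.Agent.H18.VW

open Finset

lemma LogDist.lg_ne (L : ℕ) (hL : 2 ≤ L) (a b : ℝ) (hb : 0 < |b|)
    (h1 : |b| * (1 + 1 / L) ≤ |a|) (h2 : |a| ≤ 5 / 4 * |b|) : lg L a ≠ lg L b := by
  have hL' : (2 : ℝ) ≤ L := by exact_mod_cast hL
  have hL0 : (0 : ℝ) < L := by linarith
  have ha : 0 < |a| := lt_of_lt_of_le (by positivity) h1
  have e1 : (2 : ℝ) ^ ((1 : ℝ) / L) ≤ 1 + 1 / L := by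
    have h := rpow_one_add_le_one_add_mul_self (s := 1) (p := (1 : ℝ) / L) (by norm_num)
      (by positivity) (by rw [div_le_one hL0]; linarith)
    have h2 : (1 : ℝ) + 1 = 2 := by norm_num
    rw [h2] at h
    linarith
  have e2 : Real.logb 2 |b| + 1 / L ≤ Real.logb 2 |a| := by
    have h : Real.logb 2 (|b| * 2 ^ ((1 : ℝ) / L)) ≤ Real.logb 2 |a| := by
      apply Real.logb_le_logb_of_le (by norm_num) (by positivity)
      exact le_trans (by gcongr) h1
    rwa [Real.logb_mul hb.ne' (by positivity), Real.logb_rpow (by norm_num) (by norm_num)] at h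
  have e3 : Real.logb 2 |a| ≤ Real.logb 2 |b| + 1 / 2 := by
    have h : Real.logb 2 |a| ≤ Real.logb 2 (|b| * 2 ^ ((1 : ℝ) / 2)) := by
      apply Real.logb_le_logb_of_le (by norm_num) ha
      have h5 : (5 : ℝ) / 4 ≤ 2 ^ ((1 : ℝ) / 2) := by
        rw [← Real.sqrt_eq_rpow]
        apply Real.le_sqrt_of_sq_le
        norm_num
      calc |a| ≤ 5 / 4 * |b| := h2
        _ ≤ 2 ^ ((1 : ℝ) / 2) * |b| := by gcongr
        _ = _ := mul_comm _ _
    rwa [Real.logb_mul hb.ne' (by positivity), Real.logb_rpow (by norm_num) (by norm_num)] at h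
  intro heq
  rw [lg_def, lg_def] at heq
  set A := ⌊(L : ℝ) * Real.logb 2 |a|⌋ with hA
  set B := ⌊(L : ℝ) * Real.logb 2 |b|⌋ with hB
  have hdvd : (L : ℤ) ∣ A - B :=
    Int.dvd_of_emod_eq_zero (Int.emod_eq_emod_iff_emod_sub_eq_zero.1 heq)
  have hB1 := Int.floor_le ((L : ℝ) * Real.logb 2 |b|)
  have hB2 := Int.lt_floor_add_one ((L : ℝ) * Real.logb 2 |b|)
  have hA1 := Int.floor_le ((L : ℝ) * Real.logb 2 |a|)
  have hAB : B + 1 ≤ A := by
    apply Int.le_floor.2
    push_cast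
    have h : (L : ℝ) * (Real.logb 2 |b| + 1 / L) ≤ L * Real.logb 2 |a| := by gcongr
    have h' : (L : ℝ) * (Real.logb 2 |b| + 1 / L) = L * Real.logb 2 |b| + 1 := by
      field_simp
    linarith
  have hAB2 : A < B + L := by
    have h : (A : ℝ) < B + L := by
      have h : (L : ℝ) * Real.logb 2 |a| ≤ L * (Real.logb 2 |b| + 1 / 2) := by gcongr
      have h' : (L : ℝ) * (Real.logb 2 |b| + 1 / 2) = L * Real.logb 2 |b| + L / 2 := by ring
      linarith
    exact_mod_cast h
  have := Int.le_of_dvd (by omega) hdvd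
  omega

theorem log_block_distinct (m k : ℕ) (hm : 2 ≤ m) (hk : 10000 * m ≤ k) (T0 V : ℤ) (hV : V ≠ 0)
    (hT : |T0| ≤ 4 * k * |V|) :
    ∃ (t0 : ℕ) (J : Finset ℕ), 1 ≤ t0 ∧ k ≤ 4 * J.card ∧ (∀ j ∈ J, j + (m - 1) * t0 < k) ∧
      ∀ j ∈ J, Function.Injective
        (fun h : Fin m => lg (200 * m) ((T0 + 2 * ((j + h * t0 : ℕ) : ℤ) * V : ℤ) : ℝ)) := by
  classical
  set t : ℝ := -(T0 : ℝ) / (2 * V) with ht
  have hVr : (V : ℝ) ≠ 0 := by exact_mod_cast hV
  have hVa : 0 < |(V : ℝ)| := abs_pos.2 hVr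
  have key : ∀ j : ℕ, |((T0 + 2 * ((j : ℕ) : ℤ) * V : ℤ) : ℝ)| = 2 * |(V : ℝ)| * |(j : ℝ) - t| := by
    intro j
    have h : ((T0 + 2 * ((j : ℕ) : ℤ) * V : ℤ) : ℝ) = 2 * V * ((j : ℝ) - t) := by
      push_cast
      rw [ht]
      field_simp
      ring
    rw [h, abs_mul, abs_mul, abs_of_pos (by norm_num : (0 : ℝ) < 2)]
  have hm' : (2 : ℝ) ≤ m := by exact_mod_cast hm
  have hk' : (10000 : ℝ) * m ≤ k := by exact_mod_cast hk
  have hk0 : (0 : ℝ) < k := by nlinarith
  have htk : |t| ≤ 2 * k := by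
    have hT' : |(T0 : ℝ)| ≤ 4 * k * |(V : ℝ)| := by exact_mod_cast hT
    rw [ht, abs_div, abs_neg, abs_mul, abs_of_pos (by norm_num : (0 : ℝ) < 2),
      div_le_iff₀ (by positivity)]
    linarith
  obtain ⟨ht1, ht2⟩ := abs_le.1 htk
  set t0 := k / (64 * m) with ht0
  have h64 : 0 < 64 * m := by omega
  have ht0le : t0 * (64 * m) ≤ k := Nat.div_mul_le_self k (64 * m)
  have ht0lt : k < (t0 + 1) * (64 * m) := by
    have := Nat.lt_div_mul_add (a := k) h64
    rw [ht0]
    linarith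
  have ht0le' : (t0 : ℝ) * (64 * m) ≤ k := by exact_mod_cast ht0le
  have ht0lt' : (k : ℝ) < (t0 + 1) * (64 * m) := by exact_mod_cast ht0lt
  have hm0 : (0 : ℝ) < m := by linarith
  -- `t0 m ≥ k / 65`
  have hA : (k : ℝ) ≤ 65 * (t0 * m) := by nlinarith
  have hB : (m : ℝ) * t0 ≤ k / 64 := by linarith
  have hsub : ((m - 1 : ℕ) : ℝ) = m - 1 := by
    rw [Nat.cast_sub (by omega)]; simp
  set J := (range (k / 2)).filter
    (fun j : ℕ => t + k / 16 ≤ (j : ℝ) ∨ (j : ℝ) + k / 64 ≤ t - k / 16) with hJ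
  refine ⟨t0, J, ?_, ?_, ?_, ?_⟩
  · rw [ht0]
    exact (Nat.one_le_div_iff h64).2 (by omega)
  · -- counting
    set Jc := (range (k / 2)).filter
      (fun j : ℕ => ¬ (t + k / 16 ≤ (j : ℝ) ∨ (j : ℝ) + k / 64 ≤ t - k / 16)) with hJc
    have hsum : J.card + Jc.card = k / 2 := by
      rw [hJ, hJc, Finset.card_filter_add_card_filter_not, card_range]
    have hc : (Jc.card : ℝ) ≤ 9 * k / 64 + 1 := by
      have hinj : Jc.card ≤ (Finset.Icc (⌊t - k / 16 - k / 64⌋ + 1) (⌈t + k / 16⌉ - 1)).card := by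
        apply Finset.card_le_card_of_injOn (fun j : ℕ => (j : ℤ))
        · intro j hj
          have hj2 := (Finset.mem_filter.1 hj).2
          push Not at hj2
          simp only [Finset.coe_Icc, Set.mem_Icc]
          constructor
          · rw [Int.add_one_le_iff, Int.floor_lt]
            push_cast
            linarith [hj2.2]
          · rw [Int.le_sub_one_iff, Int.lt_ceil]
            push_cast
            exact hj2.1
        · intro a _ b _ hab
          exact Int.ofNat_inj.1 hab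
      rw [Int.card_Icc] at hinj
      have h1 := Int.lt_floor_add_one (t - k / 16 - k / 64)
      have h2 := Int.ceil_lt_add_one (t + k / 16)
      have h3 : ((⌈t + k / 16⌉ - 1 + 1 - (⌊t - k / 16 - k / 64⌋ + 1)).toNat : ℝ)
          ≤ 9 * k / 64 + 1 := by
        rcases le_or_gt (⌈t + k / 16⌉ - 1 + 1 - (⌊t - k / 16 - k / 64⌋ + 1)) 0 with h | h
        · rw [Int.toNat_of_nonpos h]
          simp only [Nat.cast_zero]
          positivity
        · have h4 : ((⌈t + k / 16⌉ - 1 + 1 - (⌊t - k / 16 - k / 64⌋ + 1)).toNat : ℝ)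
              = ((⌈t + k / 16⌉ - 1 + 1 - (⌊t - k / 16 - k / 64⌋ + 1) : ℤ) : ℝ) := by
            have := Int.toNat_of_nonneg h.le
            exact_mod_cast this
          rw [h4]
          push_cast
          linarith
      exact le_trans (by exact_mod_cast hinj) h3
    have hk2 : (k : ℝ) / 2 - 1 / 2 ≤ ((k / 2 : ℕ) : ℝ) := by
      have h : k ≤ 2 * (k / 2) + 1 := by omega
      have h' : (k : ℝ) ≤ 2 * ((k / 2 : ℕ) : ℝ) + 1 := by exact_mod_cast h
      linarith
    have hs : (J.card : ℝ) + Jc.card = ((k / 2 : ℕ) : ℝ) := by exact_mod_cast hsum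
    have : (k : ℝ) ≤ 4 * J.card := by nlinarith
    exact_mod_cast this
  · intro j hj
    have hj1 := Finset.mem_range.1 (Finset.mem_filter.1 hj).1
    have h1 : (j : ℝ) ≤ k / 2 := by
      have : 2 * j ≤ k := by omega
      have : (2 : ℝ) * j ≤ k := by exact_mod_cast this
      linarith
    have h2 : ((j + (m - 1) * t0 : ℕ) : ℝ) < k := by
      push_cast
      rw [hsub]
      nlinarith
    exact_mod_cast h2
  · intro j hj
    have hj1 := Finset.mem_range.1 (Finset.mem_filter.1 hj).1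
    have hjk : (j : ℝ) ≤ k / 2 := by
      have : 2 * j ≤ k := by omega
      have : (2 : ℝ) * j ≤ k := by exact_mod_cast this
      linarith
    have hj0 : (0 : ℝ) ≤ j := Nat.cast_nonneg _
    have hj2 := (Finset.mem_filter.1 hj).2
    -- main separation
    have main : ∀ x y : ℝ, (k : ℝ) / 16 ≤ y → y ≤ 5 / 2 * k + k / 64 → k / (65 * m) ≤ x - y →
        x - y ≤ k / 64 → y * (1 + 1 / ((200 * m : ℕ) : ℝ)) ≤ x ∧ x ≤ 5 / 4 * y := by
      intro x y h1 h2 h3 h4
      constructor
      · have : y * (1 / ((200 * m : ℕ) : ℝ)) ≤ k / (65 * m) := by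
          push_cast
          rw [mul_one_div, div_le_div_iff₀ (by positivity) (by positivity)]
          nlinarith
        linarith
      · linarith
    have hne : ∀ h h' : Fin m, h < h' →
        lg (200 * m) ((T0 + 2 * ((j + h * t0 : ℕ) : ℤ) * V : ℤ) : ℝ) ≠
        lg (200 * m) ((T0 + 2 * ((j + h' * t0 : ℕ) : ℤ) * V : ℤ) : ℝ) := by
      intro h h' hh
      have hh1 : (h : ℝ) + 1 ≤ (h' : ℝ) := by
        have : (h : ℕ) + 1 ≤ (h' : ℕ) := hh
        exact_mod_cast this
      have hh2 : (h' : ℝ) + 1 ≤ m := by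
        have : (h' : ℕ) + 1 ≤ m := h'.2
        exact_mod_cast this
      have hh0 : (0 : ℝ) ≤ (h : ℝ) := Nat.cast_nonneg _
      have ht00 : (0 : ℝ) ≤ (t0 : ℝ) := Nat.cast_nonneg _
      have d1 : (k : ℝ) / (65 * m) ≤ ((h' : ℝ) - h) * t0 := by
        rw [div_le_iff₀ (by positivity)]
        have : (t0 : ℝ) ≤ ((h' : ℝ) - h) * t0 := by nlinarith
        nlinarith
      have d2 : ((h' : ℝ) - h) * t0 ≤ k / 64 := by
        have : ((h' : ℝ) - h) * t0 ≤ m * t0 := by
          apply mul_le_mul_of_nonneg_right _ ht00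
          linarith
        linarith
      have d3 : (h : ℝ) * t0 ≤ k / 64 := by
        have : (h : ℝ) * t0 ≤ m * t0 := by
          apply mul_le_mul_of_nonneg_right _ ht00
          linarith
        linarith
      have d4 : (h' : ℝ) * t0 ≤ k / 64 := by
        have : (h' : ℝ) * t0 ≤ m * t0 := by
          apply mul_le_mul_of_nonneg_right _ ht00
          linarith
        linarith
      have d5 : 0 ≤ (h : ℝ) * t0 := by positivity
      have d7 : 0 ≤ (h' : ℝ) * t0 := by positivity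
      have d6 : ((h' : ℝ) - h) * t0 = h' * t0 - h * t0 := by ring
      have c1 : ((j + h * t0 : ℕ) : ℝ) = j + h * t0 := by push_cast; ring
      have c2 : ((j + h' * t0 : ℕ) : ℝ) = j + h' * t0 := by push_cast; ring
      rcases hj2 with hj2 | hj2
      · -- right side
        apply Ne.symm
        have e1 : 0 ≤ ((j + h * t0 : ℕ) : ℝ) - t := by rw [c1]; linarith
        have e2 : 0 ≤ ((j + h' * t0 : ℕ) : ℝ) - t := by rw [c2]; linarith
        obtain ⟨m1, m2⟩ := main (((j + h' * t0 : ℕ) : ℝ) - t) (((j + h * t0 : ℕ) : ℝ) - t)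
          (by rw [c1]; linarith) (by rw [c1]; linarith) (by rw [c1, c2]; linarith)
          (by rw [c1, c2]; linarith)
        have e3 : 0 < ((j + h * t0 : ℕ) : ℝ) - t := by rw [c1]; linarith
        apply LogDist.lg_ne (200 * m) (by omega)
        · rw [key, abs_of_nonneg e1]; positivity
        · rw [key, key, abs_of_nonneg e1, abs_of_nonneg e2, mul_assoc]
          gcongr
        · rw [key, key, abs_of_nonneg e1, abs_of_nonneg e2]
          have : 2 * |(V : ℝ)| * (((j + h' * t0 : ℕ) : ℝ) - t)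
              ≤ 2 * |(V : ℝ)| * (5 / 4 * (((j + h * t0 : ℕ) : ℝ) - t)) := by gcongr
          linarith
      · -- left side
        have e1 : ((j + h * t0 : ℕ) : ℝ) - t ≤ 0 := by rw [c1]; linarith
        have e2 : ((j + h' * t0 : ℕ) : ℝ) - t ≤ 0 := by rw [c2]; linarith
        obtain ⟨m1, m2⟩ := main (-(((j + h * t0 : ℕ) : ℝ) - t)) (-(((j + h' * t0 : ℕ) : ℝ) - t))
          (by rw [c2]; linarith) (by rw [c2]; linarith) (by rw [c1, c2]; linarith)
          (by rw [c1, c2]; linarith)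
        have e3 : 0 < -(((j + h' * t0 : ℕ) : ℝ) - t) := by rw [c2]; linarith
        apply LogDist.lg_ne (200 * m) (by omega)
        · rw [key, abs_of_nonpos e2]; positivity
        · rw [key, key, abs_of_nonpos e1, abs_of_nonpos e2, mul_assoc]
          gcongr
        · rw [key, key, abs_of_nonpos e1, abs_of_nonpos e2]
          have : 2 * |(V : ℝ)| * (-(((j + h * t0 : ℕ) : ℝ) - t))
              ≤ 2 * |(V : ℝ)| * (5 / 4 * (-(((j + h' * t0 : ℕ) : ℝ) - t))) := by gcongr
          linarith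
    intro h h' heq
    rcases lt_trichotomy h h' with hl | hl | hl
    · exact absurd heq (hne h h' hl)
    · exact hl
    · exact absurd heq.symm (hne h' h hl)

end Vale.Agent.H18.VW
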