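import Mathlib
import Vale.Agent.H18.VW.Defs
import Vale.Agent.H18.VW.Diff
import Vale.Agent.H18.VW.LogDist
import Vale.Agent.H18.VW.Exact

/-! L5. Dichotomy. -/

namespace Vale.Agent.H18.VW

open Finset

/-- distinct classes in a block, from differences that are not too small -/
theorem dich_inj {D : ℕ} (m : ℕ) (p : Fin D → ℕ) (hp : ∀ i, 0 < p i)
    (a d : ℤ) (t0 : ℕ)
    (H : ∀ h : ℕ, 1 ≤ h → h < m → ∃ i, ∃ w : ℤ, ((p i : ℤ) ∣ ((h * t0 : ℕ) : ℤ) * d - w ∨
      (p i : ℤ) ∣ ((h * t0 : ℕ) : ℤ) * (m.factorial * d) - w) ∧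
      (p i : ℤ) ≤ (400 * m : ℕ) * |w| ∧ ((400 * m : ℕ) : ℤ) * |w| ≤ ((400 * m : ℕ) - 1) * p i)
    (j : ℕ) :
    Function.Injective (fun h : Fin m => kappa m p (a + ((j + h * t0 : ℕ) : ℤ) * d)) := by
  have key : ∀ h h' : Fin m, h < h' → kappa m p (a + ((j + h * t0 : ℕ) : ℤ) * d) ≠
      kappa m p (a + ((j + h' * t0 : ℕ) : ℤ) * d) := by
    intro h h' hlt he
    have hlt' : (h : ℕ) < h' := hlt
    obtain ⟨i, w, hw, hw1, hw2⟩ := H ((h' : ℕ) - h) (by omega) (by omega)
    have hi := congrFun he i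
    rw [kappa_apply, kappa_apply, kap_def, kap_def, Prod.mk.injEq, Prod.mk.injEq] at hi
    have hp' : (0 : ℤ) < p i := by exact_mod_cast hp i
    have hg : ((((h' : ℕ) - h) * t0 : ℕ) : ℤ) = ((h' : ℕ) : ℤ) * t0 - ((h : ℕ) : ℤ) * t0 := by
      rw [Nat.cast_mul, Nat.cast_sub hlt'.le]
      ring
    rw [hg] at hw
    rcases hw with hw | hw
    · refine cell_ne (400 * m) (p i) (hp i) _ _ w ⟨Int.emod_nonneg _ hp'.ne',
        Int.emod_lt_of_pos _ hp'⟩ ⟨Int.emod_nonneg _ hp'.ne', Int.emod_lt_of_pos _ hp'⟩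
        ?_ hw1 hw2 hi.1
      obtain ⟨c, hc⟩ := hw
      have e1 := Int.emod_add_mul_ediv (a + ((j + h * t0 : ℕ) : ℤ) * d) (p i)
      have e2 := Int.emod_add_mul_ediv (a + ((j + h' * t0 : ℕ) : ℤ) * d) (p i)
      refine ⟨c + (a + ((j + h * t0 : ℕ) : ℤ) * d) / (p i) -
        (a + ((j + h' * t0 : ℕ) : ℤ) * d) / (p i), ?_⟩
      have e3 : (a + ((j + h' * t0 : ℕ) : ℤ) * d) - (a + ((j + h * t0 : ℕ) : ℤ) * d) =
          (((h' : ℕ) : ℤ) * t0 - ((h : ℕ) : ℤ) * t0) * d := by
        push_cast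
        ring
      linear_combination e2 - e1 + e3 + hc
    · refine cell_ne (400 * m) (p i) (hp i) _ _ w ⟨zz_nonneg (hp i) _,
        zz_lt (hp i) _⟩ ⟨zz_nonneg (hp i) _, zz_lt (hp i) _⟩
        ?_ hw1 hw2 hi.2.1
      obtain ⟨c, hc⟩ := hw
      unfold zz
      have e1 := Int.emod_add_mul_ediv (m.factorial * (a + ((j + h * t0 : ℕ) : ℤ) * d)) (p i)
      have e2 := Int.emod_add_mul_ediv (m.factorial * (a + ((j + h' * t0 : ℕ) : ℤ) * d)) (p i)
      refine ⟨c + (m.factorial * (a + ((j + h * t0 : ℕ) : ℤ) * d)) / (p i) -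
        (m.factorial * (a + ((j + h' * t0 : ℕ) : ℤ) * d)) / (p i), ?_⟩
      have e3 : m.factorial * (a + ((j + h' * t0 : ℕ) : ℤ) * d) -
          m.factorial * (a + ((j + h * t0 : ℕ) : ℤ) * d) =
          (((h' : ℕ) : ℤ) * t0 - ((h : ℕ) : ℤ) * t0) * (m.factorial * d) := by
        push_cast
        ring
      linear_combination e2 - e1 + e3 + hc
  intro h h' he
  rcases lt_trichotomy h h' with hlt | heq | hgt
  · exact absurd he (key h h' hlt)
  · exact heq
  · exact absurd he.symm (key h' h hgt)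

theorem dichotomy {D : ℕ} (m k : ℕ) (hm : 2 ≤ m) (hk : 10000 * m ^ 2 * m.factorial ≤ k)
    (p : Fin D → ℕ) (hp : ∀ i, (p i).Prime) (hpk : ∀ i, k < p i) (a d : ℤ)
    (hd : ∃ i, ¬ (p i : ℤ) ∣ d) :
    (∃ (t0 : ℕ) (J : Finset ℕ), 1 ≤ t0 ∧ k ≤ 4 * J.card ∧ (∀ j ∈ J, j + (m - 1) * t0 < k) ∧
      ∀ j ∈ J, Function.Injective
        (fun h : Fin m => kappa m p (a + ((j + h * t0 : ℕ) : ℤ) * d))) ∨
    (∃ V : Fin D → ℤ, ∀ i, ∀ j : ℕ, j < k →
      zc m.factorial (p i) (a + j * d) = zc m.factorial (p i) a + j * V i) := by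
  have hp0 : ∀ i, 0 < p i := fun i => (hp i).pos
  have hp0' : ∀ i, (0 : ℤ) < p i := fun i => by exact_mod_cast hp0 i
  have hfac : 1 ≤ m.factorial := Nat.succ_le_of_lt (Nat.factorial_pos m)
  have hm2 : m ^ 2 ≤ m ^ 2 * m.factorial := Nat.le_mul_of_pos_right _ hfac
  have hmm : m ≤ m ^ 2 := by nlinarith
  have hk1 : 10000 * m ≤ k := by nlinarith
  have hk2 : 10000 * m ^ 2 ≤ k := by nlinarith
  -- blocks of length at most half of the progression
  have hJ : ∀ t0 : ℕ, (m - 1) * t0 * 2 ≤ k → k ≤ 4 * (Finset.range (k / 2)).card ∧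
      ∀ j ∈ Finset.range (k / 2), j + (m - 1) * t0 < k := by
    intro t0 ht0
    refine ⟨?_, ?_⟩
    · rw [Finset.card_range]; omega
    · intro j hj
      rw [Finset.mem_range] at hj
      omega
  by_cases hcase : ∀ s : ℕ, 1 ≤ s → s < m → ∃ i, (p i : ℤ) ≤ (400 * m : ℕ) * |Int.bmod (s * d) (p i)|
  · -- step 1
    left
    obtain ⟨hJ1, hJ2⟩ := hJ 1 (by omega)
    refine ⟨1, Finset.range (k / 2), le_refl _, hJ1, hJ2, fun j _ => ?_⟩
    apply dich_inj m p hp0
    intro h hh1 hhm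
    obtain ⟨i, hi⟩ := hcase h hh1 hhm
    refine ⟨i, Int.bmod (h * d) (p i), Or.inl ?_, hi, ?_⟩
    · rw [mul_one]
      exact Int.dvd_self_sub_bmod
    · have e1 : 2 * |Int.bmod (h * d) (p i)| ≤ p i := by
        have b1 := Int.le_bmod (x := (h : ℤ) * d) (hp0 i)
        have b2 := Int.bmod_lt (x := (h : ℤ) * d) (hp0 i)
        have b3 := abs_le.mpr (⟨by omega, by omega⟩ :
          -((p i : ℤ)) ≤ 2 * Int.bmod (h * d) (p i) ∧ 2 * Int.bmod (h * d) (p i) ≤ p i)
        rw [abs_mul] at b3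
        simpa using b3
      have e2 : ((400 * m : ℕ) : ℤ) * (2 * |Int.bmod (h * d) (p i)|) ≤ (400 * m : ℕ) * p i :=
        mul_le_mul_of_nonneg_left e1 (Int.natCast_nonneg _)
      have e3 : (2 : ℤ) * p i ≤ ((400 * m : ℕ) : ℤ) * p i := by
        apply mul_le_mul_of_nonneg_right _ (hp0' i).le
        push_cast
        omega
      linarith
  · rw [not_forall] at hcase
    obtain ⟨s, hs⟩ := hcase
    rw [Classical.not_imp, Classical.not_imp, not_exists] at hs
    obtain ⟨hs1, hsm, hs2⟩ := hs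
    have hu : ∀ i, ((400 * m : ℕ) : ℤ) * |Int.bmod (s * d) (p i)| < p i := fun i => by
      rw [← not_le]
      exact hs2 i
    have hud : ∀ i, (p i : ℤ) ∣ s * d - Int.bmod (s * d) (p i) := fun i =>
      Int.dvd_self_sub_bmod
    obtain ⟨K, hK⟩ : ∃ K, K = k / (2 * m ^ 2) := ⟨_, rfl⟩
    have hK1 : 2 * m ^ 2 * K ≤ k := by rw [hK]; exact Nat.mul_div_le _ _
    have hK2 : m.factorial ≤ K := by
      rw [hK, Nat.le_div_iff_mul_le (by positivity)]
      nlinarith
    rcases small_diff_aux (400 * m) m K (by omega) p (fun i => Int.bmod (s * d) (p i)) hu with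
      ⟨t, ht1, htK, i, hi⟩ | hR
    · left
      have hb : (m - 1) * (s * t) * 2 ≤ k := by
        have e1 : (m - 1) * (s * t) ≤ m * (m * K) :=
          Nat.mul_le_mul (by omega) (Nat.mul_le_mul hsm.le htK)
        nlinarith
      obtain ⟨hJ1, hJ2⟩ := hJ (s * t) hb
      refine ⟨s * t, Finset.range (k / 2), Nat.mul_pos hs1 ht1, hJ1, hJ2, fun j _ => ?_⟩
      apply dich_inj m p hp0
      intro h hh1 hhm
      obtain ⟨h1, h2⟩ := hi h hh1 hhm
      refine ⟨i, (h : ℤ) * (t * Int.bmod (s * d) (p i)), Or.inl ?_, h1, h2⟩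
      obtain ⟨c, hc⟩ := hud i
      refine ⟨h * t * c, ?_⟩
      push_cast
      linear_combination (h : ℤ) * t * hc
    · -- step 2
      have hsfac : s ∣ m.factorial := Nat.dvd_factorial hs1 hsm.le
      obtain ⟨r, hr⟩ := hsfac
      have hr1 : r ≤ m.factorial := by rw [hr]; exact Nat.le_mul_of_pos_left r hs1
      have hV : ∀ i, ((400 * m : ℕ) : ℤ) * |(r : ℤ) * Int.bmod (s * d) (p i)| < p i := by
        intro i
        refine lt_of_le_of_lt ?_ (hR i)
        rw [abs_mul, Nat.abs_cast]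
        apply mul_le_mul_of_nonneg_left _ (Int.natCast_nonneg _)
        apply mul_le_mul_of_nonneg_right _ (abs_nonneg _)
        exact_mod_cast hr1.trans hK2
      have hVd : ∀ i, (p i : ℤ) ∣ m.factorial * d - (r : ℤ) * Int.bmod (s * d) (p i) := by
        intro i
        obtain ⟨c, hc⟩ := hud i
        refine ⟨r * c, ?_⟩
        rw [hr]
        push_cast
        linear_combination (r : ℤ) * hc
      obtain ⟨V, hVdef⟩ : ∃ V : Fin D → ℤ, V = fun i => (r : ℤ) * Int.bmod (s * d) (p i) :=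
        ⟨_, rfl⟩
      have hV' : ∀ i, ((400 * m : ℕ) : ℤ) * |V i| < p i := by rw [hVdef]; exact hV
      have hVd' : ∀ i, (p i : ℤ) ∣ m.factorial * d - V i := by rw [hVdef]; exact hVd
      clear hV hVd hVdef hR
      obtain ⟨K2, hK2'⟩ : ∃ K2, K2 = k / (2 * m) := ⟨_, rfl⟩
      have hK3 : 2 * m * K2 ≤ k := by rw [hK2']; exact Nat.mul_div_le _ _
      have hK4 : k < 2 * m * (K2 + 1) := by
        rw [hK2']; exact Nat.lt_mul_div_succ k (show 0 < 2 * m by omega)
      have hK5 : k ≤ 4 * m * K2 := by nlinarith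
      rcases small_diff_aux (400 * m) m K2 (by omega) p V hV' with ⟨t, ht1, htK, i, hi⟩ | hR
      · left
        have hb : (m - 1) * t * 2 ≤ k := by
          have e1 : (m - 1) * t ≤ m * K2 := Nat.mul_le_mul (by omega) htK
          nlinarith
        obtain ⟨hJ1, hJ2⟩ := hJ t hb
        refine ⟨t, Finset.range (k / 2), ht1, hJ1, hJ2, fun j _ => ?_⟩
        apply dich_inj m p hp0
        intro h hh1 hhm
        obtain ⟨h1, h2⟩ := hi h hh1 hhm
        refine ⟨i, (h : ℤ) * (t * V i), Or.inr ?_, h1, h2⟩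
        obtain ⟨c, hc⟩ := hVd' i
        refine ⟨h * t * c, ?_⟩
        push_cast
        linear_combination (h : ℤ) * t * hc
      · have h100 : ∀ i, 100 * ((k : ℤ) * |V i|) < p i := by
          intro i
          refine lt_of_le_of_lt ?_ (hR i)
          have e1 : (k : ℤ) ≤ 4 * m * K2 := by exact_mod_cast hK5
          have e2 := mul_le_mul_of_nonneg_right e1 (abs_nonneg (V i))
          push_cast
          linarith
        by_cases hlog : ∃ i, V i ≠ 0 ∧ |tau m.factorial (p i) a| ≤ 4 * k * |V i|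
        · left
          obtain ⟨i, hVi, hti⟩ := hlog
          obtain ⟨t0, J, ht0, hJ1, hJ2, hJ3⟩ :=
            log_block_distinct m k hm hk1 (tau m.factorial (p i) a) (V i) hVi hti
          refine ⟨t0, J, ht0, hJ1, hJ2, fun j hj => ?_⟩
          intro h h' he
          apply hJ3 j hj
          have hi : kappa m p (a + ((j + h * t0 : ℕ) : ℤ) * d) i =
            kappa m p (a + ((j + h' * t0 : ℕ) : ℤ) * d) i := congrFun he i
          rw [kappa_apply, kappa_apply, kap_def, kap_def, Prod.mk.injEq, Prod.mk.injEq] at hi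
          have hlt : ∀ g : Fin m, j + (g : ℕ) * t0 < k := by
            intro g
            have e1 : (g : ℕ) * t0 ≤ (m - 1) * t0 := Nat.mul_le_mul_right _ (by omega)
            have e2 := hJ2 j hj
            omega
          have hex : ∀ g : Fin m, tau m.factorial (p i) (a + ((j + g * t0 : ℕ) : ℤ) * d) =
              tau m.factorial (p i) a + 2 * ((j + g * t0 : ℕ) : ℤ) * V i := fun g =>
            tau_exact m.factorial (p i) k (hp0 i) a d (V i) (hVd' i) (h100 i) hti _ (hlt g)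
          have h3 := hi.2.2
          rw [hex h, hex h'] at h3
          exact h3
        · right
          refine ⟨V, fun i j hj => ?_⟩
          apply zc_exact m.factorial (p i) k _ a d (V i) (hVd' i) (h100 i) _ j hj
          · exact (hp i).odd_of_ne_two (by have := hpk i; omega)
          · by_contra hcon
            apply hlog
            rw [not_or, not_lt] at hcon
            exact ⟨i, hcon.1, hcon.2⟩

end Vale.Agent.H18.VW
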