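import Mathlib
import Vale.Agent.H18.VW.Defs

/-! L1. Half-plane patterns in the plane. -/

namespace Vale.Agent.H18.VW

open Finset

theorem AtMost.of_finset {Ω β : Type*} [DecidableEq β] {pat : Ω → β} {N : ℕ}
    (h : ∀ S : Finset Ω, (S.image pat).card ≤ N) : AtMost pat N := by
  classical
  -- take a maximal image
  have hex : ∃ n, n ∈ {n : ℕ | ∃ S : Finset Ω, (S.image pat).card = n} ∧
      ∀ n' ∈ {n : ℕ | ∃ S : Finset Ω, (S.image pat).card = n}, n' ≤ n := by
    have hb : BddAbove {n : ℕ | ∃ S : Finset Ω, (S.image pat).card = n} :=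
      ⟨N, by rintro n ⟨S, rfl⟩; exact h S⟩
    have hne : {n : ℕ | ∃ S : Finset Ω, (S.image pat).card = n}.Nonempty := ⟨0, ∅, by simp⟩
    exact ⟨_, Nat.sSup_mem hne hb, fun n' hn' => le_csSup hb hn'⟩
  obtain ⟨n, ⟨S, hS⟩, hmax⟩ := hex
  refine ⟨S.image pat, h S, fun ω => ?_⟩
  by_contra hcon
  have h1 := hmax _ ⟨insert ω S, rfl⟩
  rw [image_insert, card_insert_of_notMem hcon, hS] at h1
  omega

/-- Two-parameter families of half-plane tests do not shatter three tests. -/
theorem HalfPlane_not_shatter {T : Type*} [DecidableEq T] (v0 v1 c : T → ℝ) (s : Finset T)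
    (hs : 2 < s.card)
    (h : ∀ t ⊆ s, ∃ x y : ℝ, ∀ i ∈ s, (i ∈ t ↔ c i ≤ v0 i * x + v1 i * y)) : False := by
  classical
  -- a linear relation
  let f : (s → ℝ) →ₗ[ℝ] (Fin 2 → ℝ) :=
    { toFun := fun l => ![∑ i, l i * v0 i, ∑ i, l i * v1 i]
      map_add' := by
        intro a b
        ext j; fin_cases j <;> simp [add_mul, sum_add_distrib]
      map_smul' := by
        intro a b
        ext j; fin_cases j <;> simp [mul_sum, mul_assoc] }
  have hker : LinearMap.ker f ≠ ⊥ := by
    apply LinearMap.ker_ne_bot_of_finrank_lt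
    simpa using hs
  obtain ⟨l, hl, hl0⟩ := (Submodule.ne_bot_iff _).1 hker
  have h0 : ∑ i, l i * v0 i = 0 := by
    have := congrFun (LinearMap.mem_ker.1 hl) 0; simpa [f] using this
  have h1 : ∑ i, l i * v1 i = 0 := by
    have := congrFun (LinearMap.mem_ker.1 hl) 1; simpa [f] using this
  -- the two extreme patterns
  have key : ∀ l : s → ℝ, l ≠ 0 → ∑ i, l i * v0 i = 0 → ∑ i, l i * v1 i = 0 →
      0 ≤ ∑ i, l i * c i → (∃ i, l i < 0) → False := by
    intro l _ h0 h1 hc hneg
    obtain ⟨x, y, hxy⟩ := h (s.filter (fun i => ∃ hi : i ∈ s, 0 < l ⟨i, hi⟩)) (filter_subset _ _)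
    have h2 : ∑ i, l i * (v0 i * x + v1 i * y - c i) = - ∑ i, l i * c i := by
      have : ∀ i : s, l i * (v0 i * x + v1 i * y - c i)
          = (l i * v0 i) * x + (l i * v1 i) * y - l i * c i := fun i => by ring
      rw [sum_congr rfl (fun i _ => this i), sum_sub_distrib, sum_add_distrib, ← sum_mul, ← sum_mul,
        h0, h1]
      ring
    have h3 : ∀ i : s, 0 ≤ l i * (v0 i * x + v1 i * y - c i) := by
      intro i
      have hi := hxy i i.2
      by_cases hl : 0 < l i
      · have : c i ≤ v0 i * x + v1 i * y := hi.1 (by simp [i.2, hl])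
        exact mul_nonneg hl.le (by linarith)
      · have : ¬ c i ≤ v0 i * x + v1 i * y := fun hcon => hl (by
          have := hi.2 hcon
          simpa [i.2] using this)
        exact mul_nonneg_of_nonpos_of_nonpos (by linarith) (by linarith)
    obtain ⟨i, hi⟩ := hneg
    have h4 : 0 < l i * (v0 i * x + v1 i * y - c i) := by
      have hi' := hxy i i.2
      have : ¬ c i ≤ v0 i * x + v1 i * y := fun hcon => by
        have := hi'.2 hcon
        simp at this
        linarith
      exact mul_pos_of_neg_of_neg hi (by linarith)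
    have h5 : 0 < ∑ i, l i * (v0 i * x + v1 i * y - c i) :=
      sum_pos' (fun i _ => h3 i) ⟨i, mem_univ i, h4⟩
    linarith
  -- the sum of l c may have either sign; if all l are nonneg use -l etc.
  by_cases hneg : ∃ i, l i < 0
  · by_cases hc : 0 ≤ ∑ i, l i * c i
    · exact key l hl0 h0 h1 hc hneg
    · by_cases hpos : ∃ i, 0 < l i
      · refine key (-l) (neg_ne_zero.2 hl0)
          (by simp only [Pi.neg_apply, neg_mul, sum_neg_distrib, h0, neg_zero])
          (by simp only [Pi.neg_apply, neg_mul, sum_neg_distrib, h1, neg_zero]) ?_ ?_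
        · simp only [Pi.neg_apply, neg_mul, sum_neg_distrib]; linarith
        · obtain ⟨i, hi⟩ := hpos
          exact ⟨i, by simpa using hi⟩
      · -- all l ≤ 0, ∑ l c < 0 : pattern all false
        push Not at hpos
        obtain ⟨x, y, hxy⟩ := h ∅ (empty_subset _)
        have h2 : ∑ i, l i * (v0 i * x + v1 i * y - c i) = - ∑ i, l i * c i := by
          have : ∀ i : s, l i * (v0 i * x + v1 i * y - c i)
              = (l i * v0 i) * x + (l i * v1 i) * y - l i * c i := fun i => by ring
          rw [sum_congr rfl (fun i _ => this i), sum_sub_distrib, sum_add_distrib, ← sum_mul,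
            ← sum_mul, h0, h1]
          ring
        -- pattern all true
        obtain ⟨x', y', hxy'⟩ := h s (subset_refl _)
        have h2' : ∑ i, l i * (v0 i * x' + v1 i * y' - c i) = - ∑ i, l i * c i := by
          have : ∀ i : s, l i * (v0 i * x' + v1 i * y' - c i)
              = (l i * v0 i) * x' + (l i * v1 i) * y' - l i * c i := fun i => by ring
          rw [sum_congr rfl (fun i _ => this i), sum_sub_distrib, sum_add_distrib, ← sum_mul,
            ← sum_mul, h0, h1]
          ring
        have h3 : ∑ i, l i * (v0 i * x' + v1 i * y' - c i) ≤ 0 := by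
          apply sum_nonpos
          intro i _
          have hi := (hxy' i i.2).1 i.2
          exact mul_nonpos_of_nonpos_of_nonneg (hpos i) (by linarith)
        linarith
  · push Not at hneg
    -- all l ≥ 0, not all zero
    have hpos : ∃ i, 0 < l i := by
      by_contra hcon
      push Not at hcon
      exact hl0 (funext fun i => le_antisymm (hcon i) (hneg i))
    obtain ⟨x, y, hxy⟩ := h ∅ (empty_subset _)
    have h2 : ∑ i, l i * (v0 i * x + v1 i * y - c i) = - ∑ i, l i * c i := by
      have : ∀ i : s, l i * (v0 i * x + v1 i * y - c i)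
          = (l i * v0 i) * x + (l i * v1 i) * y - l i * c i := fun i => by ring
      rw [sum_congr rfl (fun i _ => this i), sum_sub_distrib, sum_add_distrib, ← sum_mul,
        ← sum_mul, h0, h1]
      ring
    obtain ⟨x', y', hxy'⟩ := h s (subset_refl _)
    have h2' : ∑ i, l i * (v0 i * x' + v1 i * y' - c i) = - ∑ i, l i * c i := by
      have : ∀ i : s, l i * (v0 i * x' + v1 i * y' - c i)
          = (l i * v0 i) * x' + (l i * v1 i) * y' - l i * c i := fun i => by ring
      rw [sum_congr rfl (fun i _ => this i), sum_sub_distrib, sum_add_distrib, ← sum_mul,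
        ← sum_mul, h0, h1]
      ring
    have h3 : 0 ≤ ∑ i, l i * (v0 i * x' + v1 i * y' - c i) := by
      apply sum_nonneg
      intro i _
      have hi := (hxy' i i.2).1 i.2
      exact mul_nonneg (hneg i) (by linarith)
    have h4 : ∑ i, l i * (v0 i * x + v1 i * y - c i) < 0 := by
      have : 0 < ∑ i, - (l i * (v0 i * x + v1 i * y - c i)) := by
        obtain ⟨i, hi⟩ := hpos
        refine sum_pos' (fun i _ => ?_) ⟨i, mem_univ i, ?_⟩
        · have : ¬ c i ≤ v0 i * x + v1 i * y := fun hcon => by
            have := (hxy i i.2).2 hcon; simp at this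
          rw [← mul_neg]
          exact mul_nonneg (hneg i) (by linarith)
        · have : ¬ c i ≤ v0 i * x + v1 i * y := fun hcon => by
            have := (hxy i i.2).2 hcon; simp at this
          rw [← mul_neg]
          exact mul_pos hi (by linarith)
      rw [sum_neg_distrib] at this
      linarith
    linarith

/-- **L1.** A function of two real parameters which only depends on the outcome of the tests
`c t ≤ v0 t * x + v1 t * y`, `t ∈ T`, takes at most `(|T| + 1)²` values. -/
theorem HalfPlane_card_image_tests {T X Y : Type*} [Fintype T] [DecidableEq Y] (v0 v1 c : T → ℝ)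
    (S : Finset X) (x y : X → ℝ) (F : X → Y)
    (hF : ∀ a ∈ S, ∀ b ∈ S,
      (∀ t, c t ≤ v0 t * x a + v1 t * y a ↔ c t ≤ v0 t * x b + v1 t * y b) → F a = F b) :
    (S.image F).card ≤ (Fintype.card T + 1) ^ 2 := by
  classical
  rcases S.eq_empty_or_nonempty with rfl | ⟨a0, _⟩
  · simp
  have : Nonempty X := ⟨a0⟩
  let P : X → Finset T := fun a => univ.filter (fun t => c t ≤ v0 t * x a + v1 t * y a)
  have h1 : (S.image F).card ≤ (S.image P).card := by
    have : ∀ s ∈ S.image P, ∃ a ∈ S, P a = s := fun s hs => by simpa using hs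
    choose! g hg hg' using this
    refine card_le_card_of_surjOn (fun s => F (g s)) ?_
    intro z hz
    rw [mem_coe, mem_image] at hz
    obtain ⟨a, ha, rfl⟩ := hz
    refine ⟨P a, mem_coe.2 (mem_image_of_mem _ ha), ?_⟩
    refine hF _ (hg _ (mem_image_of_mem _ ha)) _ ha (fun t => ?_)
    have := hg' (P a) (mem_image_of_mem _ ha)
    have h3 : t ∈ P (g (P a)) ↔ t ∈ P a := by rw [this]
    simpa [P] using h3
  have h2 : (S.image P).vcDim ≤ 2 := by
    unfold vcDim
    rw [Finset.sup_le_iff]
    intro s hs
    by_contra hcon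
    push Not at hcon
    rw [mem_shatterer] at hs
    refine HalfPlane_not_shatter v0 v1 c s hcon (fun t ht => ?_)
    obtain ⟨u, hu, hut⟩ := hs ht
    rw [mem_image] at hu
    obtain ⟨a, _, rfl⟩ := hu
    refine ⟨x a, y a, fun i hi => ?_⟩
    rw [← hut]
    simp [P, hi]
  calc (S.image F).card ≤ (S.image P).card := h1
    _ ≤ (S.image P).shatterer.card := card_le_card_shatterer _
    _ ≤ ∑ k ∈ Iic (S.image P).vcDim, (Fintype.card T).choose k := card_shatterer_le_sum_vcDim
    _ ≤ ∑ k ∈ Iic 2, (Fintype.card T).choose k :=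
        sum_le_sum_of_subset (Iic_subset_Iic.2 h2)
    _ ≤ (Fintype.card T + 1) ^ 2 := by
        rw [show (Iic 2 : Finset ℕ) = {0, 1, 2} by decide]
        rw [sum_insert (by decide), sum_insert (by decide), sum_singleton, Nat.choose_zero_right,
          Nat.choose_one_right]
        have := Nat.choose_le_pow_div 2 (Fintype.card T) (α := ℚ)
        have h3 : ((Fintype.card T).choose 2 : ℚ) ≤ (Fintype.card T : ℚ) ^ 2 := by
          refine this.trans ?_
          rw [show ((Nat.factorial 2 : ℕ) : ℚ) = 2 by norm_num [Nat.factorial]]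
          have : (0 : ℚ) ≤ (Fintype.card T : ℚ) ^ 2 := by positivity
          linarith
        have h4 : (Fintype.card T).choose 2 ≤ (Fintype.card T) ^ 2 := by exact_mod_cast h3
        nlinarith

/-- `T` half-plane tests on `ℝ²` realise at most `(T+1)^2` patterns. -/
theorem halfplane_count {T : Type*} [Fintype T] (a b c : T → ℝ) :
    AtMost (fun (v : ℝ × ℝ) (t : T) => (c t ≤ a t * v.1 + b t * v.2 : Prop))
      ((Fintype.card T + 1) ^ 2) := by
  classical
  apply AtMost.of_finset
  intro S
  apply HalfPlane_card_image_tests a b c S (fun v => v.1) (fun v => v.2)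
  intro v _ w _ hvw
  funext t
  exact propext (hvw t)

end Vale.Agent.H18.VW
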