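import Mathlib
import Vale.Agent.H18.VW.Defs
import Vale.Agent.H18.VW.HalfPlane

/-! L2a. Patterns of rotations (arithmetic progressions modulo `p`). -/

namespace Vale.Agent.H18.VW

open Finset

/-- L2a. Patterns of an arithmetic progression modulo `p`, for a class function determined by the
threshold set `B`. -/
theorem rotation_count {α : Type*} (p : ℕ) (hp : 0 < p) (k : ℕ) (B : Finset ℤ) (cl : ℤ → α)
    (hcl : ∀ z z' : ℤ, 0 ≤ z → z < p → 0 ≤ z' → z' < p →
      (∀ b ∈ B, (b ≤ z ↔ b ≤ z')) → cl z = cl z') :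
    AtMost (fun (w : ℤ × ℤ) (j : Fin k) => cl ((w.1 + (j : ℤ) * w.2) % p))
      ((k * (k + 1) * (B.card + 1) + 1) ^ 2) := by
  classical
  have hp : (0 : ℤ) < p := by exact_mod_cast hp
  let T := Fin k × Fin (k + 1) × Option B
  let bv : Option B → ℤ := fun o => match o with
    | none => 0
    | some b => b
  have hT : Fintype.card T = k * (k + 1) * (B.card + 1) := by
    simp only [T, Fintype.card_prod, Fintype.card_fin, Fintype.card_option, Fintype.card_coe]
    ring
  rw [← hT]
  apply AtMost.of_finset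
  intro S
  refine HalfPlane_card_image_tests (T := T) (fun _ => 1) (fun t => (t.1 : ℕ))
    (fun t => ((bv t.2.2 + (t.2.1 : ℕ) * (p : ℤ) : ℤ) : ℝ)) S
    (fun a => ((a.1 % p : ℤ) : ℝ)) (fun a => ((a.2 % p : ℤ) : ℝ)) _ ?_
  intro a _ b _ hab
  -- reading the tests
  have hw : ∀ j : Fin k, (cl ((a.1 + (j : ℕ) * a.2) % p)) = cl ((b.1 + (j : ℕ) * b.2) % p) := by
    intro j
    set w : ℤ := a.1 % p + (j : ℕ) * (a.2 % p) with hwdef
    set w' : ℤ := b.1 % p + (j : ℕ) * (b.2 % p) with hw'def
    have e1 : (a.1 + (j : ℕ) * a.2) % p = w % p :=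
      ((Int.mod_modEq _ _).symm.add ((Int.mod_modEq _ _).symm.mul_left _))
    have e2 : (b.1 + (j : ℕ) * b.2) % p = w' % p :=
      ((Int.mod_modEq _ _).symm.add ((Int.mod_modEq _ _).symm.mul_left _))
    have hup : ∀ (q : Fin (k + 1)) (o : Option B),
        (bv o + (q : ℕ) * (p : ℤ) ≤ w ↔ bv o + (q : ℕ) * (p : ℤ) ≤ w') := by
      intro q o
      have := hab (j, q, o)
      simp only [one_mul] at this
      rw [hwdef, hw'def]
      exact_mod_cast this
    have h0a := Int.emod_nonneg a.1 hp.ne'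
    have h1a := Int.emod_nonneg a.2 hp.ne'
    have h0a' := Int.emod_lt_of_pos a.1 hp
    have h1a' := Int.emod_lt_of_pos a.2 hp
    have hw0 : 0 ≤ w := by positivity
    have hj : ((j : ℕ) : ℤ) ≤ k - 1 := by have := j.2; omega
    have hj0 : (0 : ℤ) ≤ ((j : ℕ) : ℤ) := by positivity
    have hk0 : (0 : ℤ) < k := by have := j.2; omega
    have hwk : w < k * p := by
      have h3 : ((j : ℕ) : ℤ) * (a.2 % p) ≤ (k - 1) * p := by
        calc ((j : ℕ) : ℤ) * (a.2 % p) ≤ (k - 1) * (a.2 % p) :=
              mul_le_mul_of_nonneg_right hj h1a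
          _ ≤ (k - 1) * p := mul_le_mul_of_nonneg_left h1a'.le (by omega)
      rw [hwdef]; linarith
    -- the quotient
    have hQ0 : 0 ≤ w / p := Int.ediv_nonneg hw0 hp.le
    have hQk : w / p < k := Int.ediv_lt_of_lt_mul hp hwk
    obtain ⟨Q, hQ⟩ : ∃ Q : ℕ, w / p = Q := ⟨(w / p).toNat, by omega⟩
    have hQk' : Q < k := by omega
    have hdm : (Q : ℤ) * p + w % p = w := by rw [← hQ, mul_comm]; exact Int.mul_ediv_add_emod w p
    have hm0 := Int.emod_nonneg w hp.ne'
    have hm1 := Int.emod_lt_of_pos w hp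
    have t1 : (Q : ℤ) * p ≤ w' := by
      have := (hup ⟨Q, by omega⟩ none).1 (by
        simp only [bv, zero_add]; linarith)
      simpa only [bv, zero_add] using this
    have t2 : w' < ((Q : ℤ) + 1) * p := by
      by_contra hcon
      push Not at hcon
      have := (hup ⟨Q + 1, by omega⟩ none).2 (by
        simp only [bv, zero_add]
        exact_mod_cast hcon)
      simp only [bv, zero_add] at this
      have h5 : ((Q : ℤ) + 1) * p ≤ w := by exact_mod_cast this
      linarith
    have hQ' : w' / p = Q := by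
      apply le_antisymm
      · have := Int.ediv_lt_of_lt_mul hp t2
        omega
      · exact (Int.le_ediv_iff_mul_le hp).2 t1
    have hdm' : (Q : ℤ) * p + w' % p = w' := by
      rw [← hQ', mul_comm]; exact Int.mul_ediv_add_emod w' p
    rw [e1, e2]
    refine hcl _ _ hm0 hm1 (Int.emod_nonneg w' hp.ne') (Int.emod_lt_of_pos w' hp) ?_
    intro b hb
    have u1 := hup ⟨Q, by omega⟩ (some ⟨b, hb⟩)
    simp only [bv] at u1
    constructor
    · intro h
      have := u1.1 (by linarith)
      linarith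
    · intro h
      have := u1.2 (by linarith)
      linarith
  funext j
  exact hw j

end Vale.Agent.H18.VW
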