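import Mathlib
import Vale.Agent.H18.VW.Defs
import Vale.Agent.H18.VW.RotA

/-! L2c. Logarithmic classes, crude count. -/

namespace Vale.Agent.H18.VW

open Finset

theorem RotC_pow_le_iff {L : ℕ} (hL : 0 < L) {y : ℝ} (hy : 0 < |y|) (i : ℤ) :
    (2 : ℝ) ^ ((i : ℝ) / L) ≤ |y| ↔ i ≤ ⌊(L : ℝ) * Real.logb 2 |y|⌋ := by
  have hL' : (0 : ℝ) < L := by exact_mod_cast hL
  rw [Int.le_floor, ← Real.le_logb_iff_rpow_le (by norm_num) hy, div_le_iff₀ hL', mul_comm]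

/-- if no threshold in `(lo, hi]` separates `|y|` and `|y'|` then the floors agree -/
theorem RotC_floor_eq {L : ℕ} (hL : 0 < L) {y y' : ℝ} (hy : 0 < |y|) (hy' : 0 < |y'|) {lo hi : ℤ}
    (h1 : lo ≤ ⌊(L : ℝ) * Real.logb 2 |y|⌋) (h1' : lo ≤ ⌊(L : ℝ) * Real.logb 2 |y'|⌋)
    (h2 : ⌊(L : ℝ) * Real.logb 2 |y|⌋ ≤ hi) (h2' : ⌊(L : ℝ) * Real.logb 2 |y'|⌋ ≤ hi)
    (h : ∀ i ∈ Ioc lo hi, ((2 : ℝ) ^ ((i : ℝ) / L) ≤ |y| ↔ (2 : ℝ) ^ ((i : ℝ) / L) ≤ |y'|)) :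
    ⌊(L : ℝ) * Real.logb 2 |y|⌋ = ⌊(L : ℝ) * Real.logb 2 |y'|⌋ := by
  set f := ⌊(L : ℝ) * Real.logb 2 |y|⌋ with hf
  set f' := ⌊(L : ℝ) * Real.logb 2 |y'|⌋ with hf'
  apply le_antisymm
  · by_contra hcon
    push Not at hcon
    have := h f (by rw [mem_Ioc]; omega)
    rw [RotC_pow_le_iff hL hy, RotC_pow_le_iff hL hy'] at this
    omega
  · by_contra hcon
    push Not at hcon
    have := h f' (by rw [mem_Ioc]; omega)
    rw [RotC_pow_le_iff hL hy, RotC_pow_le_iff hL hy'] at this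
    omega

/-- integer thresholds for `T ≤ |2z - p|`, `T ∈ B0` -/
noncomputable def RotC_thr (p : ℕ) (B0 : Finset ℝ) : Finset ℤ :=
  B0.image (fun T => ⌈((p : ℝ) + T) / 2⌉) ∪ B0.image (fun T => ⌊((p : ℝ) - T) / 2⌋ + 1)

theorem RotC_card_thr (p : ℕ) (B0 : Finset ℝ) : (RotC_thr p B0).card ≤ 2 * B0.card := by
  refine (card_union_le _ _).trans ?_
  have h1 := card_image_le (s := B0) (f := fun T : ℝ => ⌈((p : ℝ) + T) / 2⌉)
  have h2 := card_image_le (s := B0) (f := fun T : ℝ => ⌊((p : ℝ) - T) / 2⌋ + 1)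
  omega

theorem RotC_thr_spec (p : ℕ) (B0 : Finset ℝ) (z z' : ℤ)
    (h : ∀ b ∈ RotC_thr p B0, (b ≤ z ↔ b ≤ z')) (T : ℝ) (hT : T ∈ B0) :
    T ≤ |((2 * z - p : ℤ) : ℝ)| ↔ T ≤ |((2 * z' - p : ℤ) : ℝ)| := by
  have key : ∀ y : ℤ, T ≤ |((2 * y - p : ℤ) : ℝ)| ↔
      (⌈((p : ℝ) + T) / 2⌉ ≤ y ∨ ¬ (⌊((p : ℝ) - T) / 2⌋ + 1 ≤ y)) := by
    intro y
    rw [le_abs, Int.ceil_le, not_le, Int.lt_add_one_iff, Int.le_floor]
    push_cast
    constructor
    · rintro (h | h)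
      · left; linarith
      · right; linarith
    · rintro (h | h)
      · left; linarith
      · right; linarith
  have h1 := h _ (mem_union_left _ (mem_image_of_mem _ hT))
  have h2 := h _ (mem_union_right _ (mem_image_of_mem _ hT))
  rw [key, key, h1, h2]

/-- L2c. -/
theorem log_count (L p : ℕ) (hL : 1 ≤ L) (hp : Odd p) (k : ℕ) :
    AtMost (fun (w : ℤ × ℤ) (j : Fin k) =>
        lg L ((2 * ((w.1 + (j : ℤ) * w.2) % p) - p : ℤ) : ℝ))
      ((k * (k + 1) * (2 * (L * Nat.clog 2 p + 1) + 1) + 1) ^ 2) := by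
  have hp0 : 0 < p := hp.pos
  have hL' : (0 : ℝ) < L := by exact_mod_cast hL
  set B0 : Finset ℝ := (Ioc (-1 : ℤ) (L * Nat.clog 2 p : ℕ)).image
    (fun i : ℤ => (2 : ℝ) ^ ((i : ℝ) / L)) with hB0
  have hB0c : B0.card ≤ L * Nat.clog 2 p + 1 := by
    refine card_image_le.trans ?_
    rw [Int.card_Ioc]
    omega
  refine (rotation_count p hp0 k (RotC_thr p B0)
    (fun z => lg L ((2 * z - p : ℤ) : ℝ)) ?_).mono ?_
  · intro z z' hz hzp hz' hzp' h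
    have key := RotC_thr_spec p B0 z z' h
    have habs : ∀ y : ℤ, 0 ≤ y → y < p → 1 ≤ |((2 * y - p : ℤ) : ℝ)| ∧
        |((2 * y - p : ℤ) : ℝ)| ≤ p := by
      intro y hy hyp
      constructor
      · have h1 : 2 * y - p ≠ 0 := by
          intro hcon
          obtain ⟨c, hc⟩ := hp
          omega
        have h2 := Int.one_le_abs h1
        exact_mod_cast h2
      · have h1 : |2 * y - p| ≤ p := by rw [abs_le]; constructor <;> omega
        exact_mod_cast h1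
    obtain ⟨h1, h2⟩ := habs z hz hzp
    obtain ⟨h1', h2'⟩ := habs z' hz' hzp'
    have hpc : (p : ℝ) ≤ 2 ^ (Nat.clog 2 p) := by
      exact_mod_cast Nat.le_pow_clog (by norm_num) p
    have hfl : ∀ y : ℝ, 1 ≤ |y| → |y| ≤ p → -1 ≤ ⌊(L : ℝ) * Real.logb 2 |y|⌋ ∧
        ⌊(L : ℝ) * Real.logb 2 |y|⌋ ≤ ((L * Nat.clog 2 p : ℕ) : ℤ) := by
      intro y hy1 hy2
      constructor
      · have : 0 ≤ ⌊(L : ℝ) * Real.logb 2 |y|⌋ :=
          Int.floor_nonneg.2 (mul_nonneg hL'.le (Real.logb_nonneg (by norm_num) hy1))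
        omega
      · have h3 : Real.logb 2 |y| ≤ Nat.clog 2 p := by
          rw [Real.logb_le_iff_le_rpow (by norm_num) (by linarith), Real.rpow_natCast]
          linarith
        have h4 : (L : ℝ) * Real.logb 2 |y| ≤ ((L * Nat.clog 2 p : ℕ) : ℤ) := by
          push_cast
          exact mul_le_mul_of_nonneg_left h3 hL'.le
        exact_mod_cast (Int.floor_le _).trans h4
    show lg L _ = lg L _
    unfold lg
    congr 1
    refine RotC_floor_eq hL (by linarith) (by linarith) (hfl _ h1 h2).1 (hfl _ h1' h2').1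
      (hfl _ h1 h2).2 (hfl _ h1' h2').2 ?_
    intro i hi
    exact key _ (mem_image_of_mem _ hi)
  · have := RotC_card_thr p B0
    gcongr
    omega

end Vale.Agent.H18.VW
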