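import Mathlib
import Vale.Agent.H18.VW.Defs
import Vale.Agent.H18.VW.HalfPlane
import Vale.Agent.H18.VW.RotC

/-! L3a. Logarithmic classes of a real linear function. -/

namespace Vale.Agent.H18.VW

open Finset

/-- class of a real number in the window `[2^{-(m+2)}, 2)` -/
noncomputable def LogReal_cl (m L : ℕ) (y : ℝ) : Option ℤ :=
  open Classical in
  if (2 : ℝ) ^ (((-(L * (m + 2) : ℕ) : ℤ) : ℝ) / L) ≤ |y| ∧ |y| < 2
    then some (lg L y) else none

/-- thresholds for the window -/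
noncomputable def LogReal_thr (m L : ℕ) : Finset ℝ :=
  (Icc (-(L * (m + 2) : ℕ) : ℤ) L).image (fun i : ℤ => (2 : ℝ) ^ ((i : ℝ) / L))

theorem LogReal_card_thr (m L : ℕ) : (LogReal_thr m L).card ≤ L * (m + 3) + 1 := by
  refine card_image_le.trans ?_
  rw [Int.card_Icc]
  have : (L : ℤ) + 1 - -((L * (m + 2) : ℕ) : ℤ) = ((L * (m + 3) + 1 : ℕ) : ℤ) := by
    push_cast; ring
  rw [this, Int.toNat_natCast]

theorem LogReal_cl_spec {m L : ℕ} (hL : 1 ≤ L) (y y' : ℝ)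
    (h : ∀ T ∈ LogReal_thr m L, (T ≤ |y| ↔ T ≤ |y'|)) : LogReal_cl m L y = LogReal_cl m L y' := by
  have hL' : (0 : ℝ) < L := by exact_mod_cast hL
  have hlo : (2 : ℝ) ^ (((-(L * (m + 2) : ℕ) : ℤ) : ℝ) / L) ∈ LogReal_thr m L :=
    mem_image_of_mem _ (by rw [mem_Icc]; constructor <;> push_cast <;> nlinarith)
  have hhi : (2 : ℝ) ∈ LogReal_thr m L := by
    refine mem_image.2 ⟨(L : ℤ), by rw [mem_Icc]; constructor <;> push_cast <;> nlinarith, ?_⟩
    simp only [Int.cast_natCast]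
    rw [div_self hL'.ne', Real.rpow_one]
  have k1 := h 2 hhi
  have k2 := h _ hlo
  have hpos : (0 : ℝ) < (2 : ℝ) ^ (((-(L * (m + 2) : ℕ) : ℤ) : ℝ) / L) :=
    Real.rpow_pos_of_pos (by norm_num) _
  unfold LogReal_cl
  by_cases hc : (2 : ℝ) ^ (((-(L * (m + 2) : ℕ) : ℤ) : ℝ) / L) ≤ |y| ∧ |y| < 2
  · have hc' : (2 : ℝ) ^ (((-(L * (m + 2) : ℕ) : ℤ) : ℝ) / L) ≤ |y'| ∧ |y'| < 2 :=
      ⟨k2.1 hc.1, by
        by_contra hcon
        exact absurd (k1.2 (not_lt.1 hcon)) (not_le.2 hc.2)⟩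
    rw [if_pos hc, if_pos hc']
    congr 1
    unfold lg
    congr 1
    have hy : 0 < |y| := lt_of_lt_of_le hpos hc.1
    have hy' : 0 < |y'| := lt_of_lt_of_le hpos hc'.1
    have hup : ∀ w : ℝ, 0 < |w| → |w| < 2 → ⌊(L : ℝ) * Real.logb 2 |w|⌋ ≤ (L : ℤ) := by
      intro w hw hw2
      have h3 : Real.logb 2 |w| ≤ 1 := by
        rw [Real.logb_le_iff_le_rpow (by norm_num) hw, Real.rpow_one]
        exact hw2.le
      have h4 : (L : ℝ) * Real.logb 2 |w| ≤ ((L : ℤ) : ℝ) := by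
        push_cast
        nlinarith
      exact_mod_cast (Int.floor_le _).trans h4
    refine RotC_floor_eq hL hy hy' ((RotC_pow_le_iff hL hy _).1 hc.1)
      ((RotC_pow_le_iff hL hy' _).1 hc'.1) (hup y hy hc.2) (hup y' hy' hc'.2) ?_
    intro i hi
    rw [mem_Ioc] at hi
    exact h _ (mem_image_of_mem _ (by rw [mem_Icc]; omega))
  · have hc' : ¬ ((2 : ℝ) ^ (((-(L * (m + 2) : ℕ) : ℤ) : ℝ) / L) ≤ |y'| ∧ |y'| < 2) := by
      rintro ⟨h1, h2⟩
      exact hc ⟨k2.2 h1, by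
        by_contra hcon
        exact absurd (k1.1 (not_lt.1 hcon)) (not_le.2 h2)⟩
    rw [if_neg hc, if_neg hc']

/-- number of patterns of `LogReal_cl (v1 + l v2)` -/
theorem LogReal_card_cl {Ω : Type*} {m L : ℕ} (hL : 1 ≤ L) (α β : Ω → ℝ) :
    AtMost (fun (a : Ω) (l : Fin m) => LogReal_cl m L (α a + (l : ℕ) * β a))
      ((2 * (m * (L * (m + 3) + 1)) + 1) ^ 2) := by
  classical
  let T := Bool × Fin m × (LogReal_thr m L)
  let sg : Bool → ℝ := fun e => if e then 1 else -1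
  have hT : Fintype.card T ≤ 2 * (m * (L * (m + 3) + 1)) := by
    simp only [T, Fintype.card_prod, Fintype.card_bool, Fintype.card_fin, Fintype.card_coe]
    have := LogReal_card_thr m L
    gcongr
  have h1 := (halfplane_count (T := T) (fun t => sg t.1) (fun t => sg t.1 * (t.2.1 : ℕ))
    (fun t => (t.2.2 : ℝ))).precomp (fun a : Ω => (α a, β a))
  refine (h1.of_factor _ ?_).mono (by gcongr)
  intro a b hab
  funext l
  apply LogReal_cl_spec hL
  intro t ht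
  have h1 := congrFun hab (true, l, ⟨t, ht⟩)
  have h2 := congrFun hab (false, l, ⟨t, ht⟩)
  simp only [sg, if_true, one_mul, Bool.false_eq_true, if_false, neg_mul, eq_iff_iff] at h1 h2
  rw [le_abs, le_abs]
  constructor
  · rintro (h3 | h3)
    · left; have := h1.1 (by linarith); linarith
    · right; have := h2.1 (by linarith); linarith
  · rintro (h3 | h3)
    · left; have := h1.2 (by linarith); linarith
    · right; have := h2.2 (by linarith); linarith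

theorem LogReal_lg_scale {L : ℕ} (e : ℤ) {y : ℝ} (hy : y ≠ 0) :
    lg L (2 ^ e * y) = lg L y := by
  unfold lg
  have h1 : Real.logb 2 |(2 : ℝ) ^ e * y| = (e : ℝ) + Real.logb 2 |y| := by
    rw [abs_mul, abs_of_pos (by positivity : (0 : ℝ) < 2 ^ e),
      Real.logb_mul (by positivity) (abs_pos.2 hy).ne', ← Real.rpow_intCast,
      Real.logb_rpow (by norm_num) (by norm_num)]
  rw [h1, mul_add]
  have e2 : (L : ℝ) * (e : ℝ) + (L : ℝ) * Real.logb 2 |y|
      = (L : ℝ) * Real.logb 2 |y| + (((L : ℤ) * e : ℤ) : ℝ) := by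
    push_cast; ring
  rw [e2, Int.floor_add_intCast, Int.add_mul_emod_self_left]

theorem LogReal_lg_zero (L : ℕ) : lg L 0 = 0 := by
  unfold lg; simp

theorem LogReal_lg_mem {L : ℕ} (hL : 1 ≤ L) (y : ℝ) : lg L y ∈ Ico (0 : ℤ) L := by
  rw [mem_Ico]
  exact ⟨Int.emod_nonneg _ (by omega), Int.emod_lt_of_pos _ (by omega)⟩

/-- normalisation -/
theorem LogReal_norm {m : ℕ} (hm : 1 ≤ m) (v : ℝ × ℝ)
    (hv : ∃ l : Fin m, v.1 + (l : ℕ) * v.2 ≠ 0) :
    ∃ (α β : ℝ) (e : ℤ), (∀ l : Fin m, v.1 + (l : ℕ) * v.2 = 2 ^ e * (α + (l : ℕ) * β)) ∧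
      (∀ l : Fin m, |α + (l : ℕ) * β| < 2) ∧
      ∀ l l' : Fin m, |α + (l : ℕ) * β| < 1 / (4 * m) → |α + (l' : ℕ) * β| < 1 / (4 * m) →
        l = l' := by
  have hm' : (0 : ℝ) < m := by exact_mod_cast hm
  obtain ⟨l0, hl0⟩ := hv
  have : Nonempty (Fin m) := ⟨l0⟩
  obtain ⟨ls, hmax⟩ := Finite.exists_max (fun l : Fin m => |v.1 + (l : ℕ) * v.2|)
  set M := |v.1 + (ls : ℕ) * v.2| with hM
  have hM0 : 0 < M := lt_of_lt_of_le (abs_pos.2 hl0) (hmax l0)
  obtain ⟨e, he1, he2⟩ : ∃ e : ℤ, (2 : ℝ) ^ e ≤ M ∧ M < 2 ^ (e + 1) :=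
    exists_mem_Ico_zpow hM0 (by norm_num)
  have h2e : (0 : ℝ) < 2 ^ e := by positivity
  have hsc : ∀ l : Fin m, v.1 / 2 ^ e + (l : ℕ) * (v.2 / 2 ^ e) = (v.1 + (l : ℕ) * v.2) / 2 ^ e := by
    intro l
    field_simp
  refine ⟨v.1 / 2 ^ e, v.2 / 2 ^ e, e, ?_, ?_, ?_⟩
  · intro l
    rw [hsc l]; field_simp
  · intro l
    rw [hsc l, abs_div, abs_of_pos h2e, div_lt_iff₀ h2e]
    have h3 := hmax l
    rw [zpow_add_one₀ (by norm_num : (2 : ℝ) ≠ 0)] at he2
    linarith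
  · intro l l' hs hs'
    by_contra hcon
    set A := v.1 / 2 ^ e with hA
    set B := v.2 / 2 ^ e with hB
    have hmaxy : 1 ≤ |A + (ls : ℕ) * B| := by
      rw [hsc ls, abs_div, abs_of_pos h2e, le_div_iff₀ h2e, one_mul]
      exact he1
    have hll : 1 ≤ |((l : ℕ) : ℝ) - ((l' : ℕ) : ℝ)| := by
      have h1 : ((l : ℕ) : ℤ) - ((l' : ℕ) : ℤ) ≠ 0 := by
        intro h
        apply hcon
        apply Fin.ext
        omega
      have h2 := Int.one_le_abs h1
      exact_mod_cast h2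
    have hB1 : |B| < 1 / (2 * m) := by
      have h3 : |(((l : ℕ) : ℝ) - ((l' : ℕ) : ℝ)) * B| < 1 / (2 * m) := by
        have : (((l : ℕ) : ℝ) - ((l' : ℕ) : ℝ)) * B
            = (A + (l : ℕ) * B) - (A + (l' : ℕ) * B) := by ring
        rw [this]
        refine (abs_sub _ _).trans_lt ?_
        have h4 : 1 / (2 * (m : ℝ)) = 1 / (4 * m) + 1 / (4 * m) := by field_simp; ring
        linarith
      rw [abs_mul] at h3
      have h5 : |B| ≤ |((l : ℕ) : ℝ) - ((l' : ℕ) : ℝ)| * |B| :=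
        le_mul_of_one_le_left (abs_nonneg _) hll
      linarith
    have hlm : |((ls : ℕ) : ℝ) - ((l : ℕ) : ℝ)| ≤ (m : ℝ) - 1 := by
      have h3 : ((ls : ℕ) : ℝ) ≤ (m : ℝ) - 1 := by
        have : (ls : ℕ) + 1 ≤ m := ls.2
        have : (((ls : ℕ) : ℝ)) + 1 ≤ m := by exact_mod_cast this
        linarith
      have h4 : ((l : ℕ) : ℝ) ≤ (m : ℝ) - 1 := by
        have : (l : ℕ) + 1 ≤ m := l.2
        have : (((l : ℕ) : ℝ)) + 1 ≤ m := by exact_mod_cast this
        linarith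
      have h5 : (0 : ℝ) ≤ ((l : ℕ) : ℝ) := by positivity
      have h6 : (0 : ℝ) ≤ ((ls : ℕ) : ℝ) := by positivity
      rw [abs_le]; constructor <;> linarith
    have h7 : |A + (ls : ℕ) * B| ≤ |A + (l : ℕ) * B| + |((ls : ℕ) : ℝ) - ((l : ℕ) : ℝ)| * |B| := by
      have : A + (ls : ℕ) * B = (A + (l : ℕ) * B) + (((ls : ℕ) : ℝ) - ((l : ℕ) : ℝ)) * B := by ring
      rw [this, ← abs_mul]
      exact abs_add_le _ _
    have h8 : |((ls : ℕ) : ℝ) - ((l : ℕ) : ℝ)| * |B| ≤ ((m : ℝ) - 1) * (1 / (2 * m)) :=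
      mul_le_mul hlm hB1.le (abs_nonneg _) (by
        have : (1 : ℝ) ≤ m := by exact_mod_cast hm
        linarith)
    have h9 : ((m : ℝ) - 1) * (1 / (2 * m)) = 1 / 2 - 1 / (2 * m) := by field_simp
    have h10 : 1 / (4 * (m : ℝ)) ≤ 1 / (2 * m) := by
      apply one_div_le_one_div_of_le <;> linarith
    linarith

theorem LogReal_small {m L : ℕ} (hm : 1 ≤ m) (hL : 1 ≤ L) :
    (2 : ℝ) ^ (((-(L * (m + 2) : ℕ) : ℤ) : ℝ) / L) ≤ 1 / (4 * m) := by
  have hL' : (0 : ℝ) < L := by exact_mod_cast hL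
  have hm' : (0 : ℝ) < m := by exact_mod_cast hm
  have h1 : (((-(L * (m + 2) : ℕ) : ℤ) : ℝ) / L) = -((m + 2 : ℕ) : ℝ) := by
    push_cast; field_simp
  rw [h1, Real.rpow_neg (by norm_num), Real.rpow_natCast, ← one_div]
  apply one_div_le_one_div_of_le (by positivity)
  have h2 : (m : ℝ) ≤ 2 ^ m := by exact_mod_cast (Nat.lt_two_pow_self (n := m)).le
  rw [pow_add]
  linarith

theorem log_real_count (L m : ℕ) (hL : 1 ≤ L) (hm : 1 ≤ m) :
    AtMost (fun (v : ℝ × ℝ) (l : Fin m) => lg L (v.1 + (l : ℝ) * v.2))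
      ((2 * (m * (L * (m + 3) + 1)) + 1) ^ 2 * L + 1) := by
  classical
  let Ω := {v : ℝ × ℝ // ∃ l : Fin m, v.1 + (l : ℕ) * v.2 ≠ 0}
  choose α β e h1 h2 h3 using fun v : Ω => LogReal_norm hm v.1 v.2
  let sm : Ω → Fin m → Prop := fun a l =>
    |α a + (l : ℕ) * β a| < (2 : ℝ) ^ (((-(L * (m + 2) : ℕ) : ℤ) : ℝ) / L)
  let G3 : Ω → ℤ := fun a => if h : ∃ l, sm a l then lg L (a.1.1 + (h.choose : ℕ) * a.1.2) else 0
  have hsm := LogReal_small hm hL
  have hG3 : ∀ a l, sm a l → G3 a = lg L (a.1.1 + (l : ℕ) * a.1.2) := by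
    intro a l hl
    have hex : ∃ l, sm a l := ⟨l, hl⟩
    have hs := hex.choose_spec
    have : hex.choose = l := h3 a _ _ (lt_of_lt_of_le hs hsm) (lt_of_lt_of_le hl hsm)
    simp only [G3]
    rw [dif_pos hex, this]
  have hG3c : AtMost G3 L := by
    refine ⟨Ico (0 : ℤ) L, by simp, fun a => ?_⟩
    simp only [G3]
    split_ifs with h
    · exact LogReal_lg_mem hL _
    · rw [mem_Ico]; omega
  have hmain : AtMost (fun (a : Ω) (l : Fin m) => lg L (a.1.1 + (l : ℕ) * a.1.2))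
      ((2 * (m * (L * (m + 3) + 1)) + 1) ^ 2 * L) := by
    refine ((LogReal_card_cl hL α β).prod hG3c).of_factor _ ?_
    intro a b hab
    simp only [Prod.mk.injEq] at hab
    obtain ⟨hab1, hab2⟩ := hab
    have hrec : ∀ (a : Ω) (l : Fin m), lg L (a.1.1 + (l : ℕ) * a.1.2)
        = (LogReal_cl m L (α a + (l : ℕ) * β a)).getD (G3 a) := by
      intro a l
      by_cases hs : sm a l
      · have : LogReal_cl m L (α a + (l : ℕ) * β a) = none := by
          unfold LogReal_cl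
          rw [if_neg (fun h => absurd h.1 (not_le.2 hs))]
        rw [this, Option.getD_none, hG3 a l hs]
      · have hs' := not_lt.1 hs
        have : LogReal_cl m L (α a + (l : ℕ) * β a) = some (lg L (α a + (l : ℕ) * β a)) := by
          unfold LogReal_cl
          rw [if_pos ⟨hs', h2 a l⟩]
        rw [this, Option.getD_some, h1 a l, LogReal_lg_scale]
        intro h0
        rw [h0, abs_zero] at hs'
        exact absurd hs' (not_le.2 (Real.rpow_pos_of_pos (by norm_num) _))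
    funext l
    rw [hrec, hrec, hab2, congrFun hab1 l]
  obtain ⟨F, hF1, hF2⟩ := hmain
  refine ⟨insert (fun _ => 0) F, (card_insert_le _ _).trans (by omega), fun v => ?_⟩
  by_cases hv : ∃ l : Fin m, v.1 + (l : ℕ) * v.2 ≠ 0
  · exact mem_insert_of_mem (hF2 ⟨v, hv⟩)
  · push Not at hv
    rw [mem_insert]
    left
    funext l
    show lg L (v.1 + (l : ℕ) * v.2) = 0
    rw [hv l, LogReal_lg_zero]

end Vale.Agent.H18.VW
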