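import Mathlib
import Vale.Agent.H18.VW.Defs
import Vale.Agent.H18.VW.RotA
import Vale.Agent.H18.VW.RotC
import Vale.Agent.H18.VW.LogReal

/-! L3b. Logarithmic classes along `m` terms of a progression modulo `p`: the number of patterns
does not depend on `p`. -/

namespace Vale.Agent.H18.VW

open Finset

/-- class of a residue `z` when `|2z-p|` is large -/
noncomputable def LogBlock_cl (p m L : ℕ) (z : ℤ) : Option ℤ :=
  open Classical in
  if ((p : ℝ) / (8 * m)) ≤ |((2 * z - p : ℤ) : ℝ)| then some (lg L ((2 * z - p : ℤ) : ℝ)) else none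

/-- thresholds for `|2z-p|` -/
noncomputable def LogBlock_thr (p m L : ℕ) : Finset ℝ :=
  insert ((p : ℝ) / (8 * m)) ((Ioc ⌊(L : ℝ) * Real.logb 2 ((p : ℝ) / (8 * m))⌋
    ⌊(L : ℝ) * Real.logb 2 (p : ℝ)⌋).image (fun i : ℤ => (2 : ℝ) ^ ((i : ℝ) / L)))

theorem LogBlock_card_thr {p : ℕ} (hp : 0 < p) {m : ℕ} (L : ℕ) (hm : 0 < m) :
    (LogBlock_thr p m L).card ≤ L * (m + 3) + 2 := by
  have hp' : (0 : ℝ) < p := by exact_mod_cast hp
  have hm' : (0 : ℝ) < m := by exact_mod_cast hm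
  refine (card_insert_le _ _).trans ?_
  have h1 := card_image_le (s := Ioc ⌊(L : ℝ) * Real.logb 2 ((p : ℝ) / (8 * m))⌋
    ⌊(L : ℝ) * Real.logb 2 (p : ℝ)⌋) (f := fun i : ℤ => (2 : ℝ) ^ ((i : ℝ) / L))
  rw [Int.card_Ioc] at h1
  have h2 : ⌊(L : ℝ) * Real.logb 2 (p : ℝ)⌋ - ⌊(L : ℝ) * Real.logb 2 ((p : ℝ) / (8 * m))⌋
      ≤ L * (m + 3) + 1 := by
    have e1 : Real.logb 2 ((p : ℝ) / (8 * m)) = Real.logb 2 p - Real.logb 2 (8 * m : ℝ) := by
      rw [Real.logb_div hp'.ne' (by positivity)]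
    have e2 : Real.logb 2 (8 * m : ℝ) ≤ (m : ℝ) + 3 := by
      rw [Real.logb_le_iff_le_rpow (by norm_num) (by positivity)]
      have h3 : (m : ℝ) ≤ 2 ^ m := by exact_mod_cast (Nat.lt_two_pow_self (n := m)).le
      have h4 : (2 : ℝ) ^ ((m : ℝ) + 3) = 2 ^ m * 8 := by
        rw [Real.rpow_add (by norm_num), Real.rpow_natCast]; norm_num
      rw [h4]; linarith
    have e3 := Int.floor_le ((L : ℝ) * Real.logb 2 (p : ℝ))
    have e4 := Int.lt_floor_add_one ((L : ℝ) * Real.logb 2 ((p : ℝ) / (8 * m)))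
    rw [e1] at e4
    have e5 : (L : ℝ) * Real.logb 2 (8 * m : ℝ) ≤ L * ((m : ℝ) + 3) :=
      mul_le_mul_of_nonneg_left e2 (by positivity)
    have e6 : ((⌊(L : ℝ) * Real.logb 2 (p : ℝ)⌋ : ℤ) : ℝ)
        - ((⌊(L : ℝ) * Real.logb 2 ((p : ℝ) / (8 * m))⌋ : ℤ) : ℝ) < (L * (m + 3) + 1 : ℝ) := by
      rw [e1]
      push_cast at e4 e5 ⊢
      nlinarith
    have e7 : ⌊(L : ℝ) * Real.logb 2 (p : ℝ)⌋ - ⌊(L : ℝ) * Real.logb 2 ((p : ℝ) / (8 * m))⌋
        < L * (m + 3) + 1 := by exact_mod_cast e6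
    omega
  have h3 : (⌊(L : ℝ) * Real.logb 2 (p : ℝ)⌋
      - ⌊(L : ℝ) * Real.logb 2 ((p : ℝ) / (8 * m))⌋).toNat ≤ L * (m + 3) + 1 := by
    rw [Int.toNat_le]; push_cast; exact h2
  omega

theorem LogBlock_cl_spec {p : ℕ} (hp : 0 < p) {m L : ℕ} (hm : 0 < m) (hL : 0 < L) (z z' : ℤ)
    (hz : 0 ≤ z) (hzp : z < p) (hz' : 0 ≤ z') (hzp' : z' < p)
    (h : ∀ b ∈ RotC_thr p (LogBlock_thr p m L), (b ≤ z ↔ b ≤ z')) :
    LogBlock_cl p m L z = LogBlock_cl p m L z' := by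
  have hp' : (0 : ℝ) < p := by exact_mod_cast hp
  have hm' : (0 : ℝ) < m := by exact_mod_cast hm
  have hL' : (0 : ℝ) < L := by exact_mod_cast hL
  have key := RotC_thr_spec p (LogBlock_thr p m L) z z' h
  have k1 := key _ (mem_insert_self _ _)
  unfold LogBlock_cl
  by_cases hfar : ((p : ℝ) / (8 * m)) ≤ |((2 * z - p : ℤ) : ℝ)|
  · rw [if_pos hfar, if_pos (k1.1 hfar)]
    congr 1
    unfold lg
    congr 1
    have hpos : (0 : ℝ) < (p : ℝ) / (8 * m) := by positivity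
    have hy : 0 < |((2 * z - p : ℤ) : ℝ)| := lt_of_lt_of_le hpos hfar
    have hy' : 0 < |((2 * z' - p : ℤ) : ℝ)| := lt_of_lt_of_le hpos (k1.1 hfar)
    have bnd : ∀ w : ℤ, 0 ≤ w → w < p → |((2 * w - p : ℤ) : ℝ)| ≤ p := by
      intro w h1 h2
      have h1' : (0 : ℝ) ≤ w := by exact_mod_cast h1
      have h2' : (w : ℝ) < p := by exact_mod_cast h2
      rw [abs_le]; push_cast; constructor <;> linarith
    refine RotC_floor_eq hL hy hy' (lo := ⌊(L : ℝ) * Real.logb 2 ((p : ℝ) / (8 * m))⌋)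
      (hi := ⌊(L : ℝ) * Real.logb 2 (p : ℝ)⌋) ?_ ?_ ?_ ?_ ?_
    · apply Int.floor_le_floor
      exact mul_le_mul_of_nonneg_left (Real.logb_le_logb_of_le (by norm_num) hpos hfar) hL'.le
    · apply Int.floor_le_floor
      exact mul_le_mul_of_nonneg_left
        (Real.logb_le_logb_of_le (by norm_num) hpos (k1.1 hfar)) hL'.le
    · apply Int.floor_le_floor
      exact mul_le_mul_of_nonneg_left (Real.logb_le_logb_of_le (by norm_num) hy (bnd z hz hzp)) hL'.le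
    · apply Int.floor_le_floor
      exact mul_le_mul_of_nonneg_left
        (Real.logb_le_logb_of_le (by norm_num) hy' (bnd z' hz' hzp')) hL'.le
    · intro i hi
      exact key _ (mem_insert_of_mem (mem_image_of_mem _ hi))
  · rw [if_neg hfar, if_neg (fun hc => hfar (k1.2 hc))]

/-- `τ_l = 2 ((X0 + l X1) mod p) - p` -/
def LogBlock_tau (p : ℕ) (X0 X1 : ℤ) (l : ℕ) : ℤ := 2 * ((X0 + (l : ℕ) * X1) % p) - p

theorem LogBlock_near_line {p : ℕ} (hp0 : 0 < p) {m : ℕ} (hm : 0 < m) (X0 X1 : ℤ) :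
    ∃ v : ℝ × ℝ, ∀ l : Fin m, |(LogBlock_tau p X0 X1 l : ℝ)| < (p : ℝ) / (8 * m) →
      (LogBlock_tau p X0 X1 l : ℝ) = v.1 + (l : ℕ) * v.2 := by
  have hp : (0 : ℤ) < p := by exact_mod_cast hp0
  have hp' : (0 : ℝ) < p := by exact_mod_cast hp0
  have hm' : (0 : ℝ) < m := by exact_mod_cast hm
  by_cases hex : ∃ l0 l1 : Fin m, l0 ≠ l1 ∧ |(LogBlock_tau p X0 X1 l0 : ℝ)| < (p : ℝ) / (8 * m) ∧
      |(LogBlock_tau p X0 X1 l1 : ℝ)| < (p : ℝ) / (8 * m)
  · obtain ⟨l0, l1, hne, h0, h1⟩ := hex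
    have hd : ((l1 : ℕ) : ℝ) - ((l0 : ℕ) : ℝ) ≠ 0 := by
      intro hcon
      apply hne
      apply Fin.ext
      have : ((l1 : ℕ) : ℝ) = ((l0 : ℕ) : ℝ) := by linarith
      exact_mod_cast this.symm
    refine ⟨((LogBlock_tau p X0 X1 l0 : ℝ) - (l0 : ℕ) * (((LogBlock_tau p X0 X1 l1 : ℝ)
      - (LogBlock_tau p X0 X1 l0 : ℝ)) / (((l1 : ℕ) : ℝ) - ((l0 : ℕ) : ℝ))),
      ((LogBlock_tau p X0 X1 l1 : ℝ) - (LogBlock_tau p X0 X1 l0 : ℝ))
      / (((l1 : ℕ) : ℝ) - ((l0 : ℕ) : ℝ))), ?_⟩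
    intro l hl
    have key : (((l : ℕ) : ℤ) - ((l0 : ℕ) : ℤ)) * (LogBlock_tau p X0 X1 l1 - LogBlock_tau p X0 X1 l0)
        - (((l1 : ℕ) : ℤ) - ((l0 : ℕ) : ℤ)) * (LogBlock_tau p X0 X1 l - LogBlock_tau p X0 X1 l0)
          = 0 := by
      apply Int.eq_zero_of_abs_lt_dvd (m := 2 * (p : ℤ))
      · refine ⟨-((((l : ℕ) : ℤ) - ((l0 : ℕ) : ℤ)) * ((X0 + (l1 : ℕ) * X1) / p
          - (X0 + (l0 : ℕ) * X1) / p) - (((l1 : ℕ) : ℤ) - ((l0 : ℕ) : ℤ)) *
          ((X0 + (l : ℕ) * X1) / p - (X0 + (l0 : ℕ) * X1) / p)), ?_⟩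
        have e0 := Int.emod_def (X0 + (l0 : ℕ) * X1) p
        have e1 := Int.emod_def (X0 + (l1 : ℕ) * X1) p
        have e2 := Int.emod_def (X0 + (l : ℕ) * X1) p
        unfold LogBlock_tau
        rw [e0, e1, e2]
        ring
      · have hb : |((l : ℕ) : ℝ) - ((l0 : ℕ) : ℝ)| ≤ m := by
          have h3 : ((l : ℕ) : ℝ) < m := by exact_mod_cast l.2
          have h4 : ((l0 : ℕ) : ℝ) < m := by exact_mod_cast l0.2
          have h5 : (0 : ℝ) ≤ ((l : ℕ) : ℝ) := by positivity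
          have h6 : (0 : ℝ) ≤ ((l0 : ℕ) : ℝ) := by positivity
          rw [abs_le]; constructor <;> linarith
        have hb' : |((l1 : ℕ) : ℝ) - ((l0 : ℕ) : ℝ)| ≤ m := by
          have h3 : ((l1 : ℕ) : ℝ) < m := by exact_mod_cast l1.2
          have h4 : ((l0 : ℕ) : ℝ) < m := by exact_mod_cast l0.2
          have h5 : (0 : ℝ) ≤ ((l1 : ℕ) : ℝ) := by positivity
          have h6 : (0 : ℝ) ≤ ((l0 : ℕ) : ℝ) := by positivity
          rw [abs_le]; constructor <;> linarith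
        have hc : |(LogBlock_tau p X0 X1 l1 : ℝ) - (LogBlock_tau p X0 X1 l0 : ℝ)|
            ≤ (p : ℝ) / (4 * m) := by
          have h7 := abs_sub (LogBlock_tau p X0 X1 l1 : ℝ) (LogBlock_tau p X0 X1 l0 : ℝ)
          have h8 : (p : ℝ) / (4 * m) = (p : ℝ) / (8 * m) + (p : ℝ) / (8 * m) := by
            field_simp; ring
          linarith
        have hc' : |(LogBlock_tau p X0 X1 l : ℝ) - (LogBlock_tau p X0 X1 l0 : ℝ)|
            ≤ (p : ℝ) / (4 * m) := by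
          have h7 := abs_sub (LogBlock_tau p X0 X1 l : ℝ) (LogBlock_tau p X0 X1 l0 : ℝ)
          have h8 : (p : ℝ) / (4 * m) = (p : ℝ) / (8 * m) + (p : ℝ) / (8 * m) := by
            field_simp; ring
          linarith
        have hq : (m : ℝ) * ((p : ℝ) / (4 * m)) = p / 4 := by field_simp
        have h9 : |(((l : ℕ) : ℝ) - ((l0 : ℕ) : ℝ)) *
            ((LogBlock_tau p X0 X1 l1 : ℝ) - (LogBlock_tau p X0 X1 l0 : ℝ))
            - (((l1 : ℕ) : ℝ) - ((l0 : ℕ) : ℝ)) *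
            ((LogBlock_tau p X0 X1 l : ℝ) - (LogBlock_tau p X0 X1 l0 : ℝ))|
            < 2 * p := by
          refine (abs_sub _ _).trans_lt ?_
          rw [abs_mul, abs_mul]
          have h10 := mul_le_mul hb hc (abs_nonneg _) hm'.le
          have h11 := mul_le_mul hb' hc' (abs_nonneg _) hm'.le
          rw [hq] at h10 h11
          linarith
        exact_mod_cast h9
    have key' : (((l : ℕ) : ℝ) - ((l0 : ℕ) : ℝ)) *
        ((LogBlock_tau p X0 X1 l1 : ℝ) - (LogBlock_tau p X0 X1 l0 : ℝ))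
        - (((l1 : ℕ) : ℝ) - ((l0 : ℕ) : ℝ)) *
        ((LogBlock_tau p X0 X1 l : ℝ) - (LogBlock_tau p X0 X1 l0 : ℝ)) = 0 := by
      exact_mod_cast key
    field_simp
    linarith
  · push Not at hex
    by_cases h0 : ∃ l0 : Fin m, |(LogBlock_tau p X0 X1 l0 : ℝ)| < (p : ℝ) / (8 * m)
    · obtain ⟨l0, h0⟩ := h0
      refine ⟨((LogBlock_tau p X0 X1 l0 : ℝ), 0), fun l hl => ?_⟩
      by_cases hne : l0 = l
      · subst hne; simp
      · exact absurd hl (not_lt.2 (hex l0 l hne h0))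
    · push Not at h0
      exact ⟨(0, 0), fun l hl => absurd hl (not_lt.2 (h0 l))⟩

theorem log_block_count (L m p : ℕ) (hL : 1 ≤ L) (hm : 1 ≤ m) (hp : Odd p) :
    AtMost (fun (w : ℤ × ℤ) (l : Fin m) =>
        lg L ((2 * ((w.1 + (l : ℤ) * w.2) % p) - p : ℤ) : ℝ))
      ((m * (m + 1) * (2 * (L * (m + 4) + 3) + 1) + 1) ^ 2 *
        ((2 * (m * (L * (m + 3) + 1)) + 1) ^ 2 * L + 1)) := by
  classical
  have hp0 : 0 < p := hp.pos
  choose v hv using fun w : ℤ × ℤ => LogBlock_near_line hp0 hm w.1 w.2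
  have h1 := rotation_count p hp0 m (RotC_thr p (LogBlock_thr p m L)) (LogBlock_cl p m L)
    (LogBlock_cl_spec hp0 hm hL)
  have h2 := (log_real_count L m hL hm).precomp v
  have h3 : (m * (m + 1) * ((RotC_thr p (LogBlock_thr p m L)).card + 1) + 1) ^ 2
      ≤ (m * (m + 1) * (2 * (L * (m + 4) + 3) + 1) + 1) ^ 2 := by
    have h4 := RotC_card_thr p (LogBlock_thr p m L)
    have h5 := LogBlock_card_thr hp0 L hm
    have h6 : (RotC_thr p (LogBlock_thr p m L)).card ≤ 2 * (L * (m + 4) + 3) := by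
      have : L * (m + 3) ≤ L * (m + 4) := Nat.mul_le_mul_left _ (by omega)
      omega
    gcongr
  refine ((h1.mono h3).prod h2).of_factor _ ?_
  intro w w' hww
  simp only [Prod.mk.injEq] at hww
  obtain ⟨hww1, hww2⟩ := hww
  have hrec : ∀ (w : ℤ × ℤ) (l : Fin m),
      lg L ((2 * ((w.1 + (l : ℕ) * w.2) % p) - p : ℤ) : ℝ)
        = (LogBlock_cl p m L ((w.1 + (l : ℕ) * w.2) % p)).getD
          (lg L ((v w).1 + (l : ℕ) * (v w).2)) := by
    intro w l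
    by_cases hfar : ((p : ℝ) / (8 * m)) ≤ |((2 * ((w.1 + (l : ℕ) * w.2) % p) - p : ℤ) : ℝ)|
    · have : LogBlock_cl p m L ((w.1 + (l : ℕ) * w.2) % p)
          = some (lg L ((2 * ((w.1 + (l : ℕ) * w.2) % p) - p : ℤ) : ℝ)) := by
        unfold LogBlock_cl
        exact if_pos hfar
      rw [this]; rfl
    · have : LogBlock_cl p m L ((w.1 + (l : ℕ) * w.2) % p) = none := by
        unfold LogBlock_cl
        exact if_neg hfar
      rw [this, Option.getD_none, ← hv w l (not_le.1 hfar)]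
      rfl
  funext l
  have e1 := hrec w l
  have e2 := hrec w' l
  have e3 := congrFun hww1 l
  have e4 := congrFun hww2 l
  refine e1.trans (Eq.trans ?_ e2.symm)
  congr 1

end Vale.Agent.H18.VW
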