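import Mathlib
import Vale.Agent.H18.VW.Defs
import Vale.Agent.H18.VW.RotA

/-! L2b. Cells. -/

namespace Vale.Agent.H18.VW

open Finset

/-- L2b. -/
theorem cell_count (n p : ℕ) (hp : 0 < p) (k : ℕ) :
    AtMost (fun (w : ℤ × ℤ) (j : Fin k) => cell n p ((w.1 + (j : ℤ) * w.2) % p))
      ((k * (k + 1) * (n + 1) + 1) ^ 2) := by
  classical
  have hp' : (0 : ℤ) < p := by exact_mod_cast hp
  rcases Nat.eq_zero_or_pos n with rfl | hn
  · have h0 : ∀ z, cell 0 p z = 0 := by
      intro z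
      simp [cell]
    simp only [h0]
    refine ⟨{fun _ => 0}, ?_, fun ω => Finset.mem_singleton_self _⟩
    rw [Finset.card_singleton]
    exact Nat.one_le_pow _ _ (Nat.succ_pos _)
  have hn' : (0 : ℤ) < n := by exact_mod_cast hn
  set B : Finset ℤ := (Finset.Icc 1 n).image (fun i : ℕ => -((-((i : ℤ) * p)) / (n : ℤ))) with hB
  have hBc : B.card ≤ n := by
    refine Finset.card_image_le.trans ?_
    simp
  have hthr : ∀ (i : ℤ) (z : ℤ), -((-(i * p)) / (n : ℤ)) ≤ z ↔ i ≤ cell n p z := by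
    intro i z
    rw [cell, Int.le_ediv_iff_mul_le hp', neg_le, Int.le_ediv_iff_mul_le hn']
    constructor
    · intro h
      nlinarith
    · intro h
      nlinarith
  have key : ∀ z z' : ℤ, 0 ≤ z → z < p → 0 ≤ z' → z' < p →
      (∀ b ∈ B, (b ≤ z ↔ b ≤ z')) → cell n p z' ≤ cell n p z := by
    intro z z' hz0 hz hz0' hz' hb
    by_contra hlt
    push Not at hlt
    have h0 : 0 ≤ cell n p z := Int.ediv_nonneg (by positivity) hp'.le
    have h1 : cell n p z' < n := by
      rw [cell]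
      apply Int.ediv_lt_of_lt_mul hp'
      nlinarith
    obtain ⟨i, hi⟩ : ∃ i : ℕ, (i : ℤ) = cell n p z' := ⟨(cell n p z').toNat, by omega⟩
    have h2 : -((-((i : ℤ) * p)) / (n : ℤ)) ∈ B :=
      Finset.mem_image.2 ⟨i, Finset.mem_Icc.2 ⟨by omega, by omega⟩, rfl⟩
    have h3 := (hb _ h2).2 ((hthr i z').2 hi.le)
    have h4 := (hthr i z).1 h3
    omega
  refine (rotation_count p hp k B (cell n p) ?_).mono ?_
  · intro z z' hz0 hz hz0' hz' hb
    exact le_antisymm (key z' z hz0' hz' hz0 hz (fun b hbB => (hb b hbB).symm))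
      (key z z' hz0 hz hz0' hz' hb)
  · gcongr

end Vale.Agent.H18.VW
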