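import Mathlib
import Vale.Agent.H18.VW.Defs
import Vale.Agent.H18.VW.RotA
import Vale.Agent.H18.VW.RotB
import Vale.Agent.H18.VW.RotC
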