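import Mathlib
import Vale.Agent.H18.VW.Defs
import Vale.Agent.H18.VW.Rot
import Vale.Agent.H18.VW.LogBlock

/-! L3c. Counting patterns of `kappa`. -/

namespace Vale.Agent.H18.VW

open Finset

/-- Combining the three patterns at one prime. -/
lemma kCount_comb {t m p : ℕ} {a b : ℕ}
    (h1 : AtMost (fun (w : ℤ × ℤ) (j : Fin t) => cell (400 * m) p ((w.1 + (j : ℤ) * w.2) % p)) a)
    (h2 : AtMost (fun (w : ℤ × ℤ) (j : Fin t) =>
        lg (200 * m) ((2 * ((w.1 + (j : ℤ) * w.2) % p) - p : ℤ) : ℝ)) b) :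
    AtMost (fun (w : ℤ × ℤ) (j : Fin t) => kap m p (w.1 + (j : ℤ) * w.2)) (a * (a * b)) := by
  have h1' := h1.precomp (fun w : ℤ × ℤ => ((m.factorial : ℤ) * w.1, (m.factorial : ℤ) * w.2))
  have h2' := h2.precomp (fun w : ℤ × ℤ => ((m.factorial : ℤ) * w.1, (m.factorial : ℤ) * w.2))
  have h := h1.prod (h1'.prod h2')
  refine h.of_factor _ ?_
  intro w w' hww
  simp only [Prod.mk.injEq] at hww
  obtain ⟨e1, e2, e3⟩ := hww
  have hz : ∀ (u : ℤ × ℤ) (j : Fin t), zz m.factorial p (u.1 + (j : ℤ) * u.2) =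
      ((m.factorial : ℤ) * u.1 + (j : ℤ) * ((m.factorial : ℤ) * u.2)) % p := by
    intro u j
    rw [zz_def]
    congr 1
    ring
  funext j
  rw [kap_def, kap_def, tau_def, tau_def, hz, hz]
  rw [congrFun e1 j, congrFun e2 j]
  have := congrFun e3 j
  rw [this]

/-- Pattern of `kappa` from patterns of `kap`. -/
lemma kCount_pi {t m D : ℕ} {p : Fin D → ℕ} {N : ℕ}
    (h : ∀ i, AtMost (fun (w : ℤ × ℤ) (j : Fin t) => kap m (p i) (w.1 + (j : ℤ) * w.2)) N) :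
    AtMost (fun (w : ℤ × ℤ) (j : Fin t) => kappa m p (w.1 + (j : ℤ) * w.2)) (N ^ D) := by
  have := AtMost.pi (pat := fun (i : Fin D) (w : ℤ × ℤ) (j : Fin t) =>
    kap m (p i) (w.1 + (j : ℤ) * w.2)) h
  refine this.of_factor _ ?_
  intro w w' hww
  funext j i
  rw [kappa_apply, kappa_apply]
  exact congrFun (congrFun hww i) j

/-- `m`-term patterns of `kappa`: the number is bounded by `poly(m)^D`, independently of the
moduli. -/
theorem kappa_block_count : ∃ A e : ℕ, ∀ (m : ℕ), 1 ≤ m → ∀ (D : ℕ) (p : Fin D → ℕ),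
    (∀ i, Odd (p i)) →
    AtMost (fun (w : ℤ × ℤ) (h : Fin m) => kappa m p (w.1 + (h : ℤ) * w.2)) ((A * m ^ e) ^ D) := by
  refine ⟨803 ^ 4 * (4015 ^ 2 * (1603 ^ 2 * 200 + 1)), 27, ?_⟩
  intro m hm D p hp
  apply kCount_pi
  intro i
  have hp0 : 0 < p i := (hp i).pos
  have h1 := cell_count (400 * m) (p i) hp0 m
  have h2 := log_block_count (200 * m) m (p i) (by omega) hm (hp i)
  refine (kCount_comb h1 h2).mono ?_
  have hm2 : m ≤ m ^ 2 := by nlinarith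
  have hm3 : m ^ 2 ≤ m ^ 3 := Nat.pow_le_pow_right hm (by norm_num)
  have hm4 : m ^ 3 ≤ m ^ 4 := Nat.pow_le_pow_right hm (by norm_num)
  have hm1 : 1 ≤ m ^ 3 := Nat.one_le_pow _ _ hm
  have b1 : m * (m + 1) * (400 * m + 1) + 1 ≤ 803 * m ^ 3 := by nlinarith
  have b2 : m * (m + 1) * (2 * (200 * m * (m + 4) + 3) + 1) + 1 ≤ 4015 * m ^ 4 := by nlinarith
  have b3 : 2 * (m * (200 * m * (m + 3) + 1)) + 1 ≤ 1603 * m ^ 3 := by nlinarith
  have c1 : (m * (m + 1) * (400 * m + 1) + 1) ^ 2 ≤ (803 * m ^ 3) ^ 2 := Nat.pow_le_pow_left b1 2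
  have c2 : (m * (m + 1) * (2 * (200 * m * (m + 4) + 3) + 1) + 1) ^ 2 ≤ (4015 * m ^ 4) ^ 2 :=
    Nat.pow_le_pow_left b2 2
  have c3 : (2 * (m * (200 * m * (m + 3) + 1)) + 1) ^ 2 ≤ (1603 * m ^ 3) ^ 2 :=
    Nat.pow_le_pow_left b3 2
  have c4 : (2 * (m * (200 * m * (m + 3) + 1)) + 1) ^ 2 * (200 * m) + 1 ≤
      (1603 ^ 2 * 200 + 1) * m ^ 7 := by
    have h7 : 1 ≤ m ^ 7 := Nat.one_le_pow _ _ hm
    calc (2 * (m * (200 * m * (m + 3) + 1)) + 1) ^ 2 * (200 * m) + 1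
        ≤ (1603 * m ^ 3) ^ 2 * (200 * m) + 1 * m ^ 7 := by gcongr; omega
      _ = (1603 ^ 2 * 200 + 1) * m ^ 7 := by ring
  calc (m * (m + 1) * (400 * m + 1) + 1) ^ 2 *
        ((m * (m + 1) * (400 * m + 1) + 1) ^ 2 *
          ((m * (m + 1) * (2 * (200 * m * (m + 4) + 3) + 1) + 1) ^ 2 *
            ((2 * (m * (200 * m * (m + 3) + 1)) + 1) ^ 2 * (200 * m) + 1)))
      ≤ (803 * m ^ 3) ^ 2 * ((803 * m ^ 3) ^ 2 *
          ((4015 * m ^ 4) ^ 2 * ((1603 ^ 2 * 200 + 1) * m ^ 7))) :=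
        Nat.mul_le_mul c1 (Nat.mul_le_mul c1 (Nat.mul_le_mul c2 c4))
    _ = 803 ^ 4 * (4015 ^ 2 * (1603 ^ 2 * 200 + 1)) * m ^ 27 := by ring

/-- `k`-term patterns of `kappa`, crude bound, polynomial in `k`, when all moduli are `≤ 2^(k+D)`. -/
theorem kappa_count (m : ℕ) (hm : 1 ≤ m) (D : ℕ) : ∃ A e : ℕ, ∀ (k : ℕ), 1 ≤ k →
    ∀ (p : Fin D → ℕ), (∀ i, Odd (p i)) → (∀ i, p i ≤ 2 ^ (k + D)) →
    AtMost (fun (w : ℤ × ℤ) (j : Fin k) => kappa m p (w.1 + (j : ℤ) * w.2))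
      ((A * k ^ e) ^ D) := by
  refine ⟨(2 * (400 * m + 1) + 1) ^ 4 * (2 * (2 * (200 * m * (D + 1) + 1) + 1) + 1) ^ 2, 14, ?_⟩
  intro k hk p hp hpk
  apply kCount_pi
  intro i
  have hp0 : 0 < p i := (hp i).pos
  have h1 := cell_count (400 * m) (p i) hp0 k
  have h2 := log_count (200 * m) (p i) (by omega) (hp i) k
  refine (kCount_comb h1 h2).mono ?_
  have hclog : Nat.clog 2 (p i) ≤ (D + 1) * k := by
    have := Nat.clog_le_of_le_pow (hpk i)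
    nlinarith
  have hk2 : k ≤ k ^ 2 := by nlinarith
  have hk3 : k ^ 2 ≤ k ^ 3 := Nat.pow_le_pow_right hk (by norm_num)
  have h1k2 : 1 ≤ k ^ 2 := Nat.one_le_pow _ _ hk
  have h1k3 : 1 ≤ k ^ 3 := Nat.one_le_pow _ _ hk
  have hkk : k * (k + 1) ≤ 2 * k ^ 2 := by nlinarith
  have b1 : k * (k + 1) * (400 * m + 1) + 1 ≤ (2 * (400 * m + 1) + 1) * k ^ 2 := by
    calc k * (k + 1) * (400 * m + 1) + 1 ≤ 2 * k ^ 2 * (400 * m + 1) + k ^ 2 :=
          Nat.add_le_add (Nat.mul_le_mul_right _ hkk) h1k2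
      _ = (2 * (400 * m + 1) + 1) * k ^ 2 := by ring
  have b0 : 2 * (200 * m * Nat.clog 2 (p i) + 1) + 1 ≤
      (2 * (200 * m * (D + 1) + 1) + 1) * k := by
    have : 200 * m * Nat.clog 2 (p i) ≤ 200 * m * ((D + 1) * k) := Nat.mul_le_mul_left _ hclog
    nlinarith
  have b2 : k * (k + 1) * (2 * (200 * m * Nat.clog 2 (p i) + 1) + 1) + 1 ≤
      (2 * (2 * (200 * m * (D + 1) + 1) + 1) + 1) * k ^ 3 := by
    calc k * (k + 1) * (2 * (200 * m * Nat.clog 2 (p i) + 1) + 1) + 1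
        ≤ 2 * k ^ 2 * ((2 * (200 * m * (D + 1) + 1) + 1) * k) + k ^ 3 :=
          Nat.add_le_add (Nat.mul_le_mul hkk b0) h1k3
      _ = (2 * (2 * (200 * m * (D + 1) + 1) + 1) + 1) * k ^ 3 := by ring
  have c1 := Nat.pow_le_pow_left b1 2
  have c2 := Nat.pow_le_pow_left b2 2
  calc (k * (k + 1) * (400 * m + 1) + 1) ^ 2 * ((k * (k + 1) * (400 * m + 1) + 1) ^ 2 *
        (k * (k + 1) * (2 * (200 * m * Nat.clog 2 (p i) + 1) + 1) + 1) ^ 2)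
      ≤ ((2 * (400 * m + 1) + 1) * k ^ 2) ^ 2 * (((2 * (400 * m + 1) + 1) * k ^ 2) ^ 2 *
        ((2 * (2 * (200 * m * (D + 1) + 1) + 1) + 1) * k ^ 3) ^ 2) :=
        Nat.mul_le_mul c1 (Nat.mul_le_mul c1 c2)
    _ = (2 * (400 * m + 1) + 1) ^ 4 * (2 * (2 * (200 * m * (D + 1) + 1) + 1) + 1) ^ 2 * k ^ 14 := by
        ring

end Vale.Agent.H18.VW
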