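import Mathlib
import Vale.Agent.H18.VW.Defs
import Vale.Agent.H18.VW.Rot
import Vale.Agent.H18.VW.KCount

/-! L3c'. `k`-term patterns of `kappa`, with a bound uniform in `m` and `D`. -/

namespace Vale.Agent.H18.VW

open Finset

theorem kappa_count_explicit : ∃ A e : ℕ, ∀ (m D k : ℕ), 1 ≤ m → 1 ≤ k →
    ∀ (p : Fin D → ℕ), (∀ i, Odd (p i)) → (∀ i, p i ≤ 2 ^ (k + D)) →
    AtMost (fun (w : ℤ × ℤ) (j : Fin k) => kappa m p (w.1 + (j : ℤ) * w.2))
      ((A * (m * k * (D + 1)) ^ e) ^ D) := by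
  refine ⟨803 ^ 4 * 807 ^ 2, 14, ?_⟩
  intro m D k hm hk p hp hpk
  apply kCount_pi
  intro i
  have hp0 : 0 < p i := (hp i).pos
  have h1 := cell_count (400 * m) (p i) hp0 k
  have h2 := log_count (200 * m) (p i) (by omega) (hp i) k
  refine (kCount_comb h1 h2).mono ?_
  have hclog : Nat.clog 2 (p i) ≤ (D + 1) * k := by
    have := Nat.clog_le_of_le_pow (hpk i)
    nlinarith
  have hk2 : k ≤ k ^ 2 := by nlinarith
  have h1k2 : 1 ≤ k ^ 2 := Nat.one_le_pow _ _ hk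
  have h1k3 : 1 ≤ k ^ 3 := Nat.one_le_pow _ _ hk
  have hkk : k * (k + 1) ≤ 2 * k ^ 2 := by nlinarith
  have hmD : 1 ≤ m * (D + 1) := Nat.mul_pos hm (Nat.succ_pos D)
  obtain ⟨X, hX⟩ : ∃ X, X = m * k * (D + 1) := ⟨_, rfl⟩
  have hkX : k ≤ X := by
    rw [hX]
    calc k = 1 * k := (one_mul k).symm
      _ ≤ (m * (D + 1)) * k := Nat.mul_le_mul_right _ hmD
      _ = m * k * (D + 1) := by ring
  have hmkX : m * k ≤ X := by
    rw [hX]
    exact Nat.le_mul_of_pos_right _ (Nat.succ_pos D)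
  have b1 : k * (k + 1) * (400 * m + 1) + 1 ≤ 803 * X ^ 2 := by
    calc k * (k + 1) * (400 * m + 1) + 1 ≤ 2 * k ^ 2 * (401 * m) + k ^ 2 * m :=
          Nat.add_le_add (Nat.mul_le_mul hkk (by omega))
            (Nat.mul_pos (by positivity) hm)
      _ = 803 * ((m * k) * k) := by ring
      _ ≤ 803 * (X * X) := Nat.mul_le_mul_left _ (Nat.mul_le_mul hmkX hkX)
      _ = 803 * X ^ 2 := by ring
  have b0 : 2 * (200 * m * Nat.clog 2 (p i) + 1) + 1 ≤ 403 * (m * (D + 1) * k) := by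
    have h3 : 200 * m * Nat.clog 2 (p i) ≤ 200 * m * ((D + 1) * k) := Nat.mul_le_mul_left _ hclog
    have h4 : 1 ≤ m * (D + 1) * k := Nat.mul_pos hmD hk
    have h5 : 200 * m * ((D + 1) * k) = 200 * (m * (D + 1) * k) := by ring
    omega
  have b2 : k * (k + 1) * (2 * (200 * m * Nat.clog 2 (p i) + 1) + 1) + 1 ≤ 807 * X ^ 3 := by
    calc k * (k + 1) * (2 * (200 * m * Nat.clog 2 (p i) + 1) + 1) + 1
        ≤ 2 * k ^ 2 * (403 * (m * (D + 1) * k)) + k ^ 2 * (m * (D + 1) * k) :=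
          Nat.add_le_add (Nat.mul_le_mul hkk b0)
            (Nat.mul_pos (by positivity) (Nat.mul_pos hmD hk))
      _ = 807 * ((m * k * (D + 1)) * (k * k)) := by ring
      _ ≤ 807 * (X * (X * X)) := by
          rw [← hX]
          exact Nat.mul_le_mul_left _ (Nat.mul_le_mul_left _ (Nat.mul_le_mul hkX hkX))
      _ = 807 * X ^ 3 := by ring
  have c1 := Nat.pow_le_pow_left b1 2
  have c2 := Nat.pow_le_pow_left b2 2
  rw [← hX]
  calc (k * (k + 1) * (400 * m + 1) + 1) ^ 2 * ((k * (k + 1) * (400 * m + 1) + 1) ^ 2 *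
        (k * (k + 1) * (2 * (200 * m * Nat.clog 2 (p i) + 1) + 1) + 1) ^ 2)
      ≤ (803 * X ^ 2) ^ 2 * ((803 * X ^ 2) ^ 2 * (807 * X ^ 3) ^ 2) :=
        Nat.mul_le_mul c1 (Nat.mul_le_mul c1 c2)
    _ = 803 ^ 4 * 807 ^ 2 * X ^ 14 := by ring

end Vale.Agent.H18.VW
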