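import Mathlib
import Vale.Agent.H18.VW.Defs
import Vale.Agent.H18.VW.Rot
import Vale.Agent.H18.VW.KCountQ

/-! L9'. Counting patterns of exempt progressions, with a bound uniform in `m` and `D`. -/

namespace Vale.Agent.H18.VW

open Finset

namespace ExPatQ

theorem two_abs_zc_le (S p : ℕ) (hp : Odd p) (x : ℤ) : 2 * |zc S p x| ≤ p := by
  have hp0 : 0 < p := hp.pos
  have h1 := zz_nonneg (S := S) hp0 x
  have h2 := zz_lt (S := S) hp0 x
  rw [zc_def]
  split_ifs with h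
  · rw [abs_of_nonneg h1]; omega
  · rw [abs_of_neg (by omega)]; omega

theorem mem_box (R : ℕ) (x : ℤ) (h : |x| ≤ R) : x ∈ Finset.Icc (-(R : ℤ)) R := by
  rw [Finset.mem_Icc]
  exact abs_le.1 h

theorem card_box (R : ℕ) : (Finset.Icc (-(R : ℤ)) R).card = 2 * R + 1 := by
  rw [Int.card_Icc]
  omega

end ExPatQ

open ExPatQ in
theorem exempt_count_explicit : ∃ A e : ℕ, ∀ (m D k : ℕ), 1 ≤ m → 2 ≤ k →
    ∀ (p : Fin D → ℕ), (∀ i, Odd (p i)) → (∀ i, p i ≤ 2 ^ (k + D)) →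
    ∀ (R : ℕ), (∑ i, (p i) ^ 2 ≤ R) → ∀ G : (Fin D → ℤ × ℤ × ℤ) → Bool,
    ∃ P : Finset (Fin k → ((Fin D → ℤ) × ℤ) × Bool),
      P.card ≤ (2 * R + 1) ^ 3 * (A * (m * k * (D + 1)) ^ e) ^ D ∧
      ∀ a d : ℤ, (∃ V : Fin D → ℤ, ∀ i, ∀ j : ℕ, j < k →
          zc m.factorial (p i) (a + j * d) = zc m.factorial (p i) a + j * V i) →
        (fun j : Fin k => (idx m k p (a + j * d), G (kappa m p (a + j * d)))) ∈ P := by
  obtain ⟨A, e, hA⟩ := kappa_count_explicit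
  refine ⟨121 * A, 6 + e, fun m D k hm hk p hodd hple R hR G => ?_⟩
  -- the exempt progressions
  let Ω := {w : ℤ × ℤ // ∃ V : Fin D → ℤ, ∀ i, ∀ j : ℕ, j < k →
          zc m.factorial (p i) (w.1 + j * w.2) = zc m.factorial (p i) w.1 + j * V i}
  let V : Ω → Fin D → ℤ := fun ω => ω.2.choose
  have hV : ∀ ω : Ω, ∀ i, ∀ j : ℕ, j < k →
      zc m.factorial (p i) (ω.1.1 + j * ω.1.2) = zc m.factorial (p i) ω.1.1 + j * V ω i :=
    fun ω => ω.2.choose_spec
  let pat0 : Ω → ℤ × ℤ × ℤ := fun ω =>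
    (∑ i, (zc m.factorial (p i) ω.1.1) ^ 2,
     ∑ i, 2 * (zc m.factorial (p i) ω.1.1) * V ω i, ∑ i, (V ω i) ^ 2)
  have hVb : ∀ ω : Ω, ∀ i, |V ω i| ≤ p i := by
    intro ω i
    have h1 := hV ω i 1 (by omega)
    have h2 := two_abs_zc_le m.factorial (p i) (hodd i) (ω.1.1 + (1 : ℕ) * ω.1.2)
    have h3 := two_abs_zc_le m.factorial (p i) (hodd i) ω.1.1
    rw [h1] at h2
    have h4 : V ω i = (zc m.factorial (p i) ω.1.1 + (1 : ℕ) * V ω i)
      - zc m.factorial (p i) ω.1.1 := by push_cast; ring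
    have h5 : |V ω i| ≤ |zc m.factorial (p i) ω.1.1 + (1 : ℕ) * V ω i|
      + |zc m.factorial (p i) ω.1.1| := by
      conv_lhs => rw [h4]
      exact abs_sub _ _
    omega
  have hRz : (∑ i, ((p i : ℤ)) ^ 2) ≤ R := by exact_mod_cast hR
  have h0 : AtMost pat0 ((2 * R + 1) ^ 3) := by
    refine ⟨(Finset.Icc (-(R : ℤ)) R) ×ˢ ((Finset.Icc (-(R : ℤ)) R) ×ˢ (Finset.Icc (-(R : ℤ)) R)),
      ?_, fun ω => ?_⟩
    · rw [Finset.card_product, Finset.card_product, card_box]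
      exact le_of_eq (by ring)
    · have hz : ∀ i, |zc m.factorial (p i) ω.1.1| ≤ p i := by
        intro i
        have := two_abs_zc_le m.factorial (p i) (hodd i) ω.1.1
        have := abs_nonneg (zc m.factorial (p i) ω.1.1)
        omega
      refine Finset.mem_product.2 ⟨mem_box _ _ ?_, Finset.mem_product.2 ⟨mem_box _ _ ?_,
        mem_box _ _ ?_⟩⟩
      · refine (Finset.abs_sum_le_sum_abs _ _).trans (le_trans (Finset.sum_le_sum fun i _ => ?_) hRz)
        rw [abs_pow]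
        exact pow_le_pow_left₀ (abs_nonneg _) (hz i) 2
      · refine (Finset.abs_sum_le_sum_abs _ _).trans (le_trans (Finset.sum_le_sum fun i _ => ?_) hRz)
        rw [abs_mul, abs_mul, abs_two]
        have := two_abs_zc_le m.factorial (p i) (hodd i) ω.1.1
        calc 2 * |zc m.factorial (p i) ω.1.1| * |V ω i| ≤ (p i : ℤ) * (p i : ℤ) :=
              mul_le_mul this (hVb ω i) (abs_nonneg _) (by positivity)
          _ = (p i : ℤ) ^ 2 := by ring
      · refine (Finset.abs_sum_le_sum_abs _ _).trans (le_trans (Finset.sum_le_sum fun i _ => ?_) hRz)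
        rw [abs_pow]
        exact pow_le_pow_left₀ (abs_nonneg _) (hVb ω i) 2
  let pat1 : Ω → (Fin D → Fin k → ℤ) := fun ω i j =>
    cell (4 * k) (p i) (zz m.factorial (p i) (ω.1.1 + (j : ℤ) * ω.1.2))
  have h1 : AtMost pat1 ((121 * k ^ 6) ^ D) := by
    refine AtMost.pi (pat := fun (i : Fin D) (ω : Ω) => fun j : Fin k =>
      cell (4 * k) (p i) (zz m.factorial (p i) (ω.1.1 + (j : ℤ) * ω.1.2))) (fun i => ?_)
    have hc := cell_count (4 * k) (p i) (hodd i).pos k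
    have hc2 := (hc.precomp (fun ω : Ω => ((m.factorial : ℤ) * ω.1.1,
      (m.factorial : ℤ) * ω.1.2)))
    have he : (fun (ω : Ω) (j : Fin k) =>
        cell (4 * k) (p i) (zz m.factorial (p i) (ω.1.1 + (j : ℤ) * ω.1.2)))
        = fun (ω : Ω) (j : Fin k) => cell (4 * k) (p i)
          (((m.factorial : ℤ) * ω.1.1 + (j : ℤ) * ((m.factorial : ℤ) * ω.1.2)) % (p i : ℤ)) := by
      funext ω j
      rw [zz_def]
      congr 2
      ring
    rw [he]
    refine hc2.mono ?_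
    have hk1 : 1 ≤ k := by omega
    have h3 : k * (k + 1) * (4 * k + 1) + 1 ≤ 11 * k ^ 3 := by
      have a1 : k + 1 ≤ 2 * k := by omega
      have a2 : 4 * k + 1 ≤ 5 * k := by omega
      have a3 : 1 ≤ k ^ 3 := Nat.one_le_pow _ _ hk1
      calc k * (k + 1) * (4 * k + 1) + 1 ≤ k * (2 * k) * (5 * k) + k ^ 3 := by gcongr
        _ = 11 * k ^ 3 := by ring
    calc (k * (k + 1) * (4 * k + 1) + 1) ^ 2 ≤ (11 * k ^ 3) ^ 2 := Nat.pow_le_pow_left h3 2
      _ = 121 * k ^ 6 := by ring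
  have h2 := (hA m D k hm (by omega) p hodd hple).precomp (fun ω : Ω => ω.1)
  have h3 := h0.prod (h1.prod h2)
  have h4 := h3.comp (fun q : (ℤ × ℤ × ℤ) × ((Fin D → Fin k → ℤ) × (Fin k → Fin D → ℤ × ℤ × ℤ)) =>
    (fun j : Fin k => (((fun i => q.2.1 i j),
      q.1.1 + q.1.2.1 * (j : ℤ) + q.1.2.2 * (j : ℤ) ^ 2), G (q.2.2 j))))
  obtain ⟨P, hP1, hP2⟩ := h4
  refine ⟨P, hP1.trans ?_, fun a d hex => ?_⟩
  · rw [← mul_pow]
    refine Nat.mul_le_mul_left _ (Nat.pow_le_pow_left ?_ D)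
    have hk6 : k ^ 6 ≤ (m * k * (D + 1)) ^ 6 := by
      refine Nat.pow_le_pow_left ?_ 6
      calc k = 1 * k * 1 := by ring
        _ ≤ m * k * (D + 1) := by gcongr; omega
    calc 121 * k ^ 6 * (A * (m * k * (D + 1)) ^ e)
        ≤ 121 * (m * k * (D + 1)) ^ 6 * (A * (m * k * (D + 1)) ^ e) := by gcongr
      _ = 121 * A * (m * k * (D + 1)) ^ (6 + e) := by rw [pow_add]; ring
  · have h5 := hP2 ⟨(a, d), hex⟩
    convert h5 using 1
    funext j
    refine Prod.ext (Prod.ext ?_ ?_) rfl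
    · rfl
    rw [idx_def]
    have h6 : ∀ i, (zc m.factorial (p i) (a + (j : ℕ) * d)) ^ 2
        = (zc m.factorial (p i) a) ^ 2
          + 2 * zc m.factorial (p i) a * V ⟨(a, d), hex⟩ i * (j : ℤ)
          + V ⟨(a, d), hex⟩ i ^ 2 * (j : ℤ) ^ 2 := by
      intro i
      rw [hV ⟨(a, d), hex⟩ i j j.2]
      ring
    rw [Finset.sum_congr rfl fun i _ => h6 i, Finset.sum_add_distrib, Finset.sum_add_distrib,
      ← Finset.sum_mul, ← Finset.sum_mul]

end Vale.Agent.H18.VW
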