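import Mathlib
import Vale.Agent.H18.VW.Defs

/-! L8a. Random flips. -/

namespace Vale.Agent.H18.VW

open Finset

/-- L8a. First moment method for biased random bits. -/
theorem exists_flip {ι : Type*} [DecidableEq ι] (q : ℕ) (hq : 2 ≤ q)
    (E : Finset (Finset ι × Finset ι))
    (hE : ∑ e ∈ E, (1 / (q : ℝ)) ^ e.1.card * (1 - 1 / (q : ℝ)) ^ e.2.card < 1) :
    ∃ ξ : ι → Bool, ∀ e ∈ E, ¬ ((∀ a ∈ e.1, ξ a = true) ∧ ∀ b ∈ e.2, ξ b = false) := by
  classical
  have hq0 : (0 : ℝ) < q := by positivity
  have hq2 : (2 : ℝ) ≤ q := by exact_mod_cast hq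
  have hiq : (1 : ℝ) / q ≤ 1 / 2 := one_div_le_one_div_of_le (by norm_num) hq2
  have hiq0 : (0 : ℝ) < 1 / q := by positivity
  have hiq1 : (0 : ℝ) < 1 - 1 / q := by linarith
  set U : Finset ι := E.biUnion (fun e => e.1 ∪ e.2) with hU
  have hU1 : ∀ e ∈ E, e.1 ⊆ U := fun e he a ha =>
    mem_biUnion.2 ⟨e, he, mem_union_left _ ha⟩
  have hU2 : ∀ e ∈ E, e.2 ⊆ U := fun e he a ha =>
    mem_biUnion.2 ⟨e, he, mem_union_right _ ha⟩
  set z : Fin q → Bool := fun a => decide ((a : ℕ) = 0) with hz
  have hztrue : ((univ.filter (fun a : Fin q => z a = true)).card : ℝ) = 1 := by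
    have : univ.filter (fun a : Fin q => z a = true) = {⟨0, by omega⟩} := by
      ext a; simp [hz, Fin.ext_iff]
    rw [this]; simp
  have hzfalse : ((univ.filter (fun a : Fin q => z a = false)).card : ℝ) = q - 1 := by
    have h1 : (univ.filter (fun a : Fin q => z a = false))
        = univ \ (univ.filter (fun a : Fin q => z a = true)) := by
      ext a; simp
    rw [h1, cast_card_sdiff (subset_univ _), hztrue, card_univ, Fintype.card_fin]
  set N : ℝ := (q : ℝ) ^ Fintype.card U with hN
  have hNpos : 0 < N := by positivity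
  set bad : Finset ι × Finset ι → Finset (U → Fin q) := fun e =>
    univ.filter (fun ξ => (∀ o : U, o.1 ∈ e.1 → z (ξ o) = true) ∧
      ∀ o : U, o.1 ∈ e.2 → z (ξ o) = false) with hbad
  have hprod : ∀ (A : Finset ι) (r : ℝ), A ⊆ U →
      ∏ o : U, (if o.1 ∈ A then r else 1) = r ^ A.card := by
    intro A r hA
    rw [prod_coe_sort U (fun i => if i ∈ A then r else 1), prod_ite_mem,
      inter_eq_right.2 hA, prod_const]
  have hb : ∀ e ∈ E, ((bad e).card : ℝ)
      ≤ ((1 / (q : ℝ)) ^ e.1.card * (1 - 1 / (q : ℝ)) ^ e.2.card) * N := by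
    intro e he
    by_cases hdis : ∃ a ∈ e.1, a ∈ e.2
    · obtain ⟨a, ha1, ha2⟩ := hdis
      have : bad e = ∅ := by
        refine eq_empty_of_forall_notMem fun ξ hξ => ?_
        simp only [hbad, mem_filter, mem_univ, true_and] at hξ
        have h1 := hξ.1 ⟨a, hU1 e he ha1⟩ ha1
        have h2 := hξ.2 ⟨a, hU1 e he ha1⟩ ha2
        rw [h1] at h2
        exact absurd h2 (by simp)
      rw [this]
      simp only [card_empty, Nat.cast_zero]
      positivity
    · push Not at hdis
      have hsub : bad e ⊆ Fintype.piFinset (fun o : U =>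
          if o.1 ∈ e.1 then univ.filter (fun a : Fin q => z a = true)
          else if o.1 ∈ e.2 then univ.filter (fun a : Fin q => z a = false) else univ) := by
        intro ξ hξ
        simp only [hbad, mem_filter, mem_univ, true_and] at hξ
        rw [Fintype.mem_piFinset]
        intro o
        by_cases h1 : o.1 ∈ e.1
        · rw [if_pos h1]; exact mem_filter.2 ⟨mem_univ _, hξ.1 o h1⟩
        · rw [if_neg h1]
          by_cases h2 : o.1 ∈ e.2
          · rw [if_pos h2]; exact mem_filter.2 ⟨mem_univ _, hξ.2 o h2⟩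
          · rw [if_neg h2]; exact mem_univ _
      have hc := card_le_card hsub
      rw [Fintype.card_piFinset] at hc
      calc ((bad e).card : ℝ)
          ≤ ∏ o : U, (((if o.1 ∈ e.1 then univ.filter (fun a : Fin q => z a = true)
          else if o.1 ∈ e.2 then univ.filter (fun a : Fin q => z a = false) else univ) :
            Finset (Fin q)).card : ℝ) := by exact_mod_cast hc
        _ ≤ ∏ o : U, ((if o.1 ∈ e.1 then 1 / (q : ℝ) else 1) *
            (if o.1 ∈ e.2 then 1 - 1 / (q : ℝ) else 1) * q) := by
            refine prod_le_prod (fun _ _ => by positivity) fun o _ => ?_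
            by_cases h1 : o.1 ∈ e.1
            · rw [if_pos h1, if_pos h1, if_neg (hdis _ h1), hztrue]
              field_simp
              exact le_rfl
            · rw [if_neg h1, if_neg h1]
              by_cases h2 : o.1 ∈ e.2
              · rw [if_pos h2, if_pos h2, hzfalse]
                field_simp
                exact le_rfl
              · rw [if_neg h2, if_neg h2, card_univ, Fintype.card_fin]
                linarith
        _ = _ := by
            rw [prod_mul_distrib, prod_mul_distrib, hprod _ _ (hU1 e he), hprod _ _ (hU2 e he),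
              prod_const, card_univ]
  by_contra hcon
  push Not at hcon
  have hall : (univ : Finset (U → Fin q)) ⊆ E.biUnion bad := by
    intro ξ _
    obtain ⟨e, he, h1, h2⟩ := hcon (fun i => if hi : i ∈ U then z (ξ ⟨i, hi⟩) else false)
    refine mem_biUnion.2 ⟨e, he, ?_⟩
    simp only [hbad, mem_filter, mem_univ, true_and]
    constructor
    · intro o ho
      have := h1 o.1 ho
      rwa [dif_pos o.2] at this
    · intro o ho
      have := h2 o.1 ho
      rwa [dif_pos o.2] at this
  have hcard : N ≤ ∑ e ∈ E, ((1 / (q : ℝ)) ^ e.1.card * (1 - 1 / (q : ℝ)) ^ e.2.card) * N := by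
    calc N = ((univ : Finset (U → Fin q)).card : ℝ) := by
          rw [card_univ, Fintype.card_fun, Fintype.card_fin]; push_cast; rfl
      _ ≤ ∑ e ∈ E, ((bad e).card : ℝ) := by
          exact_mod_cast (card_le_card hall).trans card_biUnion_le
      _ ≤ _ := sum_le_sum hb
  rw [← sum_mul] at hcard
  nlinarith

end Vale.Agent.H18.VW
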