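import Mathlib
import Vale.Agent.H18.VW.Defs
import Vale.Agent.H18.VW.FlipA

/-! L8b. The colouring. -/

namespace Vale.Agent.H18.VW

open Finset

/-- the weight of an event -/
noncomputable def flipB_w {ι : Type*} (q : ℕ) (e : Finset ι × Finset ι) : ℝ :=
  (1 / (q : ℝ)) ^ e.1.card * (1 - 1 / (q : ℝ)) ^ e.2.card

lemma flipB_facts {q : ℕ} (hq : 2 ≤ q) :
    0 ≤ 1 / (q : ℝ) ∧ 1 / (q : ℝ) ≤ 1 ∧ 0 ≤ 1 - 1 / (q : ℝ) ∧ 1 - 1 / (q : ℝ) ≤ 1 ∧
      1 / (q : ℝ) ≤ 1 - 1 / (q : ℝ) := by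
  have h2 : (2 : ℝ) ≤ q := by exact_mod_cast hq
  have h0 : (0 : ℝ) < q := by linarith
  have h1 : 1 / (q : ℝ) ≤ 1 / 2 := one_div_le_one_div_of_le (by norm_num) h2
  have h3 : 0 ≤ 1 / (q : ℝ) := by positivity
  refine ⟨h3, ?_, ?_, ?_, ?_⟩ <;> linarith

/-- L8b. The colouring. -/
theorem exists_colouring {ι : Type*} [DecidableEq ι] (q : ℕ) (hq : 2 ≤ q) (k N : ℕ)
    (f : ℕ → Bool) (ix : ℕ → ι) (P : Finset (Fin k → ι × Bool))
    (hmult : ∀ a d : ℕ, 1 ≤ a → 1 ≤ d → a + (k - 1) * d ≤ N → ∀ s ⊆ range k,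
      s.card ≤ 2 * (s.image (fun j : ℕ => ix (a + j * d))).card)
    (hdich : ∀ a d : ℕ, 1 ≤ a → 1 ≤ d → a + (k - 1) * d ≤ N →
      (∀ c : Bool, k ≤ 32 * ((range k).filter (fun j => f (a + j * d) = c)).card) ∨
      (fun j : Fin k => (ix (a + j * d), f (a + j * d))) ∈ P)
    (hnum : 2 * (N : ℝ) ^ 2 * (1 / (q : ℝ)) ^ (k / 64)
      + 2 * (P.card : ℝ) * (1 - 1 / (q : ℝ)) ^ (k / 2) < 1) :
    ∃ col : ℕ → Bool, ∀ a d : ℕ, 1 ≤ a → 1 ≤ d → a + (k - 1) * d ≤ N →
      ¬ ∃ c : Bool, ∀ j < k, col (a + j * d) = c := by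
  classical
  obtain ⟨h0, h1, h2, h3, h4⟩ := flipB_facts hq
  rcases Nat.lt_or_ge k 2 with hk | hk
  · -- `N = 0`
    have hN : N = 0 := by
      by_contra hN
      have hN1 : (1 : ℝ) ≤ N := by exact_mod_cast Nat.one_le_iff_ne_zero.2 hN
      have hk64 : k / 64 = 0 := by omega
      rw [hk64, pow_zero, mul_one] at hnum
      have h5 : 0 ≤ 2 * (P.card : ℝ) * (1 - 1 / (q : ℝ)) ^ (k / 2) := by positivity
      nlinarith
    refine ⟨fun _ => true, fun a d ha hd h => ?_⟩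
    omega
  -- the events
  set pat : ℕ → ℕ → (Fin k → ι × Bool) :=
    fun a d => fun j : Fin k => (ix (a + j * d), f (a + j * d)) with hpat
  set S1 : Finset (ℕ × ℕ × Bool) := (Icc 1 N ×ˢ Icc 1 N ×ˢ (univ : Finset Bool)).filter
    (fun t => t.1 + (k - 1) * t.2.1 ≤ N ∧
      k ≤ 32 * ((range k).filter (fun j => f (t.1 + j * t.2.1) = !t.2.2)).card) with hS1
  set g1 : ℕ × ℕ × Bool → Finset ι × Finset ι := fun t =>
    (((range k).filter (fun j => f (t.1 + j * t.2.1) = !t.2.2)).image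
      (fun j => ix (t.1 + j * t.2.1)), ∅) with hg1
  set S2 : Finset ((Fin k → ι × Bool) × Bool) := (P.filter (fun ψ => ∃ a d : ℕ, 1 ≤ a ∧ 1 ≤ d ∧
    a + (k - 1) * d ≤ N ∧ ψ = pat a d)) ×ˢ (univ : Finset Bool) with hS2
  set g2 : (Fin k → ι × Bool) × Bool → Finset ι × Finset ι := fun t =>
    (((univ : Finset (Fin k)).filter (fun j => (t.1 j).2 = !t.2)).image (fun j => (t.1 j).1),
     ((univ : Finset (Fin k)).filter (fun j => (t.1 j).2 = t.2)).image (fun j => (t.1 j).1))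
    with hg2
  -- weights
  have hw1 : ∀ e ∈ S1.image g1, flipB_w q e ≤ (1 / (q : ℝ)) ^ (k / 64) := by
    intro e he
    obtain ⟨⟨a, d, c⟩, ht, rfl⟩ := mem_image.1 he
    rw [hS1, mem_filter, mem_product, mem_product, mem_Icc, mem_Icc] at ht
    obtain ⟨⟨⟨ha1, ha2⟩, ⟨hd1, hd2⟩, -⟩, hAP, hbal⟩ := ht
    simp only at ha1 ha2 hd1 hd2 hAP hbal
    have hm := hmult a d ha1 hd1 hAP ((range k).filter (fun j => f (a + j * d) = !c))
      (filter_subset _ _)
    unfold flipB_w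
    simp only [hg1, card_empty, pow_zero, mul_one]
    refine pow_le_pow_of_le_one h0 h1 ?_
    omega
  have hw2 : ∀ e ∈ S2.image g2, flipB_w q e ≤ (1 - 1 / (q : ℝ)) ^ (k / 2) := by
    intro e he
    obtain ⟨⟨ψ, c⟩, ht, rfl⟩ := mem_image.1 he
    rw [hS2, mem_product, mem_filter] at ht
    obtain ⟨⟨-, a, d, ha1, hd1, hAP, hψ⟩, -⟩ := ht
    simp only at hψ
    have hm := hmult a d ha1 hd1 hAP (range k) (Subset.refl _)
    rw [card_range] at hm
    -- the image over `range k` is the union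
    set A := ((univ : Finset (Fin k)).filter (fun j => (ψ j).2 = !c)).image (fun j => (ψ j).1)
      with hA
    set B := ((univ : Finset (Fin k)).filter (fun j => (ψ j).2 = c)).image (fun j => (ψ j).1)
      with hB
    have hsub : (range k).image (fun j => ix (a + j * d)) ⊆ A ∪ B := by
      intro y hy
      obtain ⟨j, hj, rfl⟩ := mem_image.1 hy
      have hjk : j < k := mem_range.1 hj
      by_cases hc : (ψ ⟨j, hjk⟩).2 = c
      · refine mem_union_right _ (mem_image.2 ⟨⟨j, hjk⟩, mem_filter.2 ⟨mem_univ _, hc⟩, ?_⟩)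
        rw [hψ]
      · refine mem_union_left _ (mem_image.2 ⟨⟨j, hjk⟩, mem_filter.2 ⟨mem_univ _, ?_⟩, ?_⟩)
        · exact Bool.eq_not.2 hc
        · rw [hψ]
    have hcard := (card_le_card hsub).trans (card_union_le A B)
    have hge : k / 2 ≤ A.card + B.card := by omega
    show flipB_w q (A, B) ≤ _
    unfold flipB_w
    calc (1 / (q : ℝ)) ^ A.card * (1 - 1 / (q : ℝ)) ^ B.card
        ≤ (1 - 1 / (q : ℝ)) ^ A.card * (1 - 1 / (q : ℝ)) ^ B.card := by
          gcongr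
      _ = (1 - 1 / (q : ℝ)) ^ (A.card + B.card) := by rw [pow_add]
      _ ≤ (1 - 1 / (q : ℝ)) ^ (k / 2) := pow_le_pow_of_le_one h2 h3 hge
  have hc1 : ((S1.image g1).card : ℝ) ≤ 2 * (N : ℝ) ^ 2 := by
    have h5 : (S1.image g1).card ≤ N * (N * 2) := by
      refine card_image_le.trans ((card_filter_le _ _).trans ?_)
      rw [card_product, card_product, Nat.card_Icc, card_univ, Fintype.card_bool]
      simp
    have h6 : ((S1.image g1).card : ℝ) ≤ ((N * (N * 2) : ℕ) : ℝ) := by exact_mod_cast h5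
    push_cast at h6
    linarith
  have hc2 : ((S2.image g2).card : ℝ) ≤ 2 * (P.card : ℝ) := by
    have h5 : (S2.image g2).card ≤ P.card * 2 := by
      refine card_image_le.trans ?_
      rw [hS2, card_product, card_univ, Fintype.card_bool]
      exact Nat.mul_le_mul_right _ (card_filter_le _ _)
    have h6 : ((S2.image g2).card : ℝ) ≤ ((P.card * 2 : ℕ) : ℝ) := by exact_mod_cast h5
    push_cast at h6
    linarith
  have hs1 : ∑ e ∈ S1.image g1, flipB_w q e ≤ 2 * (N : ℝ) ^ 2 * (1 / (q : ℝ)) ^ (k / 64) := by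
    refine (sum_le_card_nsmul _ _ _ hw1).trans ?_
    rw [nsmul_eq_mul]
    exact mul_le_mul_of_nonneg_right hc1 (by positivity)
  have hs2 : ∑ e ∈ S2.image g2, flipB_w q e
      ≤ 2 * (P.card : ℝ) * (1 - 1 / (q : ℝ)) ^ (k / 2) := by
    refine (sum_le_card_nsmul _ _ _ hw2).trans ?_
    rw [nsmul_eq_mul]
    exact mul_le_mul_of_nonneg_right hc2 (by positivity)
  have hwnn : ∀ e : Finset ι × Finset ι, 0 ≤ flipB_w q e := by
    intro e; unfold flipB_w; positivity
  have hsum : ∑ e ∈ S1.image g1 ∪ S2.image g2,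
      (1 / (q : ℝ)) ^ e.1.card * (1 - 1 / (q : ℝ)) ^ e.2.card < 1 := by
    have h5 : ∑ e ∈ S1.image g1 ∪ S2.image g2, flipB_w q e
        ≤ ∑ e ∈ S1.image g1, flipB_w q e + ∑ e ∈ S2.image g2, flipB_w q e := by
      rw [← sum_union_inter]
      have h6 : 0 ≤ ∑ e ∈ S1.image g1 ∩ S2.image g2, flipB_w q e :=
        sum_nonneg (fun e _ => hwnn e)
      linarith
    have h7 : ∑ e ∈ S1.image g1 ∪ S2.image g2, flipB_w q e < 1 := by linarith
    exact h7
  obtain ⟨ξ, hξ⟩ := exists_flip q hq _ hsum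
  refine ⟨fun x => xor (f x) (ξ (ix x)), ?_⟩
  rintro a d ha hd hAP ⟨c, hc⟩
  have haN : a ≤ N := by omega
  have hdN : d ≤ N := by
    have h5 : 1 * d ≤ (k - 1) * d := Nat.mul_le_mul_right _ (by omega)
    omega
  rcases hdich a d ha hd hAP with hbal | hP
  · refine hξ (g1 (a, d, c)) (mem_union_left _ (mem_image_of_mem _ ?_)) ⟨?_, ?_⟩
    · rw [hS1, mem_filter, mem_product, mem_product, mem_Icc, mem_Icc]
      exact ⟨⟨⟨ha, haN⟩, ⟨hd, hdN⟩, mem_univ _⟩, hAP, hbal (!c)⟩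
    · intro y hy
      obtain ⟨j, hj, rfl⟩ := mem_image.1 hy
      rw [mem_filter, mem_range] at hj
      have h5 := hc j hj.1
      simp only at h5 hj
      rw [hj.2] at h5
      revert h5
      cases c <;> simp
    · intro y hy
      simp [hg1] at hy
  · refine hξ (g2 (pat a d, c)) (mem_union_right _ (mem_image_of_mem _ ?_)) ⟨?_, ?_⟩
    · rw [hS2, mem_product, mem_filter]
      exact ⟨⟨hP, a, d, ha, hd, hAP, rfl⟩, mem_univ _⟩
    · intro y hy
      obtain ⟨j, hj, rfl⟩ := mem_image.1 hy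
      rw [mem_filter] at hj
      have h5 := hc j.1 j.2
      have h6 : f (a + j.1 * d) = !c := hj.2
      simp only at h5
      rw [h6] at h5
      show ξ (ix (a + j.1 * d)) = true
      revert h5
      cases c <;> simp
    · intro y hy
      obtain ⟨j, hj, rfl⟩ := mem_image.1 hy
      rw [mem_filter] at hj
      have h5 := hc j.1 j.2
      have h6 : f (a + j.1 * d) = c := hj.2
      simp only at h5
      rw [h6] at h5
      show ξ (ix (a + j.1 * d)) = false
      revert h5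
      cases c <;> simp

end Vale.Agent.H18.VW
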