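import Mathlib
import Vale.Agent.H18.VW.Defs
import Vale.Agent.H18.VW.Diff

/-! L7. Along a progression every fine index is taken at most twice. -/

namespace Vale.Agent.H18.VW

open Finset

/-- the side of `p / 2` is determined by the `4k`-cell -/
lemma mult_side (k p : ℕ) (hk : 0 < k) (hp : 0 < p) (z : ℤ) :
    2 * z < p ↔ cell (4 * k) p z < 2 * k := by
  unfold cell
  have hp' : (0 : ℤ) < p := by exact_mod_cast hp
  have hk' : (0 : ℤ) < k := by exact_mod_cast hk
  rw [Int.ediv_lt_iff_lt_mul hp']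
  push_cast
  constructor
  · intro h
    nlinarith
  · intro h
    by_contra hc
    rw [not_lt] at hc
    nlinarith

lemma mult_zc_sub (S k p : ℕ) (hk : 0 < k) (hp : 0 < p) (x y : ℤ)
    (h : cell (4 * k) p (zz S p x) = cell (4 * k) p (zz S p y)) :
    zc S p y - zc S p x = zz S p y - zz S p x := by
  rw [zc_def, zc_def]
  have h1 := mult_side k p hk hp (zz S p x)
  have h2 := mult_side k p hk hp (zz S p y)
  rw [h] at h1
  by_cases hc : cell (4 * k) p (zz S p y) < 2 * k
  · rw [if_pos (h1.2 hc), if_pos (h2.2 hc)]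
  · rw [if_neg (fun hh => hc (h1.1 hh)), if_neg (fun hh => hc (h2.1 hh))]
    ring

lemma mult_zz_dvd (S p : ℕ) (x y : ℤ) : (p : ℤ) ∣ (zz S p y - zz S p x) - (S : ℤ) * (y - x) := by
  unfold zz
  have h1 := Int.emod_add_mul_ediv ((S : ℤ) * x) p
  have h2 := Int.emod_add_mul_ediv ((S : ℤ) * y) p
  refine ⟨((S : ℤ) * x) / p - ((S : ℤ) * y) / p, ?_⟩
  linear_combination h2 - h1

theorem idx_mult {D : ℕ} (m k : ℕ) (hmk : m < k) (p : Fin D → ℕ) (hp : ∀ i, (p i).Prime)
    (hpk : ∀ i, k < p i) (a d : ℤ) (hd : ∃ i, ¬ (p i : ℤ) ∣ d) (j1 j2 j3 : ℕ) (h12 : j1 < j2)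
    (h23 : j2 < j3) (h3 : j3 < k) (he : idx m k p (a + j1 * d) = idx m k p (a + j2 * d))
    (he' : idx m k p (a + j2 * d) = idx m k p (a + j3 * d)) : False := by
  have hk : 0 < k := by omega
  have hp0 : ∀ i, 0 < p i := fun i => (hp i).pos
  have hc1 : ∀ i, cell (4 * k) (p i) (zz m.factorial (p i) (a + j1 * d))
      = cell (4 * k) (p i) (zz m.factorial (p i) (a + j2 * d)) := fun i =>
    congrFun (congrArg Prod.fst he) i
  have hc2 : ∀ i, cell (4 * k) (p i) (zz m.factorial (p i) (a + j2 * d))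
      = cell (4 * k) (p i) (zz m.factorial (p i) (a + j3 * d)) := fun i =>
    congrFun (congrArg Prod.fst he') i
  have hs1 : ∑ i, (zc m.factorial (p i) (a + j1 * d)) ^ 2
      = ∑ i, (zc m.factorial (p i) (a + j2 * d)) ^ 2 := congrArg Prod.snd he
  have hs2 : ∑ i, (zc m.factorial (p i) (a + j2 * d)) ^ 2
      = ∑ i, (zc m.factorial (p i) (a + j3 * d)) ^ 2 := congrArg Prod.snd he'
  set v : Fin D → ℤ := fun i => zc m.factorial (p i) (a + j1 * d) with hv
  set u : Fin D → ℤ := fun i => zc m.factorial (p i) (a + j2 * d) - zc m.factorial (p i) (a + j1 * d)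
    with hu
  set u' : Fin D → ℤ := fun i => zc m.factorial (p i) (a + j3 * d) - zc m.factorial (p i) (a + j2 * d)
    with hu'
  set h : ℤ := (j2 : ℤ) - j1 with hh
  set h' : ℤ := (j3 : ℤ) - j2 with hh'
  have hpos : 0 < h := by rw [hh]; omega
  have hpos' : 0 < h' := by rw [hh']; omega
  have hsum : h + h' < k := by rw [hh, hh']; omega
  have hu1 : ∀ i, u i = zz m.factorial (p i) (a + j2 * d) - zz m.factorial (p i) (a + j1 * d) :=
    fun i => mult_zc_sub _ k (p i) hk (hp0 i) _ _ (hc1 i)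
  have hu2 : ∀ i, u' i = zz m.factorial (p i) (a + j3 * d) - zz m.factorial (p i) (a + j2 * d) :=
    fun i => mult_zc_sub _ k (p i) hk (hp0 i) _ _ (hc2 i)
  have hb1 : ∀ i, (4 * (k : ℤ)) * |u i| < p i := by
    intro i
    have := lt_of_cell_eq (4 * k) (p i) (hp0 i) _ _ (hc1 i)
    rw [← hu1 i] at this
    push_cast at this
    exact this
  have hb2 : ∀ i, (4 * (k : ℤ)) * |u' i| < p i := by
    intro i
    have := lt_of_cell_eq (4 * k) (p i) (hp0 i) _ _ (hc2 i)
    rw [← hu2 i] at this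
    push_cast at this
    exact this
  have hd1 : ∀ i, (p i : ℤ) ∣ u i - (m.factorial : ℤ) * (h * d) := by
    intro i
    have := mult_zz_dvd m.factorial (p i) (a + j1 * d) (a + j2 * d)
    rw [← hu1 i] at this
    have e : (a + (j2 : ℤ) * d) - (a + j1 * d) = h * d := by rw [hh]; ring
    rw [e] at this
    exact this
  have hd2 : ∀ i, (p i : ℤ) ∣ u' i - (m.factorial : ℤ) * (h' * d) := by
    intro i
    have := mult_zz_dvd m.factorial (p i) (a + j2 * d) (a + j3 * d)
    rw [← hu2 i] at this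
    have e : (a + (j3 : ℤ) * d) - (a + j2 * d) = h' * d := by rw [hh']; ring
    rw [e] at this
    exact this
  have hcol : ∀ i, h' * u i = h * u' i := by
    intro i
    have hdv : (p i : ℤ) ∣ h' * u i - h * u' i := by
      have e : h' * u i - h * u' i = h' * (u i - (m.factorial : ℤ) * (h * d))
          - h * (u' i - (m.factorial : ℤ) * (h' * d)) := by ring
      rw [e]
      exact dvd_sub ((hd1 i).mul_left _) ((hd2 i).mul_left _)
    have hlt : |h' * u i - h * u' i| < p i := by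
      have t1 : |h' * u i - h * u' i| ≤ h' * |u i| + h * |u' i| := by
        calc |h' * u i - h * u' i| ≤ |h' * u i| + |h * u' i| := abs_sub _ _
          _ = h' * |u i| + h * |u' i| := by
              rw [abs_mul, abs_mul, abs_of_pos hpos, abs_of_pos hpos']
      have t2 : 4 * (h' * |u i| + h * |u' i|) ≤ 4 * k * |u i| + 4 * k * |u' i| := by
        have a1 := abs_nonneg (u i)
        have a2 := abs_nonneg (u' i)
        nlinarith
      have := hb1 i
      have := hb2 i
      have hp1 : (0 : ℤ) < p i := by exact_mod_cast hp0 i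
      linarith
    have := Int.eq_zero_of_abs_lt_dvd hdv hlt
    linarith
  -- sums of squares
  have e2 : ∀ i, zc m.factorial (p i) (a + j2 * d) = v i + u i := by
    intro i; simp only [hv, hu]; ring
  have e3 : ∀ i, zc m.factorial (p i) (a + j3 * d) = v i + u i + u' i := by
    intro i; simp only [hv, hu, hu']; ring
  have q1 : ∑ i, (2 * (v i * u i) + u i ^ 2) = 0 := by
    have : ∑ i, (v i + u i) ^ 2 - ∑ i, v i ^ 2 = 0 := by
      have h5 : ∑ i, (v i + u i) ^ 2 = ∑ i, v i ^ 2 := by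
        simp_rw [← e2]
        exact hs1.symm
      rw [h5]; ring
    rw [← Finset.sum_sub_distrib] at this
    rw [← this]
    apply Finset.sum_congr rfl
    intro i _
    ring
  have q2 : ∑ i, (2 * ((v i + u i) * u' i) + u' i ^ 2) = 0 := by
    have : ∑ i, (v i + u i + u' i) ^ 2 - ∑ i, (v i + u i) ^ 2 = 0 := by
      have h5 : ∑ i, (v i + u i + u' i) ^ 2 = ∑ i, (v i + u i) ^ 2 := by
        simp_rw [← e3, ← e2]
        exact hs2.symm
      rw [h5]; ring
    rw [← Finset.sum_sub_distrib] at this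
    rw [← this]
    apply Finset.sum_congr rfl
    intro i _
    ring
  set A : ℤ := ∑ i, v i * u i with hA
  set U : ℤ := ∑ i, u i ^ 2 with hU
  have r1 : 2 * A + U = 0 := by
    rw [hA, hU, Finset.mul_sum, ← Finset.sum_add_distrib]
    exact q1
  have r2 : h' * (2 * h * A + 2 * h * U + h' * U) = 0 := by
    have : ∑ i, h ^ 2 * (2 * ((v i + u i) * u' i) + u' i ^ 2) = 0 := by
      rw [← Finset.mul_sum, q2, mul_zero]
    have h6 : ∀ i, h ^ 2 * (2 * ((v i + u i) * u' i) + u' i ^ 2)
        = h' * (2 * h * (v i * u i) + 2 * h * (u i ^ 2) + h' * u i ^ 2) := by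
      intro i
      have hc := hcol i
      calc h ^ 2 * (2 * ((v i + u i) * u' i) + u' i ^ 2)
          = 2 * h * (v i + u i) * (h * u' i) + (h * u' i) ^ 2 := by ring
        _ = 2 * h * (v i + u i) * (h' * u i) + (h' * u i) ^ 2 := by rw [hc]
        _ = _ := by ring
    simp_rw [h6] at this
    rw [← Finset.mul_sum, Finset.sum_add_distrib, Finset.sum_add_distrib, ← Finset.mul_sum,
      ← Finset.mul_sum, ← Finset.mul_sum] at this
    exact this
  have r3 : 2 * h * A + 2 * h * U + h' * U = 0 := by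
    rcases mul_eq_zero.1 r2 with h7 | h7
    · omega
    · exact h7
  have r4 : (h + h') * U = 0 := by linear_combination r3 - h * r1
  have r5 : U = 0 := by
    rcases mul_eq_zero.1 r4 with h7 | h7
    · omega
    · exact h7
  have r6 : ∀ i, u i = 0 := by
    intro i
    have := (Finset.sum_eq_zero_iff_of_nonneg (fun i _ => sq_nonneg (u i))).1 r5 i (Finset.mem_univ i)
    exact pow_eq_zero_iff (two_ne_zero) |>.1 this
  obtain ⟨i, hi⟩ := hd
  apply hi
  have h8 := hd1 i
  rw [r6 i, zero_sub, dvd_neg] at h8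
  have hpr : Prime (p i : ℤ) := Nat.prime_iff_prime_int.1 (hp i)
  have hkp : (k : ℤ) < p i := by exact_mod_cast hpk i
  rcases hpr.dvd_or_dvd h8 with h9 | h9
  · exfalso
    have h10 : p i ∣ m.factorial := by exact_mod_cast h9
    have h11 := ((hp i).dvd_factorial).1 h10
    have := hpk i
    omega
  · rcases hpr.dvd_or_dvd h9 with h10 | h10
    · exfalso
      have := Int.le_of_dvd hpos h10
      linarith
    · exact h10

theorem idx_card {D : ℕ} (m k : ℕ) (hmk : m < k) (p : Fin D → ℕ) (hp : ∀ i, (p i).Prime)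
    (hpk : ∀ i, k < p i) (a d : ℤ) (hd : ∃ i, ¬ (p i : ℤ) ∣ d) (s : Finset ℕ)
    (hs : s ⊆ range k) : s.card ≤ 2 * (s.image (fun j : ℕ => idx m k p (a + j * d))).card := by
  apply Finset.card_le_mul_card_image
  intro b _
  by_contra hc
  rw [not_le] at hc
  obtain ⟨x, hx, y, hy, z, hz, hxy, hxz, hyz⟩ := Finset.two_lt_card.1 hc
  obtain ⟨hx1, hx2⟩ := Finset.mem_filter.1 hx
  obtain ⟨hy1, hy2⟩ := Finset.mem_filter.1 hy
  obtain ⟨hz1, hz2⟩ := Finset.mem_filter.1 hz
  have bx := Finset.mem_range.1 (hs hx1)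
  have by' := Finset.mem_range.1 (hs hy1)
  have bz := Finset.mem_range.1 (hs hz1)
  have key : ∀ j1 j2 j3 : ℕ, j1 < j2 → j2 < j3 → j3 < k → idx m k p (a + j1 * d) = b →
      idx m k p (a + j2 * d) = b → idx m k p (a + j3 * d) = b → False :=
    fun j1 j2 j3 h1 h2 h3 e1 e2 e3 => idx_mult m k hmk p hp hpk a d hd j1 j2 j3 h1 h2 h3
      (e1.trans e2.symm) (e2.trans e3.symm)
  rcases lt_or_gt_of_ne hxy with h1 | h1 <;> rcases lt_or_gt_of_ne hxz with h2 | h2 <;>
    rcases lt_or_gt_of_ne hyz with h3 | h3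
  · exact key x y z h1 h3 bz hx2 hy2 hz2
  · exact key x z y h2 h3 by' hx2 hz2 hy2
  · omega
  · exact key z x y h2 h1 by' hz2 hx2 hy2
  · exact key y x z h1 h2 bz hy2 hx2 hz2
  · omega
  · exact key y z x h3 h2 bx hy2 hz2 hx2
  · exact key z y x h3 h1 bx hz2 hy2 hx2

end Vale.Agent.H18.VW
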