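import Mathlib

/-! L10. Numerics. -/

namespace Vale.Agent.H18.VW

open Finset

namespace NumA

open Filter Topology

/-- first term -/
theorem term1 (C : ℕ) (hC : 2 ≤ C) :
    ∀ᶠ k : ℕ in atTop, 2 * ((C : ℝ) ^ k) ^ 2 * (1 / ((C ^ 192 : ℕ) : ℝ)) ^ (k / 64) < 1 / 2 := by
  have hC' : (2 : ℝ) ≤ C := by exact_mod_cast hC
  have hC0 : (0 : ℝ) < C := by linarith
  have hr : |(1 / (C : ℝ))| < 1 := by
    rw [abs_of_pos (by positivity), div_lt_one hC0]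
    linarith
  have h1 : Tendsto (fun k : ℕ => (2 * (C : ℝ) ^ 192) * (1 / (C : ℝ)) ^ k) atTop (𝓝 0) := by
    have := (tendsto_pow_atTop_nhds_zero_of_abs_lt_one hr).const_mul (2 * (C : ℝ) ^ 192)
    simpa using this
  filter_upwards [h1.eventually (gt_mem_nhds (show (0 : ℝ) < 1 / 2 by norm_num))] with k hk
  refine lt_of_le_of_lt ?_ hk
  have e1 : (1 / ((C ^ 192 : ℕ) : ℝ)) ^ (k / 64) = 1 / (C : ℝ) ^ (192 * (k / 64)) := by
    push_cast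
    rw [one_div, one_div, inv_pow, ← pow_mul]
  rw [e1]
  have h2 : 3 * k ≤ 192 * (k / 64) + 192 := by omega
  have h3 : (C : ℝ) ^ (3 * k) ≤ (C : ℝ) ^ (192 * (k / 64)) * (C : ℝ) ^ 192 := by
    rw [← pow_add]
    exact pow_le_pow_right₀ (by linarith) h2
  have h4 : (0 : ℝ) < (C : ℝ) ^ (192 * (k / 64)) := by positivity
  have h5 : (0 : ℝ) < (C : ℝ) ^ k := by positivity
  rw [one_div, one_div, inv_pow, mul_inv_le_iff₀ h4]
  have h6 : 2 * (C : ℝ) ^ 192 * ((C : ℝ) ^ k)⁻¹ * (C : ℝ) ^ (192 * (k / 64))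
      = 2 * ((C : ℝ) ^ (192 * (k / 64)) * (C : ℝ) ^ 192) * ((C : ℝ) ^ k)⁻¹ := by ring
  rw [h6, ← div_eq_mul_inv, le_div_iff₀ h5]
  have h7 : 2 * ((C : ℝ) ^ k) ^ 2 * (C : ℝ) ^ k = 2 * (C : ℝ) ^ (3 * k) := by
    rw [mul_comm 3 k, pow_mul]; ring
  rw [h7]
  linarith

theorem term2 (q D A e : ℕ) (hq : 2 ≤ q) :
    ∀ᶠ k : ℕ in atTop, ∀ M : ℝ, 1 ≤ M → M ≤ 2 * Real.exp (1 / (13 * (q : ℝ)) * k) →
      2 * ((2 * ((D : ℝ) * (2 ^ D * M) ^ 2) + 1) ^ 3 * ((A : ℝ) * (k : ℝ) ^ e) ^ D)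
          * (1 - 1 / (q : ℝ)) ^ (k / 2) < 1 / 2 := by
  have hq' : (2 : ℝ) ≤ q := by exact_mod_cast hq
  have hq0 : (0 : ℝ) < q := by linarith
  set δ : ℝ := 1 / (26 * (q : ℝ)) with hδ
  have hδ0 : 0 < δ := by positivity
  have hr : |Real.exp (-δ)| < 1 := by
    rw [abs_of_pos (Real.exp_pos _), Real.exp_lt_one_iff]
    linarith
  set K : ℝ := 2 * ((2 * ((D : ℝ) * (2 ^ D) ^ 2) + 1) ^ 3 * (A : ℝ) ^ D) * 2 ^ 6
    * Real.exp (1 / (2 * (q : ℝ))) with hK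
  have h1 : Tendsto (fun k : ℕ => K * ((k : ℝ) ^ (e * D) * Real.exp (-δ) ^ k)) atTop (𝓝 0) := by
    have := (tendsto_pow_const_mul_const_pow_of_abs_lt_one (e * D) hr).const_mul K
    simpa using this
  filter_upwards [h1.eventually (gt_mem_nhds (show (0 : ℝ) < 1 / 2 by norm_num))] with k hk
  intro M hM1 hM2
  refine lt_of_le_of_lt ?_ hk
  have hM0 : 0 < M := by linarith
  have h2 : 2 * ((D : ℝ) * (2 ^ D * M) ^ 2) + 1 ≤ (2 * ((D : ℝ) * (2 ^ D) ^ 2) + 1) * M ^ 2 := by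
    have : 1 ≤ M ^ 2 := by nlinarith
    nlinarith [this]
  have h30 : 0 ≤ 1 - 1 / (q : ℝ) := by
    have : 1 / (q : ℝ) ≤ 1 := by rw [div_le_one hq0]; linarith
    linarith
  have h36 : 0 ≤ (1 - 1 / (q : ℝ)) ^ (k / 2) := pow_nonneg h30 _
  have h3 : (1 - 1 / (q : ℝ)) ^ (k / 2)
      ≤ Real.exp (1 / (2 * (q : ℝ))) * Real.exp (-(1 / (2 * (q : ℝ))) * k) := by
    have h31 : 1 - 1 / (q : ℝ) ≤ Real.exp (-(1 / (q : ℝ))) := by
      have := Real.add_one_le_exp (-(1 / (q : ℝ)))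
      linarith
    calc (1 - 1 / (q : ℝ)) ^ (k / 2) ≤ Real.exp (-(1 / (q : ℝ))) ^ (k / 2) :=
          pow_le_pow_left₀ h30 h31 _
      _ = Real.exp (((k / 2 : ℕ) : ℝ) * -(1 / (q : ℝ))) := by rw [Real.exp_nat_mul]
      _ ≤ Real.exp (1 / (2 * (q : ℝ)) + -(1 / (2 * (q : ℝ))) * k) := by
          rw [Real.exp_le_exp]
          have h32 : (k : ℝ) ≤ 2 * ((k / 2 : ℕ) : ℝ) + 1 := by
            have : k ≤ 2 * (k / 2) + 1 := by omega
            exact_mod_cast this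
          have h33 : 1 / (2 * (q : ℝ)) = (1 / 2) * (1 / q) := by ring
          rw [h33]
          have h34 : 0 < 1 / (q : ℝ) := by positivity
          nlinarith
      _ = _ := by rw [Real.exp_add]
  have h4 : M ^ 6 ≤ 2 ^ 6 * Real.exp (6 / (13 * (q : ℝ)) * k) := by
    calc M ^ 6 ≤ (2 * Real.exp (1 / (13 * (q : ℝ)) * k)) ^ 6 := pow_le_pow_left₀ hM0.le hM2 6
      _ = 2 ^ 6 * Real.exp (1 / (13 * (q : ℝ)) * k) ^ 6 := by rw [mul_pow]
      _ = _ := by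
          rw [← Real.exp_nat_mul]
          congr 2
          push_cast
          ring
  have h5 : Real.exp (6 / (13 * (q : ℝ)) * k) * Real.exp (-(1 / (2 * (q : ℝ))) * k)
      = Real.exp (-δ) ^ k := by
    rw [← Real.exp_add, ← Real.exp_nat_mul]
    congr 1
    rw [hδ]
    field_simp
    ring
  calc 2 * ((2 * ((D : ℝ) * (2 ^ D * M) ^ 2) + 1) ^ 3 * ((A : ℝ) * (k : ℝ) ^ e) ^ D)
          * (1 - 1 / (q : ℝ)) ^ (k / 2)
      ≤ 2 * (((2 * ((D : ℝ) * (2 ^ D) ^ 2) + 1) * M ^ 2) ^ 3 * ((A : ℝ) * (k : ℝ) ^ e) ^ D)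
          * (Real.exp (1 / (2 * (q : ℝ))) * Real.exp (-(1 / (2 * (q : ℝ))) * k)) := by
        gcongr
    _ = 2 * ((2 * ((D : ℝ) * (2 ^ D) ^ 2) + 1) ^ 3 * (A : ℝ) ^ D) * Real.exp (1 / (2 * (q : ℝ)))
          * (k : ℝ) ^ (e * D) * Real.exp (-(1 / (2 * (q : ℝ))) * k) * M ^ 6 := by
        rw [mul_pow (A : ℝ), ← pow_mul]
        ring
    _ ≤ 2 * ((2 * ((D : ℝ) * (2 ^ D) ^ 2) + 1) ^ 3 * (A : ℝ) ^ D) * Real.exp (1 / (2 * (q : ℝ)))
          * (k : ℝ) ^ (e * D) * Real.exp (-(1 / (2 * (q : ℝ))) * k)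
          * (2 ^ 6 * Real.exp (6 / (13 * (q : ℝ)) * k)) := by
        gcongr
    _ = K * ((k : ℝ) ^ (e * D) * (Real.exp (6 / (13 * (q : ℝ)) * k)
          * Real.exp (-(1 / (2 * (q : ℝ))) * k))) := by
        rw [hK]; ring
    _ = _ := by rw [h5]

end NumA

open NumA in
theorem numeric (C : ℕ) (hC : 2 ≤ C) : ∃ q D : ℕ, 2 ≤ q ∧ 1 ≤ D ∧
    ∀ A e : ℕ, ∃ k0 : ℕ, ∀ k ≥ k0, ∃ M : ℕ, k < M ∧ M ≤ 2 ^ k ∧ C ^ k < M ^ D ∧
      2 * ((C : ℝ) ^ k) ^ 2 * (1 / (q : ℝ)) ^ (k / 64) +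
        2 * ((2 * ((D : ℝ) * (2 ^ D * (M : ℝ)) ^ 2) + 1) ^ 3 * ((A : ℝ) * (k : ℝ) ^ e) ^ D)
          * (1 - 1 / (q : ℝ)) ^ (k / 2) < 1 := by
  have hq : 2 ≤ C ^ 192 := by
    calc 2 ≤ C := hC
      _ = C ^ 1 := (pow_one C).symm
      _ ≤ C ^ 192 := Nat.pow_le_pow_right (by omega) (by norm_num)
  refine ⟨C ^ 192, 13 * C ^ 192 * C, hq, ?_, fun A e => ?_⟩
  · exact Nat.one_le_iff_ne_zero.2 (by positivity)
  set q : ℕ := C ^ 192 with hqdef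
  set D : ℕ := 13 * q * C with hD
  have hq' : (2 : ℝ) ≤ q := by exact_mod_cast hq
  have hq0 : (0 : ℝ) < q := by linarith
  set c : ℝ := 1 / (13 * (q : ℝ)) with hc
  have hc0 : 0 < c := by positivity
  have hc1 : c ≤ 1 / 26 := by
    rw [hc]
    apply one_div_le_one_div_of_le (by norm_num)
    linarith
  have hr1 : |Real.exp (-c)| < 1 := by
    rw [abs_of_pos (Real.exp_pos _), Real.exp_lt_one_iff]
    linarith
  have h1 := (tendsto_pow_const_mul_const_pow_of_abs_lt_one 1 hr1).eventually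
    (gt_mem_nhds (show (0 : ℝ) < 1 by norm_num))
  have hexpc : Real.exp c < 2 := by
    rw [← Real.lt_log_iff_exp_lt (by norm_num)]
    have := Real.log_two_gt_d9
    linarith
  have hr2 : |Real.exp c / 2| < 1 := by
    rw [abs_of_pos (by positivity), div_lt_one (by norm_num)]
    exact hexpc
  have h2 := (tendsto_pow_atTop_nhds_zero_of_abs_lt_one hr2).eventually
    (gt_mem_nhds (show (0 : ℝ) < 1 / 2 by norm_num))
  have h3 := term1 C hC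
  have h4 := term2 q D A e hq
  obtain ⟨k0, hk0⟩ := Filter.eventually_atTop.1 (((h1.and h2).and (h3.and h4)).and
    (Filter.eventually_ge_atTop 1))
  refine ⟨k0, fun k hk => ?_⟩
  obtain ⟨⟨⟨hk1, hk2⟩, hk3, hk4⟩, hk5⟩ := hk0 k hk
  set X : ℝ := Real.exp (c * k) with hX
  have hX0 : 0 < X := Real.exp_pos _
  have hX1 : 1 ≤ X := by
    rw [hX]; exact Real.one_le_exp (by positivity)
  have hXe : X = Real.exp c ^ k := by rw [hX, mul_comm, Real.exp_nat_mul]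
  have hXn : Real.exp (-c) ^ k = X⁻¹ := by rw [hXe, Real.exp_neg, inv_pow]
  refine ⟨⌊X⌋₊ + 1, ?_, ?_, ?_, ?_⟩
  · rw [pow_one, hXn, ← div_eq_mul_inv, div_lt_one hX0] at hk1
    have h5 : (k : ℝ) < ((⌊X⌋₊ + 1 : ℕ) : ℝ) := by
      push_cast
      exact hk1.trans (Nat.lt_floor_add_one X)
    exact_mod_cast h5
  · have h5 : ((⌊X⌋₊ + 1 : ℕ) : ℝ) ≤ ((2 ^ k : ℕ) : ℝ) := by
      push_cast
      have h6 := Nat.floor_le hX0.le
      rw [div_pow, ← hXe, div_lt_iff₀ (by positivity)] at hk2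
      linarith
    exact_mod_cast h5
  · have h5 : ((C ^ k : ℕ) : ℝ) < (((⌊X⌋₊ + 1) ^ D : ℕ) : ℝ) := by
      push_cast
      have h6 : (C : ℝ) < Real.exp C := by
        have := Real.add_one_le_exp (C : ℝ)
        linarith
      calc (C : ℝ) ^ k < Real.exp C ^ k := pow_lt_pow_left₀ h6 (by positivity) (by omega)
        _ = X ^ D := by
            rw [hX, ← Real.exp_nat_mul, ← Real.exp_nat_mul]
            congr 1
            rw [hc, hD]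
            push_cast
            field_simp
        _ ≤ ((⌊X⌋₊ : ℝ) + 1) ^ D := pow_le_pow_left₀ hX0.le (Nat.lt_floor_add_one X).le D
    exact_mod_cast h5
  · have h5 : (1 : ℝ) ≤ ((⌊X⌋₊ + 1 : ℕ) : ℝ) := by
      push_cast
      have : (0 : ℝ) ≤ (⌊X⌋₊ : ℝ) := Nat.cast_nonneg _
      linarith
    have h6 : ((⌊X⌋₊ + 1 : ℕ) : ℝ) ≤ 2 * X := by
      push_cast
      have := Nat.floor_le hX0.le
      linarith
    have h7 := hk4 _ h5 h6
    linarith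

end Vale.Agent.H18.VW
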