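import Mathlib

/-! L10b. Primes. -/

namespace Vale.Agent.H18.VW

open Finset

lemma numB_seq (M : ℕ) (hM : 1 ≤ M) : ∃ q : ℕ → ℕ, (∀ i, q i < q (i + 1)) ∧
    ∀ i, (q i).Prime ∧ M < q i ∧ q i ≤ 2 ^ (i + 1) * M := by
  have hb : ∀ n : ℕ, ∃ p : ℕ, n ≠ 0 → (p.Prime ∧ n < p ∧ p ≤ 2 * n) := by
    intro n
    by_cases hn : n = 0
    · exact ⟨0, fun h => (h hn).elim⟩
    · obtain ⟨p, h1, h2, h3⟩ := Nat.exists_prime_lt_and_le_two_mul n hn
      exact ⟨p, fun _ => ⟨h1, h2, h3⟩⟩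
  choose g hg using hb
  let q : ℕ → ℕ := fun i => Nat.rec (g M) (fun _ x => g x) i
  have q0 : q 0 = g M := rfl
  have qs : ∀ i, q (i + 1) = g (q i) := fun i => rfl
  have key : ∀ i, (q i).Prime ∧ M < q i ∧ q i ≤ 2 ^ (i + 1) * M := by
    intro i
    induction i with
    | zero =>
      obtain ⟨h1, h2, h3⟩ := hg M (by omega)
      rw [q0]
      exact ⟨h1, h2, by simpa using h3⟩
    | succ i ih =>
      obtain ⟨h1, h2, h3⟩ := ih
      obtain ⟨g1, g2, g3⟩ := hg (q i) (by omega)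
      rw [qs]
      refine ⟨g1, by omega, ?_⟩
      calc g (q i) ≤ 2 * q i := g3
        _ ≤ 2 * (2 ^ (i + 1) * M) := Nat.mul_le_mul_left _ h3
        _ = 2 ^ (i + 1 + 1) * M := by ring
  refine ⟨q, fun i => ?_, key⟩
  rw [qs]
  exact (hg (q i) (by have := (key i).2.1; omega)).2.1

/-- `D` distinct primes in `(M, 2^D M]` (Bertrand). -/
theorem exists_primes (D M : ℕ) (hM : 1 ≤ M) : ∃ p : Fin D → ℕ, StrictMono p ∧
    ∀ i, (p i).Prime ∧ M < p i ∧ p i ≤ 2 ^ D * M := by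
  obtain ⟨q, hq, hk⟩ := numB_seq M hM
  have hmono : StrictMono q := strictMono_nat_of_lt_succ hq
  refine ⟨fun i => q i, fun i j hij => hmono hij, fun i => ?_⟩
  obtain ⟨h1, h2, h3⟩ := hk i
  refine ⟨h1, h2, h3.trans ?_⟩
  apply Nat.mul_le_mul_right
  exact Nat.pow_le_pow_right (by norm_num) i.isLt

/-- If `d` is positive and smaller than the product of the distinct primes `p i`, one of them
does not divide `d`. -/
theorem exists_not_dvd (D M N : ℕ) (p : Fin D → ℕ) (hp : StrictMono p)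
    (hp' : ∀ i, (p i).Prime ∧ M < p i) (hN : N < M ^ D) (d : ℕ) (hd : 1 ≤ d) (hdN : d ≤ N) :
    ∃ i, ¬ (p i : ℤ) ∣ (d : ℤ) := by
  by_contra hcon
  push Not at hcon
  have h1 : ∀ i ∈ (Finset.univ : Finset (Fin D)), p i ∣ d := fun i _ => by
    exact_mod_cast hcon i
  have h2 : ∏ i, p i ∣ d := by
    apply Finset.prod_dvd_of_isRelPrime _ h1
    intro i _ j _ hij
    exact Nat.coprime_iff_isRelPrime.1
      ((Nat.coprime_primes (hp' i).1 (hp' j).1).2 (fun h => hij (hp.injective h)))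
  have h3 : M ^ D ≤ ∏ i, p i := by
    calc M ^ D = ∏ _i : Fin D, M := by simp
      _ ≤ ∏ i, p i := Finset.prod_le_prod' (fun i _ => (hp' i).2.le)
  have h4 := Nat.le_of_dvd (by omega) h2
  omega

end Vale.Agent.H18.VW
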