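import Mathlib
import Vale.Agent.H18.VW.Defs
import Vale.Agent.H18.VW.Rot
import Vale.Agent.H18.VW.KCount
import Vale.Agent.H18.VW.BalA
import Vale.Agent.H18.VW.BalB
import Vale.Agent.H18.VW.Dich
import Vale.Agent.H18.VW.Blocks
import Vale.Agent.H18.VW.Mult
import Vale.Agent.H18.VW.FlipA
import Vale.Agent.H18.VW.FlipB
import Vale.Agent.H18.VW.ExPat
import Vale.Agent.H18.VW.NumA
import Vale.Agent.H18.VW.NumB

/-! L11. Assembly. -/

namespace Vale.Agent.H18.VW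

open Finset

theorem main (C : ℕ) (hC : 2 ≤ C) : ∃ k0 : ℕ, ∀ k ≥ k0, ∃ col : ℕ → Bool,
    ∀ a d : ℕ, 1 ≤ a → 1 ≤ d → a + (k - 1) * d ≤ C ^ k →
      ¬ ∃ c : Bool, ∀ j < k, col (a + j * d) = c := by
  obtain ⟨q, D, hq, hD, hnum⟩ := numeric C hC
  obtain ⟨A1, e1, hblock⟩ := kappa_block_count
  obtain ⟨m0, hm0⟩ := binom_tail A1 e1 D
  obtain ⟨m, hmm0, hm2⟩ : ∃ m : ℕ, m0 ≤ m ∧ 2 ≤ m := ⟨max m0 2, le_max_left _ _, le_max_right _ _⟩
  obtain ⟨A2, e2, hex⟩ := exempt_count m (by omega) D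
  obtain ⟨k0, hk0⟩ := hnum A2 e2
  refine ⟨max k0 (10000 * m ^ 2 * m.factorial), fun k hk => ?_⟩
  have hk1 : k0 ≤ k := (le_max_left _ _).trans hk
  have hk2 : 10000 * m ^ 2 * m.factorial ≤ k := (le_max_right _ _).trans hk
  have hmk : 10000 * m ≤ k := by
    have h1 : 1 ≤ m.factorial := Nat.factorial_pos m
    have h2 : m ≤ m ^ 2 := Nat.le_self_pow (by norm_num) m
    calc 10000 * m ≤ 10000 * m ^ 2 * 1 := by omega
      _ ≤ 10000 * m ^ 2 * m.factorial := Nat.mul_le_mul_left _ h1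
      _ ≤ k := hk2
  obtain ⟨M, hkM, hM2, hCM, hineq⟩ := hk0 k hk1
  obtain ⟨p, hpmono, hp⟩ := exists_primes D M (by omega)
  have hpp : ∀ i, (p i).Prime := fun i => (hp i).1
  have hpk : ∀ i, k < p i := fun i => hkM.trans (hp i).2.1
  have hodd : ∀ i, Odd (p i) := fun i => (hpp i).odd_of_ne_two (by have := hpk i; omega)
  have hpM : ∀ i, p i ≤ 2 ^ D * M := fun i => (hp i).2.2
  have hp2 : ∀ i, p i ≤ 2 ^ (k + D) := fun i => by
    calc p i ≤ 2 ^ D * M := hpM i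
      _ ≤ 2 ^ D * 2 ^ k := Nat.mul_le_mul_left _ hM2
      _ = 2 ^ (k + D) := by rw [pow_add, mul_comm]
  have hdvd : ∀ d : ℕ, 1 ≤ d → d ≤ C ^ k → ∃ i, ¬ (p i : ℤ) ∣ (d : ℤ) := fun d h1 h2 =>
    exists_not_dvd D M (C ^ k) p hpmono (fun i => ⟨(hp i).1, (hp i).2.1⟩) hCM d h1 h2
  have hd_of : ∀ a d : ℕ, 1 ≤ a → 1 ≤ d → a + (k - 1) * d ≤ C ^ k →
      ∃ i, ¬ (p i : ℤ) ∣ (d : ℤ) := by
    intro a d ha hd h
    apply hdvd d hd
    have : 1 * d ≤ (k - 1) * d := Nat.mul_le_mul_right _ (by omega)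
    omega
  -- the coarse colouring
  obtain ⟨F, hFcard, hF⟩ := hblock m (by omega) D p hodd
  obtain ⟨G, hG⟩ := exists_balanced m F (lt_of_le_of_lt
    (Nat.mul_le_mul_right _ (Nat.mul_le_mul_left _ hFcard)) (hm0 m hmm0))
  -- patterns of exempt progressions
  have hR : ∑ i, (p i) ^ 2 ≤ D * (2 ^ D * M) ^ 2 := by
    calc ∑ i, (p i) ^ 2 ≤ ∑ _i : Fin D, (2 ^ D * M) ^ 2 :=
          Finset.sum_le_sum (fun i _ => Nat.pow_le_pow_left (hpM i) 2)
      _ = D * (2 ^ D * M) ^ 2 := by simp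
  obtain ⟨P, hPcard, hP⟩ := hex k (by omega) p hodd hp2 _ hR G
  refine exists_colouring q hq k (C ^ k) (fun x : ℕ => G (kappa m p (x : ℤ)))
    (fun x : ℕ => idx m k p (x : ℤ)) P ?_ ?_ ?_
  · intro a d ha hd h s hs
    have h1 := idx_card m k (by omega) p hpp hpk a d (hd_of a d ha hd h) s hs
    simpa using h1
  · intro a d ha hd h
    rcases dichotomy m k hm2 hk2 p hpp hpk a d (hd_of a d ha hd h) with
      ⟨t0, J, ht0, hJ, hblk, hinj⟩ | hV
    · left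
      intro c
      refine balanced_of_blocks k m (by omega) (fun j => G (kappa m p ((a + j * d : ℕ) : ℤ))) c J t0
        hJ hblk ?_
      intro j hj
      have h1 := hG (fun h : Fin m => kappa m p ((a : ℤ) + ((j + h * t0 : ℕ) : ℤ) * d)) ?_
        (hinj j hj) c
      · simpa using h1
      · have h2 := hF ((a : ℤ) + j * d, (t0 : ℤ) * d)
        have h3 : (fun h : Fin m => kappa m p ((a : ℤ) + ((j + h * t0 : ℕ) : ℤ) * d))
            = (fun h : Fin m => kappa m p (((a : ℤ) + j * d) + ((h : ℕ) : ℤ) * ((t0 : ℤ) * d))) := by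
          funext h
          congr 1
          push_cast
          ring
        rw [h3]
        exact h2
    · right
      have h1 := hP a d hV
      simpa using h1
  · refine lt_of_le_of_lt ?_ hineq
    have hq0 : (0 : ℝ) < q := by positivity
    have hq1 : (0 : ℝ) ≤ 1 - 1 / (q : ℝ) := by
      have : 1 / (q : ℝ) ≤ 1 := by
        rw [div_le_one hq0]
        exact_mod_cast (by omega : 1 ≤ q)
      linarith
    have h1 : ((C ^ k : ℕ) : ℝ) = (C : ℝ) ^ k := by push_cast; rfl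
    rw [h1]
    have h2 : (P.card : ℝ) ≤
        (2 * ((D : ℝ) * (2 ^ D * (M : ℝ)) ^ 2) + 1) ^ 3 * ((A2 : ℝ) * (k : ℝ) ^ e2) ^ D := by
      have := hPcard
      exact_mod_cast this
    have h3 : (0 : ℝ) ≤ (1 - 1 / (q : ℝ)) ^ (k / 2) := pow_nonneg hq1 _
    have h4 := mul_le_mul_of_nonneg_right (mul_le_mul_of_nonneg_left h2 (by norm_num : (0:ℝ) ≤ 2)) h3
    linarith

end Vale.Agent.H18.VW
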