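import Mathlib

/-! L10'. Numerics for the quantitative bound. -/

namespace Vale.Agent.H18.VW

open Finset

namespace NumQ

open Filter Topology

theorem fact_bd (q : ℕ) (hq : 5 ≤ q) :
    (10000 : ℝ) * (((q : ℝ) ^ 2) ^ 2) ^ 2 * (((q ^ 2) ^ 2).factorial : ℝ) ≤ Real.exp ((q : ℝ) ^ 6) := by
  have hq' : (5 : ℝ) ≤ q := by exact_mod_cast hq
  have hq0 : (0 : ℝ) < q := by linarith
  have h1 : (((q ^ 2) ^ 2).factorial : ℝ) ≤ (((q : ℝ) ^ 2) ^ 2) ^ ((q ^ 2) ^ 2) := by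
    have := Nat.factorial_le_pow ((q ^ 2) ^ 2)
    exact_mod_cast this
  have h2 : (q : ℝ) ≤ Real.exp q := by
    have := Real.add_one_le_exp (q : ℝ)
    linarith
  have h3 : (((q : ℝ) ^ 2) ^ 2) ^ ((q ^ 2) ^ 2) ≤ Real.exp (4 * (q : ℝ) ^ 5) := by
    calc (((q : ℝ) ^ 2) ^ 2) ^ ((q ^ 2) ^ 2) = (q : ℝ) ^ (4 * q ^ 4) := by
          rw [← pow_mul, ← pow_mul]; congr 1; ring
      _ ≤ Real.exp q ^ (4 * q ^ 4) := pow_le_pow_left₀ hq0.le h2 _
      _ = Real.exp (4 * (q : ℝ) ^ 5) := by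
          rw [← Real.exp_nat_mul]; congr 1; push_cast; ring
  have h4 : (((q : ℝ) ^ 2) ^ 2) ^ 2 ≤ Real.exp (8 * q) := by
    calc (((q : ℝ) ^ 2) ^ 2) ^ 2 = (q : ℝ) ^ 8 := by ring
      _ ≤ Real.exp q ^ 8 := pow_le_pow_left₀ hq0.le h2 _
      _ = Real.exp (8 * q) := by rw [← Real.exp_nat_mul]; norm_num
  have h5 : (10000 : ℝ) ≤ Real.exp 10 := by
    have := Real.exp_one_gt_d9
    calc (10000 : ℝ) ≤ 2.7182818283 ^ 10 := by norm_num
      _ ≤ Real.exp 1 ^ 10 := pow_le_pow_left₀ (by norm_num) this.le _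
      _ = Real.exp 10 := by rw [← Real.exp_nat_mul]; norm_num
  calc (10000 : ℝ) * (((q : ℝ) ^ 2) ^ 2) ^ 2 * (((q ^ 2) ^ 2).factorial : ℝ)
      ≤ Real.exp 10 * Real.exp (8 * q) * Real.exp (4 * (q : ℝ) ^ 5) := by
        have := h1.trans h3
        gcongr
    _ = Real.exp (10 + 8 * q + 4 * (q : ℝ) ^ 5) := by rw [Real.exp_add, Real.exp_add]
    _ ≤ Real.exp ((q : ℝ) ^ 6) := by
        rw [Real.exp_le_exp]
        have h6 : (625 : ℝ) ≤ (q : ℝ) ^ 4 := by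
          calc (625 : ℝ) = 5 ^ 4 := by norm_num
            _ ≤ (q : ℝ) ^ 4 := pow_le_pow_left₀ (by norm_num) hq' _
        have h7 : 625 * (q : ℝ) ≤ (q : ℝ) ^ 5 := by
          calc 625 * (q : ℝ) ≤ (q : ℝ) ^ 4 * q := by gcongr
            _ = (q : ℝ) ^ 5 := by ring
        have h8 : 5 * (q : ℝ) ^ 5 ≤ (q : ℝ) ^ 6 := by
          calc 5 * (q : ℝ) ^ 5 ≤ q * (q : ℝ) ^ 5 := by gcongr
            _ = (q : ℝ) ^ 6 := by ring
        linarith

/-- first term -/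
theorem term1 (q k : ℕ) (l X : ℝ) (hq : 5 ≤ q) (hqk : (q : ℝ) ≤ k)
    (hl : l ≤ 6 * Real.log (q + 1)) (hX0 : 0 ≤ X) (hX : X ≤ 2 * Real.exp (1 / 10000 * k * l))
    (hk : 8 * (((k : ℝ) ^ 1) * Real.exp (-(1 / 125 : ℝ)) ^ k) < 1 / 2) :
    2 * X ^ 2 * (1 / (q : ℝ)) ^ (k / 64) < 1 / 2 := by
  have hq' : (5 : ℝ) ≤ q := by exact_mod_cast hq
  have hq0 : (0 : ℝ) < q := by linarith
  have hk0 : (0 : ℝ) ≤ k := Nat.cast_nonneg _
  have hlq : Real.log 2 ≤ Real.log q := Real.log_le_log (by norm_num) (by linarith)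
  have hlq' : (0.69 : ℝ) ≤ Real.log q := by
    have := Real.log_two_gt_d9
    linarith
  have h1 : Real.log (q + 1) ≤ 2 * Real.log q := by
    have h11 : 2 * Real.log q = Real.log ((q : ℝ) ^ 2) := by
      rw [Real.log_pow]; norm_num
    rw [h11]
    apply Real.log_le_log (by positivity)
    nlinarith
  have h2 : X ^ 2 ≤ 4 * Real.exp (3 / 1250 * k * Real.log q) := by
    calc X ^ 2 ≤ (2 * Real.exp (1 / 10000 * k * l)) ^ 2 := pow_le_pow_left₀ hX0 hX 2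
      _ = 4 * Real.exp (2 * (1 / 10000 * k * l)) := by
          rw [mul_pow, ← Real.exp_nat_mul]; norm_num
      _ ≤ 4 * Real.exp (3 / 1250 * k * Real.log q) := by
          have : 2 * (1 / 10000 * k * l) ≤ 3 / 1250 * k * Real.log q := by
            have h21 : l ≤ 12 * Real.log q := by linarith
            have h22 : (k : ℝ) * l ≤ k * (12 * Real.log q) := mul_le_mul_of_nonneg_left h21 hk0
            linarith
          have := Real.exp_le_exp.2 this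
          linarith
  have h3 : (1 / (q : ℝ)) ^ (k / 64) ≤ q * Real.exp (-(1 / 64) * k * Real.log q) := by
    have h31 : 1 / (q : ℝ) = Real.exp (-Real.log q) := by
      rw [Real.exp_neg, Real.exp_log hq0, one_div]
    calc (1 / (q : ℝ)) ^ (k / 64) = Real.exp (((k / 64 : ℕ) : ℝ) * -Real.log q) := by
          rw [h31, Real.exp_nat_mul]
      _ ≤ Real.exp (Real.log q + -(1 / 64) * k * Real.log q) := by
          rw [Real.exp_le_exp]
          have h32 : (k : ℝ) ≤ 64 * ((k / 64 : ℕ) : ℝ) + 64 := by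
            have : k ≤ 64 * (k / 64) + 64 := by omega
            exact_mod_cast this
          nlinarith
      _ = _ := by rw [Real.exp_add, Real.exp_log hq0]
  refine lt_of_le_of_lt ?_ hk
  calc 2 * X ^ 2 * (1 / (q : ℝ)) ^ (k / 64)
      ≤ 2 * (4 * Real.exp (3 / 1250 * k * Real.log q)) *
          (q * Real.exp (-(1 / 64) * k * Real.log q)) := by gcongr
    _ = 8 * (q * (Real.exp (3 / 1250 * k * Real.log q)
          * Real.exp (-(1 / 64) * k * Real.log q))) := by ring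
    _ = 8 * (q * Real.exp ((3 / 1250 * k * Real.log q)
          + (-(1 / 64) * k * Real.log q))) := by rw [Real.exp_add]
    _ ≤ 8 * ((k : ℝ) * Real.exp (k * -(1 / 125 : ℝ))) := by
        have : (3 / 1250 * k * Real.log q) + (-(1 / 64) * k * Real.log q)
            ≤ k * -(1 / 125 : ℝ) := by
          have h33 : (k : ℝ) * 0.69 ≤ k * Real.log q := mul_le_mul_of_nonneg_left hlq' hk0
          linarith
        gcongr
    _ = _ := by rw [Real.exp_nat_mul, pow_one]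

/-- second term -/
theorem term2 (q k A e : ℕ) (L M : ℝ) (hq : 5 ≤ q) (hL : L = Real.log k)
    (hqL : ((q ^ 2 : ℕ) : ℝ) ≤ L) (hA : A ≤ k)
    (hk : 26 * L * (10 + 9 * L + (5 * e + 1) * L ^ 2) ≤ k)
    (hM1 : 1 ≤ M) (hM2 : M ≤ 2 * Real.exp (k / (13 * (q : ℝ)))) :
    2 * ((2 * ((((q ^ 2 : ℕ) : ℝ)) * (2 ^ (q ^ 2) * M) ^ 2) + 1) ^ 3 *
          ((A : ℝ) * ((((q ^ 2 : ℕ) : ℝ)) ^ 2 * (k : ℝ) * ((((q ^ 2 : ℕ) : ℝ)) + 1)) ^ e) ^ (q ^ 2))
          * (1 - 1 / (q : ℝ)) ^ (k / 2) < 1 / 2 := by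
  have hq' : (5 : ℝ) ≤ q := by exact_mod_cast hq
  have hq0 : (0 : ℝ) < q := by linarith
  have hD25 : (25 : ℝ) ≤ ((q ^ 2 : ℕ) : ℝ) := by push_cast; nlinarith
  set D : ℕ := q ^ 2 with hD
  have hqD : (q : ℝ) ≤ D := by rw [hD]; push_cast; nlinarith
  have hL0 : 25 ≤ L := hD25.trans hqL
  have hk0 : (0 : ℝ) < k := by
    rcases Nat.eq_zero_or_pos k with h | h
    · rw [h] at hL; simp at hL; linarith
    · exact_mod_cast h
  have hLk : L ≤ k := by
    rw [hL]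
    have := Real.log_le_sub_one_of_pos hk0
    linarith
  have hkL : (k : ℝ) = Real.exp L := by rw [hL, Real.exp_log hk0]
  have hDk : (D : ℝ) ≤ k := hqL.trans hLk
  have hk25 : (25 : ℝ) ≤ k := hL0.trans hLk
  have hA' : (A : ℝ) ≤ k := by exact_mod_cast hA
  have hA0 : (0 : ℝ) ≤ A := Nat.cast_nonneg _
  have hD0 : (0 : ℝ) < D := by linarith
  -- the polynomial part
  have p1 : (A : ℝ) * ((D : ℝ) ^ 2 * (k : ℝ) * ((D : ℝ) + 1)) ^ e ≤ (k : ℝ) ^ (5 * e + 1) := by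
    have p11 : (D : ℝ) ^ 2 * (k : ℝ) * ((D : ℝ) + 1) ≤ (k : ℝ) ^ 5 := by
      calc (D : ℝ) ^ 2 * (k : ℝ) * ((D : ℝ) + 1) ≤ (k : ℝ) ^ 2 * k * (k + 1) := by gcongr
        _ ≤ (k : ℝ) ^ 2 * k * (k * k) := by
            have : (k : ℝ) + 1 ≤ k * k := by nlinarith
            gcongr
        _ = (k : ℝ) ^ 5 := by ring
    calc (A : ℝ) * ((D : ℝ) ^ 2 * (k : ℝ) * ((D : ℝ) + 1)) ^ e ≤ k * ((k : ℝ) ^ 5) ^ e := by gcongr
      _ = (k : ℝ) ^ (5 * e + 1) := by rw [← pow_mul]; ring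
  have p2 : ((A : ℝ) * ((D : ℝ) ^ 2 * (k : ℝ) * ((D : ℝ) + 1)) ^ e) ^ D
      ≤ Real.exp ((5 * e + 1) * L ^ 2) := by
    calc ((A : ℝ) * ((D : ℝ) ^ 2 * (k : ℝ) * ((D : ℝ) + 1)) ^ e) ^ D
        ≤ ((k : ℝ) ^ (5 * e + 1)) ^ D := pow_le_pow_left₀ (by positivity) p1 _
      _ = Real.exp ((5 * e + 1) * D * L) := by
          rw [hkL, ← pow_mul, ← Real.exp_nat_mul]; push_cast; ring_nf
      _ ≤ Real.exp ((5 * e + 1) * L ^ 2) := by
          rw [Real.exp_le_exp]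
          have : (D : ℝ) * L ≤ L ^ 2 := by nlinarith
          have he : (0 : ℝ) ≤ 5 * e + 1 := by positivity
          nlinarith [mul_le_mul_of_nonneg_left this he]
  have p3 : 2 * ((D : ℝ) * (2 ^ D * M) ^ 2) + 1 ≤ 3 * (Real.exp L * Real.exp (2 * L)) * M ^ 2 := by
    have p31 : (1 : ℝ) ≤ (2 ^ D * M) ^ 2 := by
      have : (1 : ℝ) ≤ 2 ^ D * M := by
        have := one_le_pow₀ (show (1 : ℝ) ≤ 2 by norm_num) (n := D)
        nlinarith
      nlinarith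
    have p32 : 2 * ((D : ℝ) * (2 ^ D * M) ^ 2) + 1 ≤ 3 * ((D : ℝ) * (2 ^ D * M) ^ 2) := by
      nlinarith
    have p33 : (2 : ℝ) ^ D ≤ Real.exp L := by
      calc (2 : ℝ) ^ D ≤ Real.exp 1 ^ D := by
            apply pow_le_pow_left₀ (by norm_num)
            have := Real.exp_one_gt_d9
            linarith
        _ = Real.exp D := by rw [← Real.exp_nat_mul, mul_one]
        _ ≤ _ := Real.exp_le_exp.2 hqL
    calc 2 * ((D : ℝ) * (2 ^ D * M) ^ 2) + 1 ≤ 3 * ((D : ℝ) * (2 ^ D * M) ^ 2) := p32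
      _ ≤ 3 * (Real.exp L * (Real.exp L * M) ^ 2) := by
          rw [hkL] at hDk
          gcongr
      _ = 3 * (Real.exp L * (Real.exp L ^ 2)) * M ^ 2 := by ring
      _ = _ := by rw [← Real.exp_nat_mul]; norm_num
  have h30 : 0 ≤ 1 - 1 / (q : ℝ) := by
    have : 1 / (q : ℝ) ≤ 1 := by rw [div_le_one hq0]; linarith
    linarith
  have h36 : 0 ≤ (1 - 1 / (q : ℝ)) ^ (k / 2) := pow_nonneg h30 _
  have h3 : (1 - 1 / (q : ℝ)) ^ (k / 2) ≤ 2 * Real.exp (-(k / (2 * (q : ℝ)))) := by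
    have h31 : 1 - 1 / (q : ℝ) ≤ Real.exp (-(1 / (q : ℝ))) := by
      have := Real.add_one_le_exp (-(1 / (q : ℝ)))
      linarith
    calc (1 - 1 / (q : ℝ)) ^ (k / 2) ≤ Real.exp (-(1 / (q : ℝ))) ^ (k / 2) :=
          pow_le_pow_left₀ h30 h31 _
      _ = Real.exp (((k / 2 : ℕ) : ℝ) * -(1 / (q : ℝ))) := by rw [Real.exp_nat_mul]
      _ ≤ Real.exp (1 / 10 + -(k / (2 * (q : ℝ)))) := by
          rw [Real.exp_le_exp]
          have h32 : (k : ℝ) ≤ 2 * ((k / 2 : ℕ) : ℝ) + 1 := by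
            have : k ≤ 2 * (k / 2) + 1 := by omega
            exact_mod_cast this
          have h33 : (k : ℝ) / (2 * (q : ℝ)) = (1 / 2) * k * (1 / q) := by ring
          rw [h33]
          have h34 : 0 < 1 / (q : ℝ) := by positivity
          have h35 : 1 / (q : ℝ) ≤ 1 / 5 := one_div_le_one_div_of_le (by norm_num) hq'
          nlinarith
      _ = Real.exp (1 / 10) * Real.exp (-(k / (2 * (q : ℝ)))) := by rw [Real.exp_add]
      _ ≤ 2 * Real.exp (-(k / (2 * (q : ℝ)))) := by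
          have : Real.exp (1 / 10) ≤ 2 := by
            rw [← Real.le_log_iff_exp_le (by norm_num)]
            have := Real.log_two_gt_d9
            linarith
          gcongr
  have h4 : M ^ 6 ≤ 64 * Real.exp (6 * k / (13 * (q : ℝ))) := by
    have hM0 : 0 ≤ M := by linarith
    calc M ^ 6 ≤ (2 * Real.exp (k / (13 * (q : ℝ)))) ^ 6 := pow_le_pow_left₀ hM0 hM2 6
      _ = 2 ^ 6 * Real.exp (k / (13 * (q : ℝ))) ^ 6 := by rw [mul_pow]
      _ = _ := by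
          rw [← Real.exp_nat_mul]
          congr 2
          · norm_num
          · push_cast
            ring
  have h5 : (6912 : ℝ) ≤ Real.exp 9 := by
    have := Real.exp_one_gt_d9
    calc (6912 : ℝ) ≤ 2.7182818283 ^ 9 := by norm_num
      _ ≤ Real.exp 1 ^ 9 := pow_le_pow_left₀ (by norm_num) this.le _
      _ = Real.exp 9 := by rw [← Real.exp_nat_mul]; norm_num
  have h6 : Real.exp (-1) < 1 / 2 := by
    have := Real.exp_one_gt_d9
    rw [Real.exp_neg, inv_eq_one_div]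
    apply one_div_lt_one_div_of_lt (by norm_num)
    linarith
  have h7 : 9 + (9 * L + (5 * e + 1) * L ^ 2) + (6 * k / (13 * (q : ℝ)) + -(k / (2 * (q : ℝ)))) ≤ -1 := by
    have h71 : 6 * k / (13 * (q : ℝ)) + -(k / (2 * (q : ℝ))) = -(k / (26 * q)) := by
      field_simp
      ring
    rw [h71]
    have h72 : 10 + 9 * L + (5 * e + 1) * L ^ 2 ≤ k / (26 * (q : ℝ)) := by
      rw [le_div_iff₀ (by positivity)]
      have h73 : (q : ℝ) ≤ L := hqD.trans hqL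
      have h74 : 0 ≤ 10 + 9 * L + (5 * e + 1) * L ^ 2 := by positivity
      calc (10 + 9 * L + (5 * e + 1) * L ^ 2) * (26 * (q : ℝ))
          ≤ (10 + 9 * L + (5 * e + 1) * L ^ 2) * (26 * L) :=
            mul_le_mul_of_nonneg_left (by linarith) h74
        _ = 26 * L * (10 + 9 * L + (5 * e + 1) * L ^ 2) := by ring
        _ ≤ k := hk
    have h75 : 9 + (9 * L + (5 * e + 1) * L ^ 2) + -(k / (26 * (q : ℝ)))
        = (10 + 9 * L + (5 * e + 1) * L ^ 2) - k / (26 * (q : ℝ)) - 1 := by ring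
    rw [h75]
    linarith only [h72]
  have h8 : 0 ≤ 2 * ((D : ℝ) * (2 ^ D * M) ^ 2) + 1 := by positivity
  calc 2 * ((2 * ((D : ℝ) * (2 ^ D * M) ^ 2) + 1) ^ 3 *
          ((A : ℝ) * ((D : ℝ) ^ 2 * (k : ℝ) * ((D : ℝ) + 1)) ^ e) ^ D)
          * (1 - 1 / (q : ℝ)) ^ (k / 2)
      ≤ 2 * ((3 * (Real.exp L * Real.exp (2 * L)) * M ^ 2) ^ 3 *
          Real.exp ((5 * e + 1) * L ^ 2)) * (2 * Real.exp (-(k / (2 * (q : ℝ))))) := by
        gcongr
    _ = 108 * ((Real.exp L * Real.exp (2 * L)) ^ 3 * Real.exp ((5 * e + 1) * L ^ 2)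
          * Real.exp (-(k / (2 * (q : ℝ))))) * M ^ 6 := by ring
    _ ≤ 108 * ((Real.exp L * Real.exp (2 * L)) ^ 3 * Real.exp ((5 * e + 1) * L ^ 2)
          * Real.exp (-(k / (2 * (q : ℝ))))) * (64 * Real.exp (6 * k / (13 * (q : ℝ)))) := by
        gcongr
    _ = 6912 * (((Real.exp L * Real.exp (2 * L)) ^ 3 * Real.exp ((5 * e + 1) * L ^ 2)) *
          (Real.exp (6 * k / (13 * (q : ℝ))) * Real.exp (-(k / (2 * (q : ℝ)))))) := by ring
    _ ≤ Real.exp 9 * (((Real.exp L * Real.exp (2 * L)) ^ 3 * Real.exp ((5 * e + 1) * L ^ 2)) *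
          (Real.exp (6 * k / (13 * (q : ℝ))) * Real.exp (-(k / (2 * (q : ℝ)))))) := by
        gcongr
    _ = Real.exp (9 + (9 * L + (5 * e + 1) * L ^ 2)
          + (6 * k / (13 * (q : ℝ)) + -(k / (2 * (q : ℝ))))) := by
        have : (Real.exp L * Real.exp (2 * L)) ^ 3 = Real.exp (9 * L) := by
          rw [← Real.exp_add, ← Real.exp_nat_mul]
          congr 1
          push_cast
          ring
        rw [this, ← Real.exp_add, ← Real.exp_add, ← Real.exp_add, ← Real.exp_add]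
        congr 1
        ring
    _ ≤ Real.exp (-1) := Real.exp_le_exp.2 h7
    _ < 1 / 2 := h6

theorem two_pow_bd (k q : ℕ) (X : ℝ) (hk100 : (100 : ℝ) ≤ k) (hq5' : (5 : ℝ) ≤ q)
    (hX : X = Real.exp (k / (13 * (q : ℝ)))) : 2 * X ≤ (2 : ℝ) ^ k := by
  have hkpos : (0 : ℝ) < k := by linarith
  have h6 : (2 : ℝ) ^ k = Real.exp (k * Real.log 2) := by
    rw [Real.exp_nat_mul, Real.exp_log (by norm_num)]
  have h7 : 2 * X ≤ Real.exp (1 + k / (13 * (q : ℝ))) := by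
    rw [Real.exp_add, hX]
    have := Real.exp_one_gt_d9
    have : (2 : ℝ) ≤ Real.exp 1 := by linarith
    gcongr
  rw [h6]
  refine h7.trans (Real.exp_le_exp.2 ?_)
  have h8 : (k : ℝ) / (13 * (q : ℝ)) ≤ k / 65 := by
    apply div_le_div_of_nonneg_left hkpos.le (by norm_num)
    linarith
  have h9 : (k : ℝ) * 0.69 ≤ k * Real.log 2 := by
    have := Real.log_two_gt_d9
    gcongr
    linarith
  linarith

theorem pow_bd (k q : ℕ) (X Y l : ℝ) (hk100 : (100 : ℝ) ≤ k) (hq5' : (5 : ℝ) ≤ q)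
    (hl2 : l ≤ 6 * q)
    (hX : X = Real.exp (k / (13 * (q : ℝ)))) (hY : Y = Real.exp (1 / 10000 * k * l)) :
    2 * Y < X ^ (q ^ 2) := by
  have hkpos : (0 : ℝ) < k := by linarith
  have hq0 : (0 : ℝ) < q := by linarith
  have h6 : X ^ (q ^ 2) = Real.exp (k * q / 13) := by
    rw [hX, ← Real.exp_nat_mul]
    congr 1
    push_cast
    field_simp
  have hY0 : 0 < Y := by rw [hY]; exact Real.exp_pos _
  rw [h6]
  calc 2 * Y ≤ Real.exp 1 * Y := by
        have := Real.exp_one_gt_d9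
        have : (2 : ℝ) ≤ Real.exp 1 := by linarith
        gcongr
    _ = Real.exp (1 + 1 / 10000 * k * l) := by rw [hY, Real.exp_add]
    _ < Real.exp (k * q / 13) := by
        rw [Real.exp_lt_exp]
        have h8 : (k : ℝ) * l ≤ k * (6 * q) := mul_le_mul_of_nonneg_left hl2 hkpos.le
        have h9 : (100 : ℝ) * 5 ≤ k * q := mul_le_mul hk100 hq5' (by norm_num) hkpos.le
        have h10 : 1 / 10000 * (k : ℝ) * l ≤ 6 / 10000 * (k * q) := by linarith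
        linarith

theorem ev2 (e : ℕ) : ∀ᶠ k : ℕ in atTop, 26 * Real.log (k : ℝ) *
      (10 + 9 * Real.log (k : ℝ) + (5 * e + 1) * Real.log (k : ℝ) ^ 2) ≤ k := by
  have hlog : Tendsto (fun k : ℕ => Real.log (k : ℝ)) atTop atTop :=
    Real.tendsto_log_atTop.comp tendsto_natCast_atTop_atTop
  have h : ∀ᶠ x : ℝ in atTop, 26 * x * (10 + 9 * x + (5 * e + 1) * x ^ 2) ≤ Real.exp x := by
    have h1 : Tendsto (fun x : ℝ => x ^ 4 / Real.exp x) atTop (𝓝 0) := by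
      have := Real.tendsto_pow_mul_exp_neg_atTop_nhds_zero 4
      refine this.congr fun x => ?_
      rw [Real.exp_neg, div_eq_mul_inv]
    filter_upwards [h1.eventually (gt_mem_nhds (show (0 : ℝ) < 1 by norm_num)),
      eventually_ge_atTop (26 * (20 + (5 * e : ℝ)))] with x hx hx2
    rw [div_lt_one (Real.exp_pos _)] at hx
    refine le_trans ?_ hx.le
    have he : (0 : ℝ) ≤ e := Nat.cast_nonneg _
    have hx1 : 1 ≤ x := by linarith
    have hx0 : 0 ≤ x := by linarith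
    calc 26 * x * (10 + 9 * x + (5 * e + 1) * x ^ 2)
        ≤ 26 * x * (10 * x ^ 2 + 9 * x ^ 2 + (5 * e + 1) * x ^ 2) := by
          have h3 : 1 ≤ x ^ 2 := one_le_pow₀ hx1
          have h4 : x ≤ x ^ 2 := by nlinarith
          gcongr
          linarith
      _ = 26 * (20 + (5 * e : ℝ)) * x ^ 3 := by ring
      _ ≤ x * x ^ 3 := by gcongr
      _ = x ^ 4 := by ring
  filter_upwards [hlog.eventually h, eventually_ge_atTop 1] with k hk hk1
  rwa [Real.exp_log (by exact_mod_cast hk1)] at hk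

end NumQ

open NumQ Filter Topology in
theorem numeric_explicit (A e D0 : ℕ) : ∃ c : ℝ, 0 < c ∧ ∃ k0 : ℕ, ∀ k ≥ k0,
    ∃ q D M N : ℕ, 2 ≤ q ∧ D0 ≤ D ∧ 2 ≤ D ∧
      10000 * (D ^ 2) ^ 2 * (D ^ 2).factorial ≤ k ∧ k < M ∧ M ≤ 2 ^ k ∧ N < M ^ D ∧
      Real.exp (c * k * Real.log (Real.log k)) ≤ N ∧
      2 * (N : ℝ) ^ 2 * (1 / (q : ℝ)) ^ (k / 64) +
        2 * ((2 * ((D : ℝ) * (2 ^ D * (M : ℝ)) ^ 2) + 1) ^ 3 *
          ((A : ℝ) * ((D : ℝ) ^ 2 * (k : ℝ) * ((D : ℝ) + 1)) ^ e) ^ D)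
          * (1 - 1 / (q : ℝ)) ^ (k / 2) < 1 := by
  have hlog : Tendsto (fun k : ℕ => Real.log (k : ℝ)) atTop atTop :=
    Real.tendsto_log_atTop.comp tendsto_natCast_atTop_atTop
  have hr : |Real.exp (-(1 / 125 : ℝ))| < 1 := by
    rw [abs_of_pos (Real.exp_pos _), Real.exp_lt_one_iff]
    norm_num
  have e1 : ∀ᶠ k : ℕ in atTop, 8 * (((k : ℝ) ^ 1) * Real.exp (-(1 / 125 : ℝ)) ^ k) < 1 / 2 := by
    have h := (tendsto_pow_const_mul_const_pow_of_abs_lt_one 1 hr).const_mul 8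
    rw [mul_zero] at h
    exact h.eventually (gt_mem_nhds (show (0 : ℝ) < 1 / 2 by norm_num))
  have e2 := ev2 e
  have e3 : ∀ᶠ k : ℕ in atTop, ((D0 : ℝ) + 6) ^ 6 ≤ Real.log k := hlog.eventually_ge_atTop _
  obtain ⟨k0, hk0⟩ := Filter.eventually_atTop.1 ((e1.and e2).and (e3.and
    (eventually_ge_atTop (A + 100))))
  refine ⟨1 / 10000, by norm_num, k0, fun k hk => ?_⟩
  obtain ⟨⟨hk1, hk2⟩, hk3, hk4⟩ := hk0 k hk
  have hkA : A ≤ k := by omega
  have hk100 : (100 : ℝ) ≤ k := by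
    have : 100 ≤ k := by omega
    exact_mod_cast this
  have hkpos : (0 : ℝ) < k := by linarith
  set L : ℝ := Real.log k with hL
  have hkL : (k : ℝ) = Real.exp L := by rw [hL, Real.exp_log hkpos]
  have hD00 : (0 : ℝ) ≤ D0 := Nat.cast_nonneg _
  have hL0 : 0 ≤ L := le_trans (by positivity) hk3
  set x : ℝ := L ^ ((1 : ℝ) / 6) with hx
  have hx0 : 0 ≤ x := Real.rpow_nonneg hL0 _
  have hx6 : x ^ 6 = L := by
    rw [hx, ← Real.rpow_natCast, ← Real.rpow_mul hL0]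
    norm_num
  have hxD : (D0 : ℝ) + 6 ≤ x := by
    rw [← hx6] at hk3
    exact le_of_pow_le_pow_left₀ (by norm_num) hx0 hk3
  set q : ℕ := ⌊x⌋₊ with hq
  have hqx : (q : ℝ) ≤ x := Nat.floor_le hx0
  have hxq : x < q + 1 := Nat.lt_floor_add_one x
  have hqD : D0 + 5 ≤ q := by
    have : ((D0 + 5 : ℕ) : ℝ) < ((q + 1 : ℕ) : ℝ) := by
      push_cast
      linarith
    have := Nat.cast_lt.1 this
    omega
  have hq5 : 5 ≤ q := by omega
  have hq5' : (5 : ℝ) ≤ q := by exact_mod_cast hq5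
  have hq0 : (0 : ℝ) < q := by linarith
  have hq6 : (q : ℝ) ^ 6 ≤ L := by
    rw [← hx6]; exact pow_le_pow_left₀ hq0.le hqx 6
  have hLq : L < ((q : ℝ) + 1) ^ 6 := by
    rw [← hx6]; exact pow_lt_pow_left₀ hxq hx0 (by norm_num)
  have hq2 : ((q ^ 2 : ℕ) : ℝ) ≤ L := by
    refine le_trans ?_ hq6
    push_cast
    exact pow_le_pow_right₀ (by linarith) (by norm_num)
  have hqL : (q : ℝ) ≤ L := by
    refine le_trans ?_ hq6
    exact le_self_pow₀ (by linarith) (by norm_num)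
  have hLk : L ≤ k := by
    have := Real.log_le_sub_one_of_pos hkpos
    linarith
  have hqk : (q : ℝ) ≤ k := hqL.trans hLk
  set l : ℝ := Real.log L with hl
  have hLpos : 0 < L := lt_of_lt_of_le hq0 hqL
  have hl1 : l ≤ 6 * Real.log (q + 1) := by
    have h : 6 * Real.log ((q : ℝ) + 1) = Real.log (((q : ℝ) + 1) ^ 6) := by
      rw [Real.log_pow]; norm_num
    rw [h]
    exact Real.log_le_log hLpos hLq.le
  have hl2 : l ≤ 6 * q := by
    have := Real.log_le_sub_one_of_pos (show (0 : ℝ) < (q : ℝ) + 1 by linarith)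
    linarith
  have hl0 : 0 ≤ l := by
    apply Real.log_nonneg
    linarith
  -- k is large compared with q
  have hkq : 26 * (q : ℝ) * (10 + 9 * L + (5 * e + 1) * L ^ 2) ≤ k := by
    refine le_trans ?_ hk2
    gcongr
  have hkq' : 13 * (q : ℝ) * (20 + L) < k := by
    have he : (0 : ℝ) ≤ e := Nat.cast_nonneg _
    have h1 : (20 : ℝ) + L < 2 * (10 + 9 * L + (5 * e + 1) * L ^ 2) := by
      have : 0 ≤ (5 * (e : ℝ) + 1) * L ^ 2 := by positivity
      linarith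
    have h2 : 13 * (q : ℝ) * (20 + L) < 13 * (q : ℝ) * (2 * (10 + 9 * L + (5 * e + 1) * L ^ 2)) :=
      mul_lt_mul_of_pos_left h1 (by positivity)
    linarith
  set X : ℝ := Real.exp (k / (13 * (q : ℝ))) with hX
  have hX0 : 0 < X := Real.exp_pos _
  have hX1 : 1 ≤ X := by
    rw [hX]; exact Real.one_le_exp (by positivity)
  have hXk : (k : ℝ) < X := by
    rw [hX]
    conv_lhs => rw [hkL]
    rw [Real.exp_lt_exp, lt_div_iff₀ (by positivity)]
    nlinarith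
  set Y : ℝ := Real.exp (1 / 10000 * k * l) with hY
  have hY1 : 1 ≤ Y := by
    rw [hY]; exact Real.one_le_exp (by positivity)
  have hY0 : 0 < Y := Real.exp_pos _
  have hN2 : ((⌈Y⌉₊ : ℕ) : ℝ) ≤ 2 * Y := by
    have := (Nat.ceil_lt_add_one hY0.le).le
    linarith
  have hM1 : (1 : ℝ) ≤ ((⌊X⌋₊ + 1 : ℕ) : ℝ) := by
    push_cast
    have : (0 : ℝ) ≤ (⌊X⌋₊ : ℝ) := Nat.cast_nonneg _
    linarith
  have hM2 : ((⌊X⌋₊ + 1 : ℕ) : ℝ) ≤ 2 * X := by
    push_cast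
    have := Nat.floor_le hX0.le
    linarith
  refine ⟨q, q ^ 2, ⌊X⌋₊ + 1, ⌈Y⌉₊, by omega, ?_, ?_, ?_, ?_, ?_, ?_, ?_, ?_⟩
  · nlinarith
  · nlinarith
  · have h := fact_bd q hq5
    have h2 : Real.exp ((q : ℝ) ^ 6) ≤ k := by
      rw [hkL]; exact Real.exp_le_exp.2 hq6
    exact_mod_cast h.trans h2
  · have h5 : (k : ℝ) < ((⌊X⌋₊ + 1 : ℕ) : ℝ) := by
      push_cast
      exact hXk.trans (Nat.lt_floor_add_one X)
    exact_mod_cast h5
  · have h5 : ((⌊X⌋₊ + 1 : ℕ) : ℝ) ≤ ((2 ^ k : ℕ) : ℝ) := by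
      refine hM2.trans ?_
      push_cast
      exact two_pow_bd k q X hk100 hq5' hX
    exact_mod_cast h5
  · have h5 : ((⌈Y⌉₊ : ℕ) : ℝ) < (((⌊X⌋₊ + 1) ^ (q ^ 2) : ℕ) : ℝ) := by
      refine lt_of_le_of_lt hN2 ?_
      push_cast
      refine (pow_bd k q X Y l hk100 hq5' hl2 hX hY).trans_le ?_
      exact pow_le_pow_left₀ hX0.le (Nat.lt_floor_add_one X).le _
    exact_mod_cast h5
  · exact Nat.le_ceil _
  · have t1 := term1 q k l ((⌈Y⌉₊ : ℕ) : ℝ) hq5 hqk hl1 (Nat.cast_nonneg _) hN2 hk1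
    have t2 := term2 q k A e L ((⌊X⌋₊ + 1 : ℕ) : ℝ) hq5 hL hq2 hkA hk2 hM1 hM2
    linarith

end Vale.Agent.H18.VW
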